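import Mathlib

-- ▼ part R114/Code
section

/-! Coding of special lists: `tau`, `dep`. (helper999) -/

set_option autoImplicit false

namespace Crest.Agent.R114

open Set Filter

/-- lists of pairs (rational functional, index of its weight) -/
abbrev SList (I : Type*) := List ((I →₀ ℚ) × ℕ)

section coding
variable {I : Type*} [LinearOrder I]

/-- union of the supports of the functionals of a list -/
noncomputable def suppL (L : SList I) : Finset I :=
  L.foldr (fun p s => p.1.support ∪ s) ∅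

@[simp] lemma suppL_nil : suppL ([] : SList I) = ∅ := rfl

@[simp] lemma suppL_cons (p : (I →₀ ℚ) × ℕ) (L : SList I) :
    suppL (p :: L) = p.1.support ∪ suppL L := rfl

lemma mem_suppL {L : SList I} {ξ : I} : ξ ∈ suppL L ↔ ∃ p ∈ L, p.1 ξ ≠ 0 := by
  induction L with
  | nil => simp
  | cons p L ih => simp [ih]

/-- the part of a list below `ξ`: `l ↦ (b_l restricted to Iic ξ)`. -/
noncomputable def restr (ξ : I) (L : SList I) : ℕ →₀ (Set.Iic ξ →₀ ℚ) :=
  (L.map fun p => p.1.subtypeDomain (· ∈ Set.Iic ξ)).toFinsupp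

lemma restr_apply (ξ : I) (L : SList I) (l : ℕ) (η : Set.Iic ξ) :
    restr ξ L l η = (L.getD l 0).1 η := by
  classical
  unfold restr
  rw [List.toFinsupp_apply, List.getD_eq_getElem?_getD, List.getElem?_map,
    List.getD_eq_getElem?_getD]
  cases h : L[l]? with
  | none => simp
  | some p => simp

lemma restr_eq_iff {ξ : I} {L L' : SList I} :
    restr ξ L = restr ξ L' ↔ ∀ l, ∀ η ≤ ξ, (L.getD l 0).1 η = (L'.getD l 0).1 η := by
  constructor
  · intro h l η hη
    have := congrArg (fun f => f l ⟨η, hη⟩) h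
    simpa [restr_apply] using this
  · intro h
    ext l η
    rw [restr_apply, restr_apply]
    exact h l η.1 η.2

/-- rank of `ξ` in the support of `L` -/
noncomputable def rk (L : SList I) (ξ : I) : ℕ := ((suppL L).filter (· < ξ)).card

/-- type of the data attached to a list -/
abbrev DataT := List ℕ × Finset (ℕ × (List Bool × ℕ))

variable (x : I → ℕ → Bool) (E : ∀ ξ : I, (ℕ →₀ (Set.Iic ξ →₀ ℚ)) → ℕ)

/-- the data of depth `κ` of a list: the indices and, for each point of the support, its rank,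
the first `κ` bits of its label and the code of the part of the list below it. -/
noncomputable def dataL (L : SList I) (κ : ℕ) : DataT :=
  (L.map Prod.snd, (suppL L).image fun ξ =>
    (rk L ξ, (List.ofFn (fun i : Fin κ => x ξ i), E ξ (restr ξ L))))

/-- size of data -/
def sizeD (D : DataT) : ℕ := D.1.length + D.1.sum + ∑ d ∈ D.2, (d.1 + d.2.2)


/-- size of a list -/
noncomputable def sizeL (L : SList I) : ℕ := sizeD (dataL x E L 0)


/-- the code of a list -/
noncomputable def tauL (L : SList I) : ℕ :=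
  Nat.pair (Encodable.encode (dataL x E L (sizeL x E L))) ((L.map Prod.snd).sum) + 1

lemma lt_tauL (L : SList I) {p : (I →₀ ℚ) × ℕ} (hp : p ∈ L) : p.2 < tauL x E L := by
  unfold tauL
  have h1 : p.2 ≤ (L.map Prod.snd).sum :=
    List.le_sum_of_mem (List.mem_map_of_mem hp)
  have h2 := Nat.right_le_pair (Encodable.encode (dataL x E L (sizeL x E L)))
    ((L.map Prod.snd).sum)
  omega

lemma tauL_eq {L L' : SList I} (h : tauL x E L = tauL x E L') :
    dataL x E L (sizeL x E L) = dataL x E L' (sizeL x E L') := by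
  unfold tauL at h
  have h' := Nat.succ_injective h
  rw [Nat.pair_eq_pair] at h'
  exact Encodable.encode_injective h'.1

lemma sizeL_of_dataL_eq {L L' : SList I}
    (h : dataL x E L (sizeL x E L) = dataL x E L' (sizeL x E L')) :
    sizeL x E L = sizeL x E L' := by
  -- the empty-prefix version of the data are equal
  have key : ∀ (L : SList I) (κ : ℕ), dataL x E L 0 =
      ((dataL x E L κ).1, (dataL x E L κ).2.image fun d => (d.1, (([] : List Bool), d.2.2))) := by
    intro L κ
    unfold dataL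
    rw [Finset.image_image]
    rfl
  unfold sizeL
  rw [key L (sizeL x E L), key L' (sizeL x E L'), h]

/-- the depth attached to a code -/
noncomputable def depL (j : ℕ) : ℕ :=
  open Classical in
  if h : ∃ L : SList I, tauL x E L = j then sizeL x E h.choose else j

lemma depL_tauL (L : SList I) : depL x E (tauL x E L) = sizeL x E L := by
  have h : ∃ L' : SList I, tauL x E L' = tauL x E L := ⟨L, rfl⟩
  unfold depL
  rw [dif_pos h]
  exact sizeL_of_dataL_eq x E (tauL_eq x E h.choose_spec)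

lemma finite_lists {α : Type*} {T : Set α} (hT : T.Finite) (K : ℕ) :
    {l : List α | l.length ≤ K ∧ ∀ a ∈ l, a ∈ T}.Finite := by
  have := hT.to_subtype
  refine ((List.finite_length_le T K).image (fun l => l.map Subtype.val)).subset ?_
  rintro l ⟨hl, hT'⟩
  refine ⟨l.attach.map fun a => ⟨a.1, hT' a.1 a.2⟩, ?_, ?_⟩
  · simpa using hl
  · simp

lemma finite_data (K : ℕ) :
    {D : DataT | D.1.length ≤ K ∧ (∀ a ∈ D.1, a ≤ K) ∧
      ∀ d ∈ D.2, d.1 ≤ K ∧ d.2.1.length ≤ K ∧ d.2.2 ≤ K}.Finite := by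
  have h1 : {l : List ℕ | l.length ≤ K ∧ ∀ a ∈ l, a ∈ Set.Iic K}.Finite :=
    finite_lists (Set.finite_Iic K) K
  have h2 : {l : List Bool | l.length ≤ K}.Finite := List.finite_length_le Bool K
  have h3 : (Set.Iic K ×ˢ ({l : List Bool | l.length ≤ K} ×ˢ Set.Iic K)).Finite :=
    (Set.finite_Iic K).prod (h2.prod (Set.finite_Iic K))
  have h4 : {s : Finset (ℕ × (List Bool × ℕ)) | s ⊆ h3.toFinset}.Finite := by
    have : {s : Finset (ℕ × (List Bool × ℕ)) | s ⊆ h3.toFinset}
        = ↑(h3.toFinset.powerset) := by ext s; simp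
    rw [this]; exact Finset.finite_toSet _
  refine (h1.prod h4).subset ?_
  rintro ⟨l, s⟩ ⟨ha, hb, hc⟩
  refine ⟨⟨ha, fun a haa => hb a haa⟩, ?_⟩
  intro d hd
  rw [Set.Finite.mem_toFinset]
  exact ⟨(hc d hd).1, (hc d hd).2.1, (hc d hd).2.2⟩

lemma finite_dep (K : ℕ) : {j : ℕ | depL x E j ≤ K}.Finite := by
  have h1 : ((fun D : DataT => Nat.pair (Encodable.encode D) (D.1.sum) + 1) ''
      {D : DataT | D.1.length ≤ K ∧ (∀ a ∈ D.1, a ≤ K) ∧
      ∀ d ∈ D.2, d.1 ≤ K ∧ d.2.1.length ≤ K ∧ d.2.2 ≤ K}).Finite := (finite_data K).image _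
  refine (h1.union (Set.finite_Iic K)).subset ?_
  intro j hj
  by_cases h : ∃ L : SList I, tauL x E L = j
  · left
    obtain ⟨L, rfl⟩ := h
    have hs : sizeL x E L ≤ K := by
      have : depL x E (tauL x E L) ≤ K := hj
      rwa [depL_tauL] at this
    refine ⟨dataL x E L (sizeL x E L), ⟨?_, ?_, ?_⟩, rfl⟩
    · have : (L.map Prod.snd).length ≤ sizeL x E L := by
        unfold sizeL sizeD dataL; dsimp only; omega
      exact this.trans hs
    · intro a ha
      have h2 : a ≤ (L.map Prod.snd).sum := List.le_sum_of_mem ha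
      have h3 : (L.map Prod.snd).sum ≤ sizeL x E L := by
        unfold sizeL sizeD dataL; dsimp only; omega
      omega
    · intro d hd
      obtain ⟨ξ, hξ, rfl⟩ := Finset.mem_image.1 hd
      have h4 : (rk L ξ) + (E ξ (restr ξ L)) ≤ sizeL x E L := by
        unfold sizeL sizeD
        have h5 : (rk L ξ, (List.ofFn (fun i : Fin 0 => x ξ i), E ξ (restr ξ L))) ∈
            (dataL x E L 0).2 := Finset.mem_image_of_mem _ hξ
        have h6 := Finset.single_le_sum (f := fun d : ℕ × (List Bool × ℕ) => d.1 + d.2.2)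
          (fun _ _ => Nat.zero_le _) h5
        dsimp only at h6
        omega
      refine ⟨by dsimp only; omega, ?_, by dsimp only; omega⟩
      simpa using hs
  · right
    have : depL x E j = j := by unfold depL; rw [dif_neg h]
    have hj' : depL x E j ≤ K := hj
    rw [this] at hj'
    exact hj'

lemma tendsto_depL : Tendsto (depL x E) atTop atTop := by
  rw [tendsto_atTop]
  intro K
  have h := finite_dep x E K
  obtain ⟨N, hN⟩ := h.bddAbove
  filter_upwards [eventually_gt_atTop N] with j hj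
  by_contra hlt
  have : j ≤ N := hN (show depL x E j ≤ K by omega)
  omega

end coding

/-- A coding of special lists: injective labels `x`, codes `E ξ L` of the part of `L` below `ξ`,
codes `τ L` of lists with their depth `dep`. -/
structure Coding (I : Type*) [LinearOrder I] where
  x : I → ℕ → Bool
  x_inj : Function.Injective x
  τ : SList I → ℕ
  dep : ℕ → ℕ
  E : I → SList I → ℕ
  lt_τ : ∀ L : SList I, ∀ p ∈ L, p.2 < τ L
  τ_pos : ∀ L : SList I, 0 < τ L
  dep_tendsto : Tendsto dep atTop atTop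
  E_iff : ∀ ξ L L', E ξ L = E ξ L' ↔ restr ξ L = restr ξ L'
  τ_eq : ∀ L L' : SList I, τ L = τ L' →
    L.map Prod.snd = L'.map Prod.snd ∧
      ∀ ξ ∈ suppL L, ∃ ξ' ∈ suppL L', rk L ξ = rk L' ξ' ∧
        (∀ i < dep (τ L), x ξ i = x ξ' i) ∧ E ξ L = E ξ' L'

/-- **Coding theorem.** -/
theorem Coding.exists {I : Type*} [LinearOrder I] (hI : ∀ a : I, (Set.Iic a).Countable)
    (x : I → ℕ → Bool) (hx : Function.Injective x) : ∃ c : Coding I, c.x = x := by
  have hE : ∀ ξ : I, ∃ f : (ℕ →₀ (Set.Iic ξ →₀ ℚ)) → ℕ, Function.Injective f := by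
    intro ξ
    have : Countable (Set.Iic ξ) := (hI ξ).to_subtype
    exact exists_injective_nat _
  choose E hE using hE
  refine ⟨{ x := x, x_inj := hx, τ := tauL x E, dep := depL x E, E := fun ξ L => E ξ (restr ξ L),
            lt_τ := fun L p hp => lt_tauL x E L hp, τ_pos := fun L => Nat.succ_pos _,
            dep_tendsto := tendsto_depL x E,
            E_iff := fun ξ L L' => (hE ξ).eq_iff, τ_eq := ?_ }, rfl⟩
  intro L L' h
  have h1 := tauL_eq x E h
  have h2 := sizeL_of_dataL_eq x E h1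
  rw [← h2] at h1
  have h3 : (dataL x E L (sizeL x E L)).1 = (dataL x E L' (sizeL x E L)).1 := by rw [h1]
  refine ⟨h3, ?_⟩
  intro ξ hξ
  have h4 : (rk L ξ, (List.ofFn (fun i : Fin (sizeL x E L) => x ξ i), E ξ (restr ξ L))) ∈
      (dataL x E L' (sizeL x E L)).2 := by
    rw [← h1]
    exact Finset.mem_image_of_mem _ hξ
  obtain ⟨ξ', hξ', h5⟩ := Finset.mem_image.1 h4
  simp only [Prod.mk.injEq] at h5
  obtain ⟨h6, h7, h8⟩ := h5
  refine ⟨ξ', hξ', h6.symm, ?_, h8.symm⟩
  intro i hi
  rw [depL_tauL] at hi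
  have h9 := List.ofFn_injective h7
  exact (congrFun h9 ⟨i, hi⟩).symm

end Crest.Agent.R114
end

-- ▼ part R114/CodeSeq

/-! Coded (special) lists and sequences: almost disjointness (A1) and compactness (A2).
(helper999) -/

set_option autoImplicit false

namespace Crest.Agent.R114

open Set Filter

set_option linter.unusedSectionVars false

variable {I : Type*} [LinearOrder I]

/-- successive supports -/
def SuccF (f g : I →₀ ℚ) : Prop := ∀ a ∈ f.support, ∀ b ∈ g.support, a < b

/-- A coded list: nonzero successive functionals, whose indices (from the second one on) are the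
codes of the preceding part of the list. -/
structure IsCoded (c : Coding I) (L : SList I) : Prop where
  ne_zero : ∀ l (h : l < L.length), (L[l]).1 ≠ 0
  succ : ∀ l l' (h : l < l') (h' : l' < L.length), SuccF (L[l]).1 (L[l']).1
  code : ∀ l (h : l < L.length), 0 < l → (L[l]).2 = c.τ (L.take l)

/-- initial part of a sequence -/
def pre (t : ℕ → (I →₀ ℚ) × ℕ) (n : ℕ) : SList I := List.ofFn (fun i : Fin n => t i)

@[simp] lemma length_pre (t : ℕ → (I →₀ ℚ) × ℕ) (n : ℕ) : (pre t n).length = n := by simp [pre]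

@[simp] lemma getElem_pre (t : ℕ → (I →₀ ℚ) × ℕ) (n l : ℕ) (h : l < (pre t n).length) :
    (pre t n)[l] = t l := by simp [pre]

lemma take_pre (t : ℕ → (I →₀ ℚ) × ℕ) {n m : ℕ} (h : n ≤ m) : (pre t m).take n = pre t n := by
  apply List.ext_getElem
  · simp [h]
  · intro i h1 h2; simp

lemma getD_pre (t : ℕ → (I →₀ ℚ) × ℕ) (n l : ℕ) :
    (pre t n).getD l 0 = if l < n then t l else 0 := by
  rw [List.getD_eq_getElem?_getD]
  split_ifs with h
  · rw [List.getElem?_eq_getElem (by simpa using h)]; simp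
  · rw [List.getElem?_eq_none (by simpa using h)]; simp

lemma mem_suppL_iff {L : SList I} {ξ : I} :
    ξ ∈ suppL L ↔ ∃ l, ∃ h : l < L.length, (L[l]).1 ξ ≠ 0 := by
  rw [mem_suppL]
  constructor
  · rintro ⟨p, hp, h⟩
    obtain ⟨l, hl, rfl⟩ := List.getElem_of_mem hp
    exact ⟨l, hl, h⟩
  · rintro ⟨l, hl, h⟩
    exact ⟨_, List.getElem_mem hl, h⟩

lemma suppL_take_subset (L : SList I) (n : ℕ) : suppL (L.take n) ⊆ suppL L := by
  intro ξ hξ
  rw [mem_suppL] at hξ ⊢
  obtain ⟨p, hp, h⟩ := hξ
  exact ⟨p, List.mem_of_mem_take hp, h⟩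


/-- ranks in the support are injective -/
lemma rk_lt_rk {L : SList I} {ξ η : I} (hξ : ξ ∈ suppL L) (h : ξ < η) : rk L ξ < rk L η := by
  unfold rk
  apply Finset.card_lt_card
  constructor
  · intro a ha
    simp only [Finset.mem_filter] at ha ⊢
    exact ⟨ha.1, ha.2.trans h⟩
  · intro hsub
    have : ξ ∈ (suppL L).filter (· < ξ) := hsub (by simp [hξ, h])
    simp at this

lemma rk_inj {L : SList I} {ξ η : I} (hξ : ξ ∈ suppL L) (hη : η ∈ suppL L)
    (h : rk L ξ = rk L η) : ξ = η := by
  rcases lt_trichotomy ξ η with h1 | h1 | h1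
  · have := rk_lt_rk hξ h1; omega
  · exact h1
  · have := rk_lt_rk hη h1; omega

variable {c : Coding I}

namespace IsCoded

lemma take {L : SList I} (hL : IsCoded c L) (n : ℕ) : IsCoded c (L.take n) where
  ne_zero l h := by
    rw [List.getElem_take]; exact hL.ne_zero l (by simp at h; omega)
  succ l l' h h' := by
    rw [List.getElem_take, List.getElem_take]
    exact hL.succ l l' h (by simp at h'; omega)
  code l h h0 := by
    rw [List.getElem_take, List.take_take, min_eq_left (by simp at h; omega)]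
    exact hL.code l (by simp at h; omega) h0

/-- a point of the support of `L.take n` which is ≥ something in the later part is impossible -/
lemma lt_of_mem_take {L : SList I} (hL : IsCoded c L) {n l : ℕ} (hl : n ≤ l) (h : l < L.length)
    {ξ η : I} (hξ : ξ ∈ suppL (L.take n)) (hη : (L[l]).1 η ≠ 0) : ξ < η := by
  obtain ⟨l', h', h''⟩ := mem_suppL_iff.1 hξ
  rw [List.getElem_take] at h''
  have h3 : l' < n := by simp at h'; omega
  exact hL.succ l' l (by omega) h ξ (Finsupp.mem_support_iff.2 h'') η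
    (Finsupp.mem_support_iff.2 hη)

lemma mem_take_of_le {L : SList I} (hL : IsCoded c L) {n : ℕ} {ξ η : I}
    (hξ : ξ ∈ suppL (L.take n)) (hη : η ∈ suppL L) (h : η ≤ ξ) : η ∈ suppL (L.take n) := by
  obtain ⟨l, hl, h'⟩ := mem_suppL_iff.1 hη
  by_cases hln : l < n
  · rw [mem_suppL_iff]
    refine ⟨l, by simp; omega, ?_⟩
    rw [List.getElem_take]; exact h'
  · exact absurd (hL.lt_of_mem_take (by omega) hl hξ h') (not_lt.2 h)

lemma rk_take {L : SList I} (hL : IsCoded c L) {n : ℕ} {ξ : I}
    (hξ : ξ ∈ suppL (L.take n)) : rk (L.take n) ξ = rk L ξ := by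
  unfold rk
  congr 1
  ext η
  simp only [Finset.mem_filter]
  constructor
  · rintro ⟨h1, h2⟩; exact ⟨suppL_take_subset _ _ h1, h2⟩
  · rintro ⟨h1, h2⟩; exact ⟨hL.mem_take_of_le hξ h1 h2.le, h2⟩

lemma restr_take {L : SList I} (hL : IsCoded c L) {n : ℕ} {ξ : I}
    (hξ : ξ ∈ suppL (L.take n)) : restr ξ (L.take n) = restr ξ L := by
  rw [restr_eq_iff]
  intro l η hη
  rw [List.getD_eq_getElem?_getD, List.getD_eq_getElem?_getD, List.getElem?_take]
  split_ifs with hln
  · rfl
  · by_cases hl : l < L.length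
    · rw [List.getElem?_eq_getElem hl]
      simp only [Option.getD_none, Option.getD_some]
      by_contra hne
      have h0 : (L[l]).1 η ≠ 0 := fun h => hne (by rw [h]; rfl)
      exact absurd (hL.lt_of_mem_take (by omega) hl hξ h0) (not_lt.2 hη)
    · rw [List.getElem?_eq_none (by omega)]

lemma idx_lt {L : SList I} (hL : IsCoded c L) {l l' : ℕ} (h : l < l') (h' : l' < L.length) :
    (L[l]).2 < (L[l']).2 := by
  rw [hL.code l' h' (by omega)]
  apply c.lt_τ
  rw [List.mem_iff_getElem]
  exact ⟨l, by simp; omega, by simp⟩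


end IsCoded

/-- infinite coded sequence -/
def IsCodedSeq (c : Coding I) (t : ℕ → (I →₀ ℚ) × ℕ) : Prop := ∀ n, IsCoded c (pre t n)

namespace IsCodedSeq

lemma ne_zero {t : ℕ → (I →₀ ℚ) × ℕ} (ht : IsCodedSeq c t) (l : ℕ) : (t l).1 ≠ 0 := by
  have := (ht (l + 1)).ne_zero l (by simp)
  simpa using this

lemma succ {t : ℕ → (I →₀ ℚ) × ℕ} (ht : IsCodedSeq c t) {l l' : ℕ} (h : l < l') :
    SuccF (t l).1 (t l').1 := by
  have := (ht (l' + 1)).succ l l' h (by simp)
  simpa using this

lemma code {t : ℕ → (I →₀ ℚ) × ℕ} (ht : IsCodedSeq c t) {l : ℕ} (h : 0 < l) :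
    (t l).2 = c.τ (pre t l) := by
  have := (ht (l + 1)).code l (by simp) h
  rwa [getElem_pre, take_pre t (Nat.le_succ l)] at this

lemma idx_strictMono {t : ℕ → (I →₀ ℚ) × ℕ} (ht : IsCodedSeq c t) :
    StrictMono (fun l => (t l).2) := by
  intro l l' h
  have := (ht (l' + 1)).idx_lt h (by simp)
  simpa using this

lemma mem_suppL_pre {t : ℕ → (I →₀ ℚ) × ℕ} {n : ℕ} {ξ : I} :
    ξ ∈ suppL (pre t n) ↔ ∃ l < n, (t l).1 ξ ≠ 0 := by
  rw [mem_suppL_iff]
  constructor
  · rintro ⟨l, h, h'⟩; exact ⟨l, by simpa using h, by simpa using h'⟩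
  · rintro ⟨l, h, h'⟩; exact ⟨l, by simpa using h, by simpa using h'⟩

/-- one direction of (A1): points of the support of `t` belong to `t'`. -/
lemma eq_at_of_frequently {t t' : ℕ → (I →₀ ℚ) × ℕ} (ht : IsCodedSeq c t)
    (ht' : IsCodedSeq c t') (h : ∃ᶠ l in atTop, (t l).2 = (t' l).2) {r : ℕ} {ξ : I}
    (hξ : (t r).1 ξ ≠ 0) : (t r).1 ξ = (t' r).1 ξ := by
  -- the frequently many levels
  have hfreq : ∃ᶠ l in atTop, r < l ∧ c.τ (pre t l) = c.τ (pre t' l) := by
    refine (h.and_eventually (eventually_gt_atTop r)).mono ?_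
    rintro l ⟨h1, h2⟩
    refine ⟨h2, ?_⟩
    rw [← ht.code (by omega), ← ht'.code (by omega)]; exact h1
  have hτ : ∀ l, r < l → c.τ (pre t l) = c.τ (pre t' l) → ∃ ξ' ∈ suppL (pre t' l),
      rk (pre t l) ξ = rk (pre t' l) ξ' ∧ (∀ i < c.dep (c.τ (pre t l)), c.x ξ i = c.x ξ' i) ∧
        c.E ξ (pre t l) = c.E ξ' (pre t' l) := by
    intro l hl he
    exact (c.τ_eq _ _ he).2 ξ (mem_suppL_pre.2 ⟨r, hl, hξ⟩)
  obtain ⟨l₀, hl₀, he₀⟩ := hfreq.exists
  obtain ⟨ξ', hξ', hrk, -, -⟩ := hτ l₀ hl₀ he₀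
  -- for all other good levels, the same ξ'
  have hsame : ∀ l, l₀ ≤ l → c.τ (pre t l) = c.τ (pre t' l) →
      (∀ i < c.dep (c.τ (pre t l)), c.x ξ i = c.x ξ' i) ∧
        c.E ξ (pre t l) = c.E ξ' (pre t' l) := by
    intro l hl he
    obtain ⟨ξ'', h1, h2, h3, h4⟩ := hτ l (by omega) he
    have hrk1 : rk (pre t l) ξ = rk (pre t l₀) ξ := by
      rw [← take_pre t hl]
      refine ((ht l).rk_take ?_).symm
      rw [take_pre t hl]
      exact mem_suppL_pre.2 ⟨r, hl₀, hξ⟩
    have hmem : ξ' ∈ suppL ((pre t' l).take l₀) := by rwa [take_pre t' hl]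
    have hrk2 : rk (pre t' l) ξ' = rk (pre t' l₀) ξ' := by
      rw [← (ht' l).rk_take hmem, take_pre t' hl]
    have : ξ'' = ξ' := by
      refine rk_inj h1 (suppL_take_subset _ _ hmem) ?_
      rw [← h2, hrk1, hrk, hrk2]
    subst this
    exact ⟨h3, h4⟩
  have hx : c.x ξ = c.x ξ' := by
    funext i
    have hev : ∀ᶠ l in atTop, i < c.dep (c.τ (pre t l)) := by
      have h1 : Tendsto (fun l => c.dep ((t l).2)) atTop atTop :=
        c.dep_tendsto.comp ht.idx_strictMono.tendsto_atTop
      filter_upwards [h1.eventually_gt_atTop i, eventually_gt_atTop 0] with l h2 h3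
      rwa [← ht.code h3]
    obtain ⟨l, ⟨-, h2⟩, h3, h4⟩ :=
      (hfreq.and_eventually (hev.and (eventually_ge_atTop l₀))).exists
    exact (hsame l h4 h2).1 i h3
  have hξξ : ξ = ξ' := c.x_inj hx
  subst hξξ
  have h5 := (hsame l₀ le_rfl he₀).2
  rw [c.E_iff, restr_eq_iff] at h5
  have := h5 r ξ le_rfl
  rwa [getD_pre, getD_pre, if_pos hl₀, if_pos hl₀] at this

/-- **(A1)** distinct infinite coded sequences have only finitely many common indices. -/
theorem almost_disjoint {t t' : ℕ → (I →₀ ℚ) × ℕ} (ht : IsCodedSeq c t)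
    (ht' : IsCodedSeq c t') (h : t ≠ t') :
    {j | ∃ l l', (t l).2 = j ∧ (t' l').2 = j}.Finite := by
  by_contra hinf
  apply h
  -- frequently common codes at the same level
  have hfreq : ∃ᶠ l in atTop, (t l).2 = (t' l).2 := by
    rw [frequently_atTop]
    intro N
    have h1 : ({j | ∃ l l', (t l).2 = j ∧ (t' l').2 = j} \
        Set.Iic ((t N).2 + (t 0).2 + (t' 0).2)).Nonempty :=
      (Set.Infinite.sdiff hinf (Set.finite_Iic _)).nonempty
    obtain ⟨j, ⟨l, l', rfl, h3⟩, h4⟩ := h1
    have h4' : (t N).2 + (t 0).2 + (t' 0).2 < (t l).2 := by simpa using h4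
    have hl0 : 0 < l := by
      rcases Nat.eq_zero_or_pos l with h0 | h0
      · subst h0; omega
      · exact h0
    have hl'0 : 0 < l' := by
      rcases Nat.eq_zero_or_pos l' with h0 | h0
      · subst h0; omega
      · exact h0
    have hNl : N < l := by
      by_contra hle
      have := ht.idx_strictMono.monotone (not_lt.1 hle)
      omega
    have he : c.τ (pre t l) = c.τ (pre t' l') := by
      rw [← ht.code hl0, ← ht'.code hl'0, h3]
    have hlen := congrArg List.length (c.τ_eq _ _ he).1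
    simp only [List.length_map, length_pre] at hlen
    subst hlen
    exact ⟨l, hNl.le, h3.symm⟩
  have hfreq' : ∃ᶠ l in atTop, (t' l).2 = (t l).2 := hfreq.mono fun _ h => h.symm
  funext r
  have h1 : (t r).1 = (t' r).1 := by
    ext ξ
    by_cases h2 : (t r).1 ξ = 0
    · by_cases h3 : (t' r).1 ξ = 0
      · rw [h2, h3]
      · exact (eq_at_of_frequently ht' ht hfreq' h3).symm
    · exact eq_at_of_frequently ht ht' hfreq h2
  have h2 : (t r).2 = (t' r).2 := by
    obtain ⟨l, h3, h4⟩ := (hfreq.and_eventually (eventually_gt_atTop r)).exists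
    have he : c.τ (pre t l) = c.τ (pre t' l) := by
      rw [← ht.code (by omega), ← ht'.code (by omega)]; exact h3
    have h5 := (c.τ_eq _ _ he).1
    have h6 : ((pre t l).map Prod.snd)[r]'(by simpa using h4) =
      ((pre t' l).map Prod.snd)[r]'(by simpa using h4) := by
      simp only [h5]
    simpa using h6
  exact Prod.ext h1 h2

end IsCodedSeq

end Crest.Agent.R114
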