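import Mathlib

/-! Row 114 (S0152), module (g): the functionals `T ξ K` (recursion and bounds), abstractly.
(helper429) -/

set_option autoImplicit false

namespace Crest.Agent.R114

open Filter Topology

section Tail
variable {𝕜 : Type*} [RCLike 𝕜] {V : Type*} [NormedAddCommGroup V] [NormedSpace 𝕜 V]



end Tail

section Trec

variable (𝕜 : Type*) [RCLike 𝕜] (V : Type*) [NormedAddCommGroup V] [NormedSpace 𝕜 V]
  (I : Type*) [LinearOrder I]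

/-- Data for the recursion: coordinate functionals `est`, sequences `b ξ`, tails `S ξ K`. -/
structure TData where
  est : I → StrongDual 𝕜 V
  b : I → ℕ → (I →₀ ℚ)
  w : I → ℕ → ℝ
  S : I → ℕ → StrongDual 𝕜 V
  lt_of_mem : ∀ ξ l, ∀ η ∈ (b ξ l).support, η < ξ
  w_summable : ∀ ξ, Summable (w ξ)
  abs_le_w : ∀ ξ l η, |((b ξ l η : ℚ) : ℝ)| ≤ w ξ l
  S_succ : ∀ ξ K, S ξ K = (b ξ K).sum (fun η q => (q : 𝕜) • est η) + S ξ (K + 1)
  S_tendsto : ∀ ξ v, Tendsto (fun K => S ξ K v) atTop (𝓝 0)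
  S_bound : ∀ F : Finset I, ∀ᶠ K in atTop, ∀ lam : I → 𝕜, (∀ ξ ∈ F, ‖lam ξ‖ ≤ 1) →
    ‖∑ ξ ∈ F, lam ξ • S ξ K‖ ≤ 2

variable {𝕜 V I}

namespace TData

variable (d : TData 𝕜 V I)

/-- evaluation of a rational functional -/
noncomputable def ev (c : I →₀ ℚ) : StrongDual 𝕜 V := c.sum (fun η q => (q : 𝕜) • d.est η)

lemma w_nonneg (ξ : I) (l : ℕ) : 0 ≤ d.w ξ l := (abs_nonneg _).trans (d.abs_le_w ξ l ξ)

theorem exists_kappa (F : Finset I) : ∃ K0 : ℕ, ∀ K, K0 ≤ K →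
    (∀ lam : I → 𝕜, (∀ ξ ∈ F, ‖lam ξ‖ ≤ 1) → ‖∑ ξ ∈ F, lam ξ • d.S ξ K‖ ≤ 2) ∧
    ∑ ξ ∈ F, 3 * ∑' l, d.w ξ (l + K) ≤ 1 := by
  have h1 : Tendsto (fun K => ∑ ξ ∈ F, 3 * ∑' l, d.w ξ (l + K)) atTop
      (𝓝 (∑ ξ ∈ F, 3 * 0)) := by
    refine tendsto_finsetSum _ fun ξ _ => Tendsto.const_mul _ ?_
    exact tendsto_sum_nat_add (d.w ξ)
  simp only [mul_zero, Finset.sum_const_zero] at h1
  have h2 := h1.eventually_lt_const (show (0 : ℝ) < 1 by norm_num)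
  obtain ⟨K0, hK0⟩ := eventually_atTop.1 ((d.S_bound F).and h2)
  exact ⟨K0, fun K hK => ⟨(hK0 K hK).1, (hK0 K hK).2.le⟩⟩

/-- the threshold attached to a finite set -/
noncomputable def kappa (F : Finset I) : ℕ := (d.exists_kappa F).choose

lemma kappa_spec (F : Finset I) {K : ℕ} (hK : d.kappa F ≤ K) :
    (∀ lam : I → 𝕜, (∀ ξ ∈ F, ‖lam ξ‖ ≤ 1) → ‖∑ ξ ∈ F, lam ξ • d.S ξ K‖ ≤ 2) ∧
    ∑ ξ ∈ F, 3 * ∑' l, d.w ξ (l + K) ≤ 1 :=
  (d.exists_kappa F).choose_spec K hK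

variable [WellFoundedLT I]

/-- the functionals `T ξ K` -/
noncomputable def T : I → ℕ → StrongDual 𝕜 V :=
  (wellFounded_lt (α := I)).fix (C := fun _ => ℕ → StrongDual 𝕜 V) fun ξ ih K =>
    d.S ξ K + ∑' l, ∑ η ∈ (d.b ξ (l + K)).support.attach,
      ((d.b ξ (l + K) η.1 : ℚ) : 𝕜) •
        ih η.1 (d.lt_of_mem ξ (l + K) η.1 η.2) (d.kappa (d.b ξ (l + K)).support)

/-- correction terms -/
noncomputable def D (c : I →₀ ℚ) : StrongDual 𝕜 V :=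
  ∑ η ∈ c.support, ((c η : ℚ) : 𝕜) • d.T η (d.kappa c.support)

lemma T_eq (ξ : I) (K : ℕ) : d.T ξ K = d.S ξ K + ∑' l, d.D (d.b ξ (l + K)) := by
  have h := (wellFounded_lt (α := I)).fix_eq (C := fun _ => ℕ → StrongDual 𝕜 V) (fun ξ ih K =>
    d.S ξ K + ∑' l, ∑ η ∈ (d.b ξ (l + K)).support.attach,
      ((d.b ξ (l + K) η.1 : ℚ) : 𝕜) •
        ih η.1 (d.lt_of_mem ξ (l + K) η.1 η.2) (d.kappa (d.b ξ (l + K)).support)) ξ
  have h' := congrFun h K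
  unfold T
  rw [h']
  congr 1
  refine tsum_congr fun l => ?_
  exact Finset.sum_attach (d.b ξ (l + K)).support (fun η => ((d.b ξ (l + K) η : ℚ) : 𝕜) •
    d.T η (d.kappa (d.b ξ (l + K)).support))

/-- norm-summability and the uniform bound, assuming the bounds of the correction terms -/
lemma bound_of (F : Finset I) (hF : ∀ ξ ∈ F, ∀ l, ‖d.D (d.b ξ l)‖ ≤ 3 * d.w ξ l)
    {K : ℕ} (hK : d.kappa F ≤ K) (lam : I → 𝕜) (hlam : ∀ ξ ∈ F, ‖lam ξ‖ ≤ 1) :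
    ‖∑ ξ ∈ F, lam ξ • d.T ξ K‖ ≤ 3 := by
  have h1 : ∑ ξ ∈ F, lam ξ • d.T ξ K = ∑ ξ ∈ F, lam ξ • d.S ξ K +
      ∑ ξ ∈ F, lam ξ • ∑' l, d.D (d.b ξ (l + K)) := by
    rw [← Finset.sum_add_distrib]
    exact Finset.sum_congr rfl fun ξ _ => by rw [T_eq, smul_add]
  rw [h1]
  obtain ⟨h2, h3⟩ := d.kappa_spec F hK
  have h4 : ‖∑ ξ ∈ F, lam ξ • ∑' l, d.D (d.b ξ (l + K))‖ ≤ 1 := by
    refine (norm_sum_le _ _).trans (le_trans (Finset.sum_le_sum fun ξ hξ => ?_) h3)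
    rw [norm_smul]
    have hs : Summable fun l => 3 * d.w ξ (l + K) :=
      ((summable_nat_add_iff K).2 (d.w_summable ξ)).mul_left 3
    have h5 : ‖∑' l, d.D (d.b ξ (l + K))‖ ≤ ∑' l, 3 * d.w ξ (l + K) :=
      tsum_of_norm_bounded hs.hasSum fun l => hF ξ hξ _
    rw [tsum_mul_left] at h5
    calc ‖lam ξ‖ * ‖∑' l, d.D (d.b ξ (l + K))‖ ≤ 1 * ‖∑' l, d.D (d.b ξ (l + K))‖ :=
          mul_le_mul_of_nonneg_right (hlam ξ hξ) (norm_nonneg _)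
      _ = ‖∑' l, d.D (d.b ξ (l + K))‖ := one_mul _
      _ ≤ _ := h5
  calc _ ≤ ‖∑ ξ ∈ F, lam ξ • d.S ξ K‖ + ‖∑ ξ ∈ F, lam ξ • ∑' l, d.D (d.b ξ (l + K))‖ :=
        norm_add_le _ _
    _ ≤ 2 + 1 := add_le_add (h2 lam hlam) h4
    _ = 3 := by norm_num

lemma norm_le_of_bound {F : Finset I} {K : ℕ}
    (hb : ∀ lam : I → 𝕜, (∀ ξ ∈ F, ‖lam ξ‖ ≤ 1) → ‖∑ ξ ∈ F, lam ξ • d.T ξ K‖ ≤ 3)
    (lam : I → 𝕜) {M : ℝ} (hM : 0 ≤ M) (hlam : ∀ ξ ∈ F, ‖lam ξ‖ ≤ M) :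
    ‖∑ ξ ∈ F, lam ξ • d.T ξ K‖ ≤ 3 * M := by
  rcases hM.eq_or_lt with h | h
  · have h0 : ∀ ξ ∈ F, lam ξ = 0 := fun ξ hξ => by
      have := hlam ξ hξ
      rw [← h] at this
      exact norm_le_zero_iff.1 this
    rw [Finset.sum_eq_zero fun ξ hξ => by rw [h0 ξ hξ]; exact zero_smul 𝕜 (d.T ξ K), norm_zero]
    positivity
  · have h1 : ∑ ξ ∈ F, lam ξ • d.T ξ K =
        ((M : ℝ) : 𝕜) • ∑ ξ ∈ F, (((M : ℝ) : 𝕜)⁻¹ * lam ξ) • d.T ξ K := by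
      rw [Finset.smul_sum]
      refine Finset.sum_congr rfl fun ξ _ => ?_
      rw [smul_smul, mul_inv_cancel_left₀]
      exact_mod_cast h.ne'
    rw [h1, norm_smul, RCLike.norm_ofReal, abs_of_pos h, mul_comm]
    refine mul_le_mul_of_nonneg_right (hb _ fun ξ hξ => ?_) h.le
    rw [norm_mul, norm_inv, RCLike.norm_ofReal, abs_of_pos h, inv_mul_le_iff₀ h, mul_one]
    exact hlam ξ hξ

theorem norm_D_b_le (ξ : I) : ∀ l, ‖d.D (d.b ξ l)‖ ≤ 3 * d.w ξ l := by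
  induction ξ using WellFoundedLT.induction with
  | ind ξ ih =>
    intro l
    unfold D
    refine d.norm_le_of_bound (fun lam hlam => ?_) _ (d.w_nonneg ξ l) fun η hη => ?_
    · exact d.bound_of _ (fun η hη => ih η (d.lt_of_mem ξ l η hη)) le_rfl lam hlam
    · have h1 := d.abs_le_w ξ l η
      have h2 : ‖((d.b ξ l η : ℚ) : 𝕜)‖ = |((d.b ξ l η : ℚ) : ℝ)| := by
        rw [← RCLike.ofReal_ratCast, RCLike.norm_ofReal]
      rw [h2]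
      exact h1

/-- the uniform bound -/
theorem norm_sum_T_le (F : Finset I) {K : ℕ} (hK : d.kappa F ≤ K) (lam : I → 𝕜) {M : ℝ}
    (hM : 0 ≤ M) (hlam : ∀ ξ ∈ F, ‖lam ξ‖ ≤ M) : ‖∑ ξ ∈ F, lam ξ • d.T ξ K‖ ≤ 3 * M :=
  d.norm_le_of_bound (fun _ h => d.bound_of F (fun ξ _ => d.norm_D_b_le ξ) hK _ h) lam hM hlam

lemma summable_norm_D (ξ : I) : Summable fun l => ‖d.D (d.b ξ l)‖ :=
  Summable.of_nonneg_of_le (fun _ => norm_nonneg _) (d.norm_D_b_le ξ)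
    ((d.w_summable ξ).mul_left 3)

lemma T_succ (ξ : I) (K : ℕ) :
    d.T ξ K = d.ev (d.b ξ K) + d.D (d.b ξ K) + d.T ξ (K + 1) := by
  have hs : Summable fun l => d.D (d.b ξ (l + K)) :=
    (summable_nat_add_iff (f := fun l => d.D (d.b ξ l)) K).2 (d.summable_norm_D ξ).of_norm
  rw [T_eq, T_eq, hs.tsum_eq_zero_add, d.S_succ]
  have h1 : ∀ l, l + 1 + K = l + (K + 1) := fun l => by ring
  simp only [h1, zero_add]
  unfold ev
  abel

lemma T_tendsto (ξ : I) (v : V) : Tendsto (fun K => d.T ξ K v) atTop (𝓝 0) := by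
  have h1 : Tendsto (fun K => (∑' l, d.D (d.b ξ (l + K)))) atTop (𝓝 0) :=
    tendsto_sum_nat_add (fun l => d.D (d.b ξ l))
  have h2 : Tendsto (fun K => (∑' l, d.D (d.b ξ (l + K))) v) atTop (𝓝 0) := by
    have := ((ContinuousLinearMap.apply 𝕜 𝕜 v).continuous.tendsto
      (0 : StrongDual 𝕜 V)).comp h1
    simpa [Function.comp_def] using this
  have h3 := (d.S_tendsto ξ v).add h2
  rw [add_zero] at h3
  refine h3.congr fun K => ?_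
  rw [T_eq]; rfl

/-- the generators of `X` -/
noncomputable def gen (β : I) : StrongDual 𝕜 V := d.est β + d.T β 0

lemma ev_add_eq (c : I →₀ ℚ) (K : ℕ) :
    d.ev c + ∑ η ∈ c.support, ((c η : ℚ) : 𝕜) • d.T η K =
      ∑ η ∈ c.support, ((c η : ℚ) : 𝕜) • (d.est η + d.T η K) := by
  unfold ev
  rw [Finsupp.sum, ← Finset.sum_add_distrib]
  exact Finset.sum_congr rfl fun η _ => by rw [smul_add]


/-- `b^{X,K}`: approximation of a functional by elements of `X` -/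
noncomputable def lift (c : I →₀ ℚ) (K : ℕ) : StrongDual 𝕜 V :=
  d.ev c + ∑ η ∈ c.support, ((c η : ℚ) : 𝕜) • d.T η K


theorem lift_norm_le (c : I →₀ ℚ) {K : ℕ} (hK : d.kappa c.support ≤ K) {M : ℝ} (hM0 : 0 ≤ M)
    (hM : ∀ η, |((c η : ℚ) : ℝ)| ≤ M) : ‖d.lift c K‖ ≤ ‖d.ev c‖ + 3 * M := by
  unfold lift
  refine (norm_add_le _ _).trans (add_le_add le_rfl (d.norm_sum_T_le _ hK _ hM0 fun η _ => ?_))
  rw [← RCLike.ofReal_ratCast, RCLike.norm_ofReal]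
  exact hM η

theorem lift_tendsto (c : I →₀ ℚ) (v : V) :
    Tendsto (fun K => d.lift c K v) atTop (𝓝 (d.ev c v)) := by
  have h1 : Tendsto (fun K => d.ev c v + ∑ η ∈ c.support, ((c η : ℚ) : 𝕜) • d.T η K v) atTop
      (𝓝 (d.ev c v + ∑ η ∈ c.support, ((c η : ℚ) : 𝕜) • (0 : 𝕜))) :=
    tendsto_const_nhds.add (tendsto_finsetSum _ fun η _ => (d.T_tendsto η v).const_smul _)
  simp only [smul_zero, Finset.sum_const_zero, add_zero] at h1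
  refine h1.congr fun K => ?_
  simp [lift]

/-- expansion of a generator -/
theorem gen_eq (β : I) (K : ℕ) :
    d.gen β = d.est β + ∑ l ∈ Finset.range K, (d.ev (d.b β l) + d.D (d.b β l)) + d.T β K := by
  unfold gen
  have h : ∀ K, d.T β 0 = ∑ l ∈ Finset.range K, (d.ev (d.b β l) + d.D (d.b β l)) + d.T β K := by
    intro K
    induction K with
    | zero => simp
    | succ K ih => rw [Finset.sum_range_succ, ih, d.T_succ β K]; abel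
  rw [h K]; abel

end TData

end Trec

end Crest.Agent.R114
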