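import Mathlib
import Crest.Agent.R114.Trec

-- ▼ part R114/G1
section

set_option autoImplicit false

/-!
# Tail-null functionals from a separable quotient (row 114, S0152)
-/

namespace Crest.Agent.R114

open Filter Topology

section
variable {𝕜 : Type*} {X : Type*} [RCLike 𝕜] [NormedAddCommGroup X] [NormedSpace 𝕜 X]

/-- One step: in an infinite dimensional normed space `Q`, given finitely many vectors and finitely
many functionals, there is a unit functional `g` vanishing at the vectors and a point `y`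
with `g y ≠ 0` at which all given functionals vanish. -/
theorem exists_functional_step {Q : Type*} [NormedAddCommGroup Q] [NormedSpace 𝕜 Q]
    (hQ : ¬ FiniteDimensional 𝕜 Q) (s : Finset Q) (F : Finset (Q →L[𝕜] 𝕜)) :
    ∃ (g : Q →L[𝕜] 𝕜) (y : Q), (∀ d ∈ s, g d = 0) ∧ g y ≠ 0 ∧ ∀ f ∈ F, f y = 0 := by
  classical
  set S : Submodule 𝕜 Q := Submodule.span 𝕜 (s : Set Q) with hS
  haveI hSfin : FiniteDimensional 𝕜 S := FiniteDimensional.span_finset 𝕜 s
  have hSclosed : IsClosed (S : Set Q) := Submodule.closed_of_finiteDimensional S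
  obtain ⟨y, hyF, hyS⟩ : ∃ y : Q, (∀ f ∈ F, f y = 0) ∧ y ∉ S := by
    by_contra hcon
    push Not at hcon
    apply hQ
    let Φ : Q →ₗ[𝕜] (F → 𝕜) := LinearMap.pi (fun f => (f : Q →L[𝕜] 𝕜).toLinearMap)
    have hker : LinearMap.ker Φ ≤ S := by
      intro y hy
      apply hcon
      intro f hf
      have := congrFun (LinearMap.mem_ker.mp hy) ⟨f, hf⟩
      simpa [Φ] using this
    haveI : FiniteDimensional 𝕜 (LinearMap.ker Φ) := Submodule.finiteDimensional_of_le hker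
    haveI : FiniteDimensional 𝕜 (Q ⧸ LinearMap.ker Φ) :=
      Module.Finite.equiv (Φ.quotKerEquivRange).symm
    exact Module.Finite.of_submodule_quotient (LinearMap.ker Φ)
  haveI : IsClosed (S : Set Q) := hSclosed
  have hne : (Submodule.Quotient.mk y : Q ⧸ S) ≠ 0 := by
    rw [Ne, Submodule.Quotient.mk_eq_zero]; exact hyS
  obtain ⟨φ, _, hφ⟩ := exists_dual_vector 𝕜 (Submodule.Quotient.mk y : Q ⧸ S) (norm_ne_zero_iff.mpr hne)
  have hcont : Continuous (S.mkQ : Q → Q ⧸ S) := S.isOpenQuotientMap_mkQ.continuous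
  let π : Q →L[𝕜] (Q ⧸ S) := ⟨S.mkQ, hcont⟩
  refine ⟨φ.comp π, y, ?_, ?_, hyF⟩
  · intro d hd
    have h1 : (S.mkQ d : Q ⧸ S) = 0 := by
      rw [Submodule.mkQ_apply, Submodule.Quotient.mk_eq_zero]
      exact Submodule.subset_span hd
    show φ (S.mkQ d) = 0
    rw [h1, map_zero]
  · show φ (S.mkQ y) ≠ 0
    rw [Submodule.mkQ_apply, hφ]
    exact_mod_cast norm_ne_zero_iff.mpr hne

/-- If `X ⧸ M` is separable and infinite dimensional then there are linearly independent unit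
functionals on `X` such that bounded tail combinations converge to zero pointwise. -/
theorem exists_tail_null (M : Submodule 𝕜 X) (hM : IsClosed (M : Set X))
    (hsep : TopologicalSpace.SeparableSpace (X ⧸ M)) (hfin : ¬ FiniteDimensional 𝕜 (X ⧸ M)) :
    ∃ f : ℕ → (X →L[𝕜] 𝕜), (∀ n, ‖f n‖ = 1) ∧ LinearIndependent 𝕜 f ∧
      ∀ x : X, ∀ ε > 0, ∃ N : ℕ, ∀ g ∈ Submodule.span 𝕜 (f '' {k | N ≤ k}),
        ‖g x‖ ≤ ε * ‖g‖ := by
  classical
  haveI := hM
  have hcont : Continuous (M.mkQ : X → X ⧸ M) := M.isOpenQuotientMap_mkQ.continuous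
  let π : X →L[𝕜] (X ⧸ M) := ⟨M.mkQ, hcont⟩
  have hne : Nonempty (X ⧸ M) := ⟨0⟩
  obtain ⟨d, hd⟩ := TopologicalSpace.exists_dense_seq (X ⧸ M)
  -- states
  let P : ℕ × ((X ⧸ M) →L[𝕜] 𝕜) × (X ⧸ M) → Prop := fun t =>
    (∀ i ≤ t.1, t.2.1 (d i) = 0) ∧ ‖t.2.1.comp π‖ = 1 ∧ t.2.1 t.2.2 ≠ 0
  let r : ℕ × ((X ⧸ M) →L[𝕜] 𝕜) × (X ⧸ M) → ℕ × ((X ⧸ M) →L[𝕜] 𝕜) × (X ⧸ M) → Prop :=
    fun t t' => t.1 < t'.1 ∧ t.2.1 t'.2.2 = 0
  have hstep : ∀ s : Finset (ℕ × ((X ⧸ M) →L[𝕜] 𝕜) × (X ⧸ M)), (∀ t ∈ s, P t) →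
      ∃ y, P y ∧ ∀ t ∈ s, r t y := by
    intro s _
    obtain ⟨N, hN⟩ : ∃ N : ℕ, ∀ t ∈ s, t.1 < N := by
      refine ⟨s.sup (fun t => t.1) + 1, fun t ht => ?_⟩
      exact Nat.lt_succ_of_le (Finset.le_sup (f := fun t => t.1) ht)
    obtain ⟨g, y, hg1, hg2, hg3⟩ := exists_functional_step (𝕜 := 𝕜) hfin
      ((Finset.range (N + 1)).image d) (s.image fun t => t.2.1)
    have hgne : g.comp π ≠ 0 := by
      intro h0
      apply hg2
      obtain ⟨x, rfl⟩ := M.mkQ_surjective y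
      exact congrArg (fun h : X →L[𝕜] 𝕜 => h x) h0
    have hgpos : 0 < ‖g.comp π‖ := norm_pos_iff.mpr hgne
    let c : 𝕜 := ((‖g.comp π‖⁻¹ : ℝ) : 𝕜)
    have hc : c ≠ 0 := by
      simp only [c]
      exact_mod_cast inv_ne_zero hgpos.ne'
    refine ⟨(N, c • g, y), ⟨?_, ?_, ?_⟩, fun t ht => ⟨hN t ht, ?_⟩⟩
    · intro i hi
      show c • g (d i) = 0
      rw [hg1 (d i) (Finset.mem_image_of_mem d (Finset.mem_range.mpr (Nat.lt_succ_of_le hi))),
        smul_zero]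
    · show ‖(c • g).comp π‖ = 1
      rw [ContinuousLinearMap.smul_comp, norm_smul]
      simp only [c, RCLike.norm_ofReal, abs_inv, abs_norm]
      exact inv_mul_cancel₀ hgpos.ne'
    · show c • g y ≠ 0
      exact smul_ne_zero hc hg2
    · exact hg3 t.2.1 (Finset.mem_image_of_mem _ ht)
  obtain ⟨t, htP, htr⟩ := exists_seq_of_forall_finset_exists P r hstep
  have hmono : ∀ j, j ≤ (t j).1 := by
    intro j
    induction j with
    | zero => exact Nat.zero_le _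
    | succ j ih => exact Nat.succ_le_of_lt (lt_of_le_of_lt ih (htr j (j + 1) (Nat.lt_succ_self j)).1)
  have hmono2 : ∀ i j, i ≤ j → (t i).1 ≤ (t j).1 := by
    intro i j hij
    rcases hij.eq_or_lt with rfl | h
    · exact le_rfl
    · exact (htr i j h).1.le
  refine ⟨fun n => (t n).2.1.comp π, fun n => (htP n).2.1, ?_, ?_⟩
  · rw [linearIndependent_iff']
    intro s c hc
    by_contra hcon
    push Not at hcon
    obtain ⟨i0, hi0s, hi0⟩ := hcon
    obtain ⟨i, hi, himax⟩ := (s.filter (fun i => c i ≠ 0)).exists_max_image id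
      ⟨i0, Finset.mem_filter.mpr ⟨hi0s, hi0⟩⟩
    rw [Finset.mem_filter] at hi
    obtain ⟨x, hx⟩ := M.mkQ_surjective (t i).2.2
    have h1 : ∑ j ∈ s, c j * (t j).2.1 (M.mkQ x) = 0 := by
      have := congrArg (fun h : X →L[𝕜] 𝕜 => h x) hc
      simpa [ContinuousLinearMap.sum_apply, π] using this
    rw [Finset.sum_eq_single i] at h1
    · rw [hx] at h1
      rcases mul_eq_zero.mp h1 with h | h
      · exact hi.2 h
      · exact (htP i).2.2 h
    · intro j hj hji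
      rcases lt_or_gt_of_ne hji with h | h
      · rw [hx, (htr j i h).2, mul_zero]
      · by_cases hcj : c j = 0
        · rw [hcj, zero_mul]
        · exact absurd (himax j (Finset.mem_filter.mpr ⟨hj, hcj⟩)) (not_le.mpr h)
    · intro h; exact absurd hi.1 h
  · intro x ε hε
    obtain ⟨N, hN⟩ : ∃ N, ‖M.mkQ x - d N‖ < ε := by
      have := Metric.denseRange_iff.mp hd (M.mkQ x) ε hε
      obtain ⟨N, hN⟩ := this
      exact ⟨N, by rwa [dist_eq_norm] at hN⟩
    refine ⟨N, fun g hg => ?_⟩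
    obtain ⟨y, hy⟩ := M.mkQ_surjective (d N)
    obtain ⟨z, hz1, hz2⟩ : ∃ z : X, M.mkQ z = M.mkQ (x - y) ∧ ‖z‖ < ε := by
      have h1 : ‖(Submodule.Quotient.mk (x - y) : X ⧸ M)‖ < ε := by
        have : (Submodule.Quotient.mk (x - y) : X ⧸ M) = M.mkQ x - d N := by
          rw [← hy]; rfl
        rw [this]; exact hN
      obtain ⟨z, hz1, hz2⟩ := Submodule.Quotient.norm_mk_lt (S := M)
        (Submodule.Quotient.mk (x - y) : X ⧸ M) (ε := ε - ‖(Submodule.Quotient.mk (x - y) : X ⧸ M)‖)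
        (by linarith)
      exact ⟨z, hz1, by linarith⟩
    have key : ∀ g ∈ Submodule.span 𝕜 ((fun n => (t n).2.1.comp π) '' {k | N ≤ k}), g x = g z := by
      intro g hg
      induction hg using Submodule.span_induction with
      | mem g hg =>
        obtain ⟨k, hk, rfl⟩ := hg
        show (t k).2.1 (M.mkQ x) = (t k).2.1 (M.mkQ z)
        rw [hz1, map_sub, map_sub, hy, (htP k).1 N (le_trans hk (hmono k)), sub_zero]
      | zero => rfl
      | add a b _ _ ha hb =>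
        rw [ContinuousLinearMap.add_apply, ContinuousLinearMap.add_apply, ha, hb]
      | smul c a _ ha =>
        rw [ContinuousLinearMap.smul_apply, ContinuousLinearMap.smul_apply, ha]
    rw [key g hg]
    calc ‖g z‖ ≤ ‖g‖ * ‖z‖ := g.le_opNorm z
      _ ≤ ‖g‖ * ε := mul_le_mul_of_nonneg_left hz2.le (norm_nonneg _)
      _ = ε * ‖g‖ := mul_comm _ _

/-- From a linearly independent sequence we get normalized successive blocks killing more and more
members of a given countable family of linear functionals. -/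
theorem exists_blocks_killing {E : Type*} [NormedAddCommGroup E] [NormedSpace 𝕜 E]
    (f : ℕ → E) (hf : LinearIndependent 𝕜 f) (e : ℕ → E →ₗ[𝕜] 𝕜) :
    ∃ (g : ℕ → E) (N : ℕ → ℕ), StrictMono N ∧
      (∀ k, g k ∈ Submodule.span 𝕜 (f '' Set.Ico (N k) (N (k + 1)))) ∧
      (∀ k, ‖g k‖ = 1) ∧ ∀ k, ∀ i ≤ k, e i (g k) = 0 := by
  classical
  -- one block
  have hone : ∀ n k : ℕ, ∃ g : E, g ∈ Submodule.span 𝕜 (f '' Set.Ico n (n + k + 2)) ∧ ‖g‖ = 1 ∧
      ∀ i ≤ k, e i g = 0 := by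
    intro n k
    let Φ : (Fin (k + 2) → 𝕜) →ₗ[𝕜] (Fin (k + 1) → 𝕜) :=
      LinearMap.pi (fun i : Fin (k + 1) => (e i) ∘ₗ
        (Fintype.linearCombination 𝕜 (fun j : Fin (k + 2) => f (n + j))))
    obtain ⟨c, hcker, hcne⟩ : ∃ c ∈ LinearMap.ker Φ, c ≠ 0 := by
      rw [← Submodule.ne_bot_iff]
      exact LinearMap.ker_ne_bot_of_finrank_lt (by simp)
    let h : E := ∑ j : Fin (k + 2), c j • f (n + j)
    have hhne : h ≠ 0 := by
      intro h0
      apply hcne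
      have hinj : Function.Injective (fun j : Fin (k + 2) => n + (j : ℕ)) := by
        intro a b hab; simp only [add_right_inj] at hab; exact Fin.ext hab
      have hli : LinearIndependent 𝕜 (fun j : Fin (k + 2) => f (n + j)) := hf.comp _ hinj
      rw [Fintype.linearIndependent_iff] at hli
      funext j
      exact hli c h0 j
    have hhpos : 0 < ‖h‖ := norm_pos_iff.mpr hhne
    have hhmem : h ∈ Submodule.span 𝕜 (f '' Set.Ico n (n + k + 2)) := by
      refine Submodule.sum_mem _ fun j _ => Submodule.smul_mem _ _ (Submodule.subset_span ?_)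
      exact ⟨n + j, ⟨by omega, by have := j.2; omega⟩, rfl⟩
    refine ⟨((‖h‖⁻¹ : ℝ) : 𝕜) • h, Submodule.smul_mem _ _ hhmem, ?_, ?_⟩
    · rw [norm_smul]
      simp only [RCLike.norm_ofReal, abs_inv, abs_norm]
      exact inv_mul_cancel₀ hhpos.ne'
    · intro i hi
      have h1 := congrFun (LinearMap.mem_ker.mp hcker) ⟨i, Nat.lt_succ_of_le hi⟩
      have h2 : e i h = 0 := by
        simpa [Φ, h, Fintype.linearCombination_apply] using h1
      rw [map_smul, h2, smul_zero]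
  let N : ℕ → ℕ := fun k => Nat.rec 0 (fun k n => n + k + 2) k
  have hNsucc : ∀ k, N (k + 1) = N k + k + 2 := fun k => rfl
  choose G hG1 hG2 hG3 using hone
  refine ⟨fun k => G (N k) k, N, strictMono_nat_of_lt_succ fun k => by rw [hNsucc]; omega,
    fun k => ?_, fun k => hG2 _ _, fun k => hG3 _ _⟩
  rw [hNsucc]; exact hG1 _ _

end

end Crest.Agent.R114
end

-- ▼ part R114/NoSep
section

set_option autoImplicit false

/-!
# The no-separable-quotient argument (row 114, S0152), abstract form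
-/

namespace Crest.Agent.R114

open Filter Topology

/-- Abstract frame: a space with a transfinite "basis" `δ`, initial-segment projections `R` of norm
one and coordinate functionals `e`. -/
structure Frame (𝕜 : Type*) (V : Type*) (I : Type*) [RCLike 𝕜] [NormedAddCommGroup V]
    [NormedSpace 𝕜 V] [LinearOrder I] where
  δ : I → V
  R : I → V →L[𝕜] V
  e : I → V →L[𝕜] 𝕜
  dense : Dense ((Submodule.span 𝕜 (Set.range δ) : Submodule 𝕜 V) : Set V)
  R_norm : ∀ γ v, ‖R γ v‖ ≤ ‖v‖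
  R_lt : ∀ γ ξ, ξ < γ → R γ (δ ξ) = δ ξ
  R_ge : ∀ γ ξ, γ ≤ ξ → R γ (δ ξ) = 0
  e_self : ∀ ξ, e ξ (δ ξ) = 1
  e_ne : ∀ ξ η, ξ ≠ η → e ξ (δ η) = 0

namespace Frame

variable {𝕜 : Type*} {V : Type*} {I : Type*} [RCLike 𝕜] [NormedAddCommGroup V]
    [NormedSpace 𝕜 V] [LinearOrder I] (Fr : Frame 𝕜 V I)

theorem ext_clm {W : Type*} [NormedAddCommGroup W] [NormedSpace 𝕜 W] {A B : V →L[𝕜] W}
    (h : ∀ ξ, A (Fr.δ ξ) = B (Fr.δ ξ)) : A = B := by
  refine ContinuousLinearMap.ext_on Fr.dense ?_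
  rintro _ ⟨ξ, rfl⟩
  exact h ξ

theorem R_R (γ γ' : I) (h : γ ≤ γ') (v : V) : Fr.R γ (Fr.R γ' v) = Fr.R γ v := by
  have : (Fr.R γ).comp (Fr.R γ') = Fr.R γ := by
    apply Fr.ext_clm
    intro ξ
    show Fr.R γ (Fr.R γ' (Fr.δ ξ)) = Fr.R γ (Fr.δ ξ)
    rcases lt_or_ge ξ γ' with h1 | h1
    · rw [Fr.R_lt γ' ξ h1]
    · rw [Fr.R_ge γ' ξ h1, map_zero, Fr.R_ge γ ξ (h.trans h1)]
  exact congrArg (fun A : V →L[𝕜] V => A v) this

theorem R_R' (γ γ' : I) (h : γ' ≤ γ) (v : V) : Fr.R γ (Fr.R γ' v) = Fr.R γ' v := by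
  have : (Fr.R γ).comp (Fr.R γ') = Fr.R γ' := by
    apply Fr.ext_clm
    intro ξ
    show Fr.R γ (Fr.R γ' (Fr.δ ξ)) = Fr.R γ' (Fr.δ ξ)
    rcases lt_or_ge ξ γ' with h1 | h1
    · rw [Fr.R_lt γ' ξ h1, Fr.R_lt γ ξ (h1.trans_le h)]
    · rw [Fr.R_ge γ' ξ h1, map_zero]
  exact congrArg (fun A : V →L[𝕜] V => A v) this

theorem e_R_lt (ξ γ : I) (h : ξ < γ) (v : V) : Fr.e ξ (Fr.R γ v) = Fr.e ξ v := by
  have : (Fr.e ξ).comp (Fr.R γ) = Fr.e ξ := by
    apply Fr.ext_clm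
    intro η
    show Fr.e ξ (Fr.R γ (Fr.δ η)) = Fr.e ξ (Fr.δ η)
    rcases lt_or_ge η γ with h1 | h1
    · rw [Fr.R_lt γ η h1]
    · rw [Fr.R_ge γ η h1, map_zero, Fr.e_ne ξ η (h.trans_le h1).ne]
  exact congrArg (fun A : V →L[𝕜] 𝕜 => A v) this

theorem e_R_ge (ξ γ : I) (h : γ ≤ ξ) (v : V) : Fr.e ξ (Fr.R γ v) = 0 := by
  have : (Fr.e ξ).comp (Fr.R γ) = 0 := by
    apply Fr.ext_clm
    intro η
    show Fr.e ξ (Fr.R γ (Fr.δ η)) = 0
    rcases lt_or_ge η γ with h1 | h1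
    · rw [Fr.R_lt γ η h1, Fr.e_ne ξ η (h1.trans_le h).ne']
    · rw [Fr.R_ge γ η h1, map_zero]
  exact congrArg (fun A : V →L[𝕜] 𝕜 => A v) this

/-- For a vector in the span of the basis, `R γ w = w` for all large `γ`. -/
theorem R_eq_self_of_mem_span [Nonempty I] (hcof : ∀ s : ℕ → I, ∃ γ, ∀ n, s n < γ) {w : V}
    (hw : w ∈ Submodule.span 𝕜 (Set.range Fr.δ)) : ∃ γ0, ∀ γ, γ0 ≤ γ → Fr.R γ w = w := by
  induction hw using Submodule.span_induction with
  | mem x hx =>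
    obtain ⟨ξ, rfl⟩ := hx
    obtain ⟨γ, hγ⟩ := hcof (fun _ => ξ)
    exact ⟨γ, fun γ' hγ' => Fr.R_lt γ' ξ ((hγ 0).trans_le hγ')⟩
  | zero => exact ⟨Classical.arbitrary I, fun γ _ => map_zero _⟩
  | add x y _ _ hx hy =>
    obtain ⟨a, ha⟩ := hx
    obtain ⟨b, hb⟩ := hy
    refine ⟨max a b, fun γ hγ => ?_⟩
    rw [map_add, ha γ ((le_max_left _ _).trans hγ), hb γ ((le_max_right _ _).trans hγ)]
  | smul c x _ hx =>
    obtain ⟨a, ha⟩ := hx
    exact ⟨a, fun γ hγ => by rw [map_smul, ha γ hγ]⟩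

/-- Every vector satisfies `R γ v = v` for all large `γ`. -/
theorem exists_R_eq_self [Nonempty I] (hcof : ∀ s : ℕ → I, ∃ γ, ∀ n, s n < γ) (v : V) :
    ∃ γ0, ∀ γ, γ0 ≤ γ → Fr.R γ v = v := by
  have h1 : ∀ n : ℕ, ∃ w ∈ Submodule.span 𝕜 (Set.range Fr.δ), ‖v - w‖ < 1 / ((n : ℝ) + 1) := by
    intro n
    obtain ⟨w, hw1, hw2⟩ := Metric.dense_iff.mp Fr.dense v (1 / ((n : ℝ) + 1)) (by positivity)
    refine ⟨w, hw2, ?_⟩
    rw [Metric.mem_ball, dist_eq_norm] at hw1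
    rwa [norm_sub_rev]
  choose w hw1 hw2 using h1
  choose s hs using fun n => Fr.R_eq_self_of_mem_span hcof (hw1 n)
  obtain ⟨γ0, hγ0⟩ := hcof s
  refine ⟨γ0, fun γ hγ => ?_⟩
  have h2 : ∀ n : ℕ, ‖Fr.R γ v - v‖ ≤ 2 * (1 / ((n : ℝ) + 1)) := by
    intro n
    have h3 : Fr.R γ v - v = Fr.R γ (v - w n) - (v - w n) := by
      rw [map_sub, hs n γ ((hγ0 n).le.trans hγ)]; abel
    rw [h3]
    calc _ ≤ ‖Fr.R γ (v - w n)‖ + ‖v - w n‖ := norm_sub_le _ _
      _ ≤ ‖v - w n‖ + ‖v - w n‖ := by gcongr; exact Fr.R_norm _ _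
      _ ≤ 2 * (1 / ((n : ℝ) + 1)) := by linarith [hw2 n]
  have h4 : Tendsto (fun n : ℕ => 2 * (1 / ((n : ℝ) + 1))) atTop (𝓝 0) := by
    simpa using (tendsto_one_div_add_atTop_nhds_zero_nat (𝕜 := ℝ)).const_mul 2
  have h5 : ‖Fr.R γ v - v‖ ≤ 0 := ge_of_tendsto' h4 h2
  exact sub_eq_zero.mp (norm_le_zero_iff.mp h5)

/-- Left-continuity of the projections at limit points. -/
theorem exists_R_close (γ : I) (hne : ∃ ξ, ξ < γ) (hlim : ∀ ξ, ξ < γ → ∃ η, ξ < η ∧ η < γ)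
    (v : V) (ε : ℝ) (hε : 0 < ε) : ∃ a, a < γ ∧ ∀ a', a ≤ a' → a' < γ → ‖Fr.R γ v - Fr.R a' v‖ ≤ ε := by
  have hspan : ∀ w ∈ Submodule.span 𝕜 (Set.range Fr.δ), ∃ a, a < γ ∧ ∀ a', a ≤ a' → a' < γ →
      Fr.R γ w = Fr.R a' w := by
    intro w hw
    induction hw using Submodule.span_induction with
    | mem x hx =>
      obtain ⟨ξ, rfl⟩ := hx
      rcases lt_or_ge ξ γ with h | h
      · obtain ⟨η, hη1, hη2⟩ := hlim ξ h
        exact ⟨η, hη2, fun a' h1 h2 => by rw [Fr.R_lt γ ξ h, Fr.R_lt a' ξ (hη1.trans_le h1)]⟩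
      · obtain ⟨η, hη⟩ := hne
        exact ⟨η, hη, fun a' h1 h2 => by rw [Fr.R_ge γ ξ h, Fr.R_ge a' ξ (h2.le.trans h)]⟩
    | zero =>
      obtain ⟨η, hη⟩ := hne
      exact ⟨η, hη, fun a' _ _ => by rw [map_zero, map_zero]⟩
    | add x y _ _ hx hy =>
      obtain ⟨a, ha1, ha2⟩ := hx
      obtain ⟨b, hb1, hb2⟩ := hy
      refine ⟨max a b, max_lt ha1 hb1, fun a' h1 h2 => ?_⟩
      rw [map_add, map_add, ha2 a' ((le_max_left _ _).trans h1) h2,
        hb2 a' ((le_max_right _ _).trans h1) h2]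
    | smul c x _ hx =>
      obtain ⟨a, ha1, ha2⟩ := hx
      exact ⟨a, ha1, fun a' h1 h2 => by rw [map_smul, map_smul, ha2 a' h1 h2]⟩
  obtain ⟨w, hw1, hw2⟩ := Metric.dense_iff.mp Fr.dense v (ε / 2) (by positivity)
  rw [Metric.mem_ball, dist_eq_norm] at hw1
  obtain ⟨a, ha1, ha2⟩ := hspan w hw2
  refine ⟨a, ha1, fun a' h1 h2 => ?_⟩
  have h3 : Fr.R γ v - Fr.R a' v = Fr.R a' (w - v) - Fr.R γ (w - v) := by
    rw [map_sub, map_sub, ← ha2 a' h1 h2]; abel
  rw [h3]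
  calc _ ≤ ‖Fr.R a' (w - v)‖ + ‖Fr.R γ (w - v)‖ := norm_sub_le _ _
    _ ≤ ‖w - v‖ + ‖w - v‖ := add_le_add (Fr.R_norm _ _) (Fr.R_norm _ _)
    _ ≤ ε := by linarith

/-- Projections of vectors in the span of the basis lie in the span of the corresponding part. -/
theorem R_sub_mem_span (a b : I) (hab : a ≤ b) (w : V) (hw : w ∈ Submodule.span 𝕜 (Set.range Fr.δ)) :
    Fr.R b w - Fr.R a w ∈ Submodule.span 𝕜 (Fr.δ '' Set.Ico a b) := by
  induction hw using Submodule.span_induction with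
  | mem x hx =>
    obtain ⟨ξ, rfl⟩ := hx
    rcases lt_or_ge ξ a with h | h
    · rw [Fr.R_lt a ξ h, Fr.R_lt b ξ (h.trans_le hab), sub_self]; exact Submodule.zero_mem _
    · rw [Fr.R_ge a ξ h, sub_zero]
      rcases lt_or_ge ξ b with h' | h'
      · rw [Fr.R_lt b ξ h']; exact Submodule.subset_span ⟨ξ, ⟨h, h'⟩, rfl⟩
      · rw [Fr.R_ge b ξ h']; exact Submodule.zero_mem _
  | zero => rw [map_zero, map_zero, sub_self]; exact Submodule.zero_mem _
  | add x y _ _ hx hy =>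
    have : Fr.R b (x + y) - Fr.R a (x + y) = (Fr.R b x - Fr.R a x) + (Fr.R b y - Fr.R a y) := by
      rw [map_add, map_add]; abel
    rw [this]; exact Submodule.add_mem _ hx hy
  | smul c x _ hx =>
    rw [map_smul, map_smul, ← smul_sub]; exact Submodule.smul_mem _ _ hx

theorem R_of_mem_span_Ico (a b γ : I) (h : b ≤ γ) (w : V)
    (hw : w ∈ Submodule.span 𝕜 (Fr.δ '' Set.Ico a b)) : Fr.R γ w = w := by
  induction hw using Submodule.span_induction with
  | mem x hx =>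
    obtain ⟨ξ, hξ, rfl⟩ := hx
    exact Fr.R_lt γ ξ (hξ.2.trans_le h)
  | zero => exact map_zero _
  | add x y _ _ hx hy => rw [map_add, hx, hy]
  | smul c x _ hx => rw [map_smul, hx]

theorem R_of_mem_span_Ico' (a b γ : I) (h : γ ≤ a) (w : V)
    (hw : w ∈ Submodule.span 𝕜 (Fr.δ '' Set.Ico a b)) : Fr.R γ w = 0 := by
  induction hw using Submodule.span_induction with
  | mem x hx =>
    obtain ⟨ξ, hξ, rfl⟩ := hx
    exact Fr.R_ge γ ξ (h.trans hξ.1)
  | zero => exact map_zero _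
  | add x y _ _ hx hy => rw [map_add, hx, hy, add_zero]
  | smul c x _ hx => rw [map_smul, hx, smul_zero]

end Frame

section blocks
variable {𝕜 : Type*} {V : Type*} [RCLike 𝕜] [NormedAddCommGroup V] [NormedSpace 𝕜 V]

/-- `g` is a sequence of nonzero successive blocks of `f`. -/
def IsBlkOf (𝕜 : Type*) {V : Type*} [RCLike 𝕜] [NormedAddCommGroup V] [NormedSpace 𝕜 V]
    (f g : ℕ → V) : Prop :=
  ∃ N : ℕ → ℕ, StrictMono N ∧ ∀ k, g k ≠ 0 ∧ g k ∈ Submodule.span 𝕜 (f '' Set.Ico (N k) (N (k + 1)))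

theorem IsBlkOf.refl {f : ℕ → V} (hf : ∀ k, f k ≠ 0) : IsBlkOf 𝕜 f f :=
  ⟨id, strictMono_id, fun k => ⟨hf k, Submodule.subset_span ⟨k, ⟨le_rfl, Nat.lt_succ_self k⟩, rfl⟩⟩⟩

theorem IsBlkOf.tail {f : ℕ → V} (hf : ∀ k, f k ≠ 0) (n : ℕ) :
    IsBlkOf 𝕜 f (fun k => f (n + k)) :=
  ⟨fun k => n + k, fun _ _ h => Nat.add_lt_add_left h n,
    fun k => ⟨hf _, Submodule.subset_span ⟨n + k, ⟨le_rfl, by show n + k < n + (k + 1); omega⟩, rfl⟩⟩⟩

theorem IsBlkOf.trans {f g h : ℕ → V} (h1 : IsBlkOf 𝕜 f g) (h2 : IsBlkOf 𝕜 g h) :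
    IsBlkOf 𝕜 f h := by
  obtain ⟨N, hN, hg⟩ := h1
  obtain ⟨M, hM, hh⟩ := h2
  refine ⟨fun k => N (M k), hN.comp hM, fun k => ⟨(hh k).1, ?_⟩⟩
  refine Submodule.span_le.mpr ?_ (hh k).2
  rintro _ ⟨i, hi, rfl⟩
  refine Submodule.span_mono (Set.image_mono (Set.Ico_subset_Ico ?_ ?_)) (hg i).2
  · exact hN.monotone hi.1
  · exact hN.monotone hi.2

theorem IsBlkOf.ne_zero {f g : ℕ → V} (h1 : IsBlkOf 𝕜 f g) (k : ℕ) : g k ≠ 0 := by
  obtain ⟨N, _, hg⟩ := h1
  exact (hg k).1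

theorem IsBlkOf.span_le {f g : ℕ → V} (h1 : IsBlkOf 𝕜 f g) (n : ℕ) :
    Submodule.span 𝕜 (g '' {k | n ≤ k}) ≤ Submodule.span 𝕜 (f '' {k | n ≤ k}) := by
  obtain ⟨N, hN, hg⟩ := h1
  refine Submodule.span_le.mpr ?_
  rintro _ ⟨i, hi, rfl⟩
  refine Submodule.span_mono (Set.image_mono ?_) (hg i).2
  intro j hj
  have hi' : n ≤ i := hi
  exact hi'.trans ((hN.id_le i).trans hj.1)

theorem IsBlkOf.span_range_le {f g : ℕ → V} (h1 : IsBlkOf 𝕜 f g) :
    Submodule.span 𝕜 (Set.range g) ≤ Submodule.span 𝕜 (Set.range f) := by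
  have h := h1.span_le 0
  simpa using h

end blocks

namespace Frame

variable {𝕜 : Type*} {V : Type*} {I : Type*} [RCLike 𝕜] [NormedAddCommGroup V]
    [NormedSpace 𝕜 V] [LinearOrder I] (Fr : Frame 𝕜 V I)

/-- The key consequence of the main lemma, in abstract form: for every block sequence with range
cofinal in `γ` there is a special functional `t` acting on tails, and some `β` for which
`x β = t + (small) + e β`. -/
def MainProp (x : I → V →L[𝕜] 𝕜) : Prop :=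
  ∀ (γ : I) (u : ℕ → V) (a : ℕ → I), Monotone a → (∀ k, a k < γ) → (∀ ξ < γ, ∃ k, ξ < a k) →
    (∀ k, u k ≠ 0) → (∀ k, u k ∈ Submodule.span 𝕜 (Fr.δ '' Set.Ico (a k) (a (k + 1)))) →
    ∃ (β : I) (t : V →L[𝕜] 𝕜) (c C : ℝ), 0 < c ∧ (∀ v, t (Fr.R γ v) = t v) ∧
      (∀ N : ℕ, ∃ v ∈ Submodule.span 𝕜 (u '' {k | N ≤ k}), ‖v‖ ≤ C ∧ c ≤ ‖t v‖) ∧
      (∀ ψ : ℕ → V, (∃ B : ℝ, ∀ n, ‖ψ n‖ ≤ B) →
        (∀ ξ < γ, Tendsto (fun n => Fr.R ξ (ψ n)) atTop (𝓝 0)) →
        Tendsto (fun n => x β (ψ n) - Fr.e β (ψ n) - t (ψ n)) atTop (𝓝 0))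

theorem aux_construct {γ : I} (hcount : (Set.Iio γ).Countable) (hne : ∃ ξ, ξ < γ)
    (hlim : ∀ ξ, ξ < γ → ∃ η, ξ < η ∧ η < γ) (g : ℕ → V)
    (hsmall : ∀ γ' < γ, ∀ N : ℕ, ∀ ε > 0, ∃ h ∈ Submodule.span 𝕜 (g '' {k | N ≤ k}),
      ‖h‖ = 1 ∧ ‖Fr.R γ' h‖ ≤ ε) (ε : ℕ → ℝ) (hε : ∀ n, 0 < ε n) :
    ∃ (a : ℕ → I) (φ u : ℕ → V), Monotone a ∧ (∀ k, a k < γ) ∧ (∀ ξ < γ, ∃ k, ξ < a k) ∧
      (∀ k, φ k ∈ Submodule.span 𝕜 (g '' {i | k ≤ i})) ∧ (∀ k, ‖φ k‖ = 1) ∧
      (∀ k, u k ∈ Submodule.span 𝕜 (Fr.δ '' Set.Ico (a k) (a (k + 1)))) ∧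
      (∀ k, ‖Fr.R γ (φ k) - u k‖ ≤ 4 * ε k) := by
  classical
  obtain ⟨s, hs⟩ := hcount.exists_eq_range (by obtain ⟨ξ, hξ⟩ := hne; exact ⟨ξ, hξ⟩)
  have hs1 : ∀ k, s k < γ := fun k => by
    have : s k ∈ Set.Iio γ := by rw [hs]; exact ⟨k, rfl⟩
    exact this
  have step : ∀ (k : ℕ) (a : {a : I // a < γ}), ∃ (φ : V) (a' : {a : I // a < γ}),
      φ ∈ Submodule.span 𝕜 (g '' {i | k ≤ i}) ∧ ‖φ‖ = 1 ∧ ‖Fr.R a.1 φ‖ ≤ ε k ∧
      a.1 < a'.1 ∧ s k < a'.1 ∧ ‖Fr.R γ φ - Fr.R a'.1 φ‖ ≤ ε k := by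
    intro k a
    obtain ⟨φ, hφ1, hφ2, hφ3⟩ := hsmall a.1 a.2 k (ε k) (hε k)
    obtain ⟨b, hb1, hb2⟩ := Fr.exists_R_close γ hne hlim φ (ε k) (hε k)
    obtain ⟨η, hη1, hη2⟩ := hlim (max (max a.1 (s k)) b) (max_lt (max_lt a.2 (hs1 k)) hb1)
    refine ⟨φ, ⟨η, hη2⟩, hφ1, hφ2, hφ3, ?_, ?_, ?_⟩
    · exact lt_of_le_of_lt ((le_max_left _ _).trans (le_max_left _ _)) hη1
    · exact lt_of_le_of_lt ((le_max_right _ _).trans (le_max_left _ _)) hη1
    · exact hb2 η ((le_max_right _ _).trans hη1.le) hη2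
  choose Φ A h1 h2 h3 h4 h5 h6 using step
  obtain ⟨ξ0, hξ0⟩ := hne
  let a : ℕ → {a : I // a < γ} := fun k => Nat.rec ⟨ξ0, hξ0⟩ (fun k b => A k b) k
  have ha : ∀ k, a (k + 1) = A k (a k) := fun k => rfl
  have hamono : Monotone (fun k => (a k).1) := by
    refine monotone_nat_of_le_succ fun k => ?_
    show (a k).1 ≤ (a (k + 1)).1
    rw [ha]; exact (h4 k (a k)).le
  have hu : ∀ k, ∃ u ∈ Submodule.span 𝕜 (Fr.δ '' Set.Ico (a k).1 (a (k + 1)).1),
      ‖Fr.R γ (Φ k (a k)) - u‖ ≤ 4 * ε k := by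
    intro k
    obtain ⟨w, hw1, hw2⟩ := Metric.dense_iff.mp Fr.dense (Φ k (a k)) (ε k) (hε k)
    rw [Metric.mem_ball, dist_eq_norm] at hw1
    refine ⟨Fr.R (a (k + 1)).1 w - Fr.R (a k).1 w,
      Fr.R_sub_mem_span _ _ (hamono (Nat.le_succ k)) w hw2, ?_⟩
    have e1 : Fr.R γ (Φ k (a k)) - (Fr.R (a (k + 1)).1 w - Fr.R (a k).1 w) =
        (Fr.R γ (Φ k (a k)) - Fr.R (a (k + 1)).1 (Φ k (a k))) + Fr.R (a k).1 (Φ k (a k)) +
        (Fr.R (a k).1 (w - Φ k (a k)) - Fr.R (a (k + 1)).1 (w - Φ k (a k))) := by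
      rw [map_sub, map_sub]; abel
    rw [e1]
    have n1 : ‖Fr.R γ (Φ k (a k)) - Fr.R (a (k + 1)).1 (Φ k (a k))‖ ≤ ε k := by
      rw [ha]; exact h6 k (a k)
    have n2 : ‖Fr.R (a k).1 (Φ k (a k))‖ ≤ ε k := h3 k (a k)
    have n3 : ‖Fr.R (a k).1 (w - Φ k (a k)) - Fr.R (a (k + 1)).1 (w - Φ k (a k))‖ ≤ 2 * ε k := by
      calc _ ≤ ‖Fr.R (a k).1 (w - Φ k (a k))‖ + ‖Fr.R (a (k + 1)).1 (w - Φ k (a k))‖ :=
            norm_sub_le _ _
        _ ≤ ‖w - Φ k (a k)‖ + ‖w - Φ k (a k)‖ := add_le_add (Fr.R_norm _ _) (Fr.R_norm _ _)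
        _ ≤ 2 * ε k := by linarith
    calc _ ≤ ‖Fr.R γ (Φ k (a k)) - Fr.R (a (k + 1)).1 (Φ k (a k))‖ + ‖Fr.R (a k).1 (Φ k (a k))‖ +
          ‖Fr.R (a k).1 (w - Φ k (a k)) - Fr.R (a (k + 1)).1 (w - Φ k (a k))‖ := norm_add₃_le
      _ ≤ 4 * ε k := by linarith
  choose u hu1 hu2 using hu
  refine ⟨fun k => (a k).1, fun k => Φ k (a k), u, hamono, fun k => (a k).2, ?_, fun k => h1 k _,
    fun k => h2 k _, hu1, hu2⟩
  intro ξ hξ
  have : ξ ∈ Set.range s := by rw [← hs]; exact hξ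
  obtain ⟨k, rfl⟩ := this
  exact ⟨k + 1, by show s k < (a (k + 1)).1; rw [ha]; exact h5 k _⟩

/-- Transfer: block sequence `u` close to `R γ φ`. -/
theorem aux_contradiction {γ : I} (x : I → V →L[𝕜] 𝕜) (hmain : Fr.MainProp x)
    (g : ℕ → V) {c₀ : ℝ} (hc₀ : 0 < c₀)
    (hbelow : ∀ h ∈ Submodule.span 𝕜 (Set.range g), c₀ * ‖h‖ ≤ ‖Fr.R γ h‖)
    (hcoord : ∀ ξ, ∃ K : ℕ, ∀ k, K ≤ k → Fr.e ξ (g k) = 0)
    (htail : ∀ β, ∀ ε > 0, ∃ N : ℕ, ∀ h ∈ Submodule.span 𝕜 (g '' {k | N ≤ k}), ‖x β h‖ ≤ ε * ‖h‖)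
    (a : ℕ → I) (φ u : ℕ → V) (ha : Monotone a) (haγ : ∀ k, a k < γ)
    (hacof : ∀ ξ < γ, ∃ k, ξ < a k)
    (hφg : ∀ k, φ k ∈ Submodule.span 𝕜 (g '' {i | k ≤ i})) (hφ1 : ∀ k, ‖φ k‖ = 1)
    (hu : ∀ k, u k ∈ Submodule.span 𝕜 (Fr.δ '' Set.Ico (a k) (a (k + 1))))
    (hclose : ∀ k, ‖Fr.R γ (φ k) - u k‖ ≤ 4 * (c₀ / 32 * (1 / 2) ^ k)) : False := by
  classical
  have hφrange : ∀ k, φ k ∈ Submodule.span 𝕜 (Set.range g) := fun k =>
    Submodule.span_mono (Set.image_subset_range _ _) (hφg k)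
  have hulow : ∀ k, c₀ / 2 ≤ ‖u k‖ := by
    intro k
    have h1 : c₀ ≤ ‖Fr.R γ (φ k)‖ := by simpa [hφ1 k] using hbelow (φ k) (hφrange k)
    have h2 : ‖Fr.R γ (φ k)‖ ≤ ‖Fr.R γ (φ k) - u k‖ + ‖u k‖ := by
      simpa using norm_add_le (Fr.R γ (φ k) - u k) (u k)
    have h3 : (1 / 2 : ℝ) ^ k ≤ 1 := pow_le_one₀ (by norm_num) (by norm_num)
    have h4 := hclose k
    have h5 : 4 * (c₀ / 32 * (1 / 2) ^ k) ≤ c₀ / 8 := by nlinarith
    linarith
  have hune : ∀ k, u k ≠ 0 := by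
    intro k h0
    have := hulow k
    rw [h0, norm_zero] at this
    linarith
  obtain ⟨β, t, c, C, hc, htR, hv, hpsi⟩ := hmain γ u a ha haγ hacof hune hu
  choose v hvspan hvC hvt using hv
  have hC : 0 ≤ C := (norm_nonneg _).trans (hvC 0)
  have hl : ∀ N, ∃ l ∈ Finsupp.supported 𝕜 𝕜 {k | N ≤ k}, Finsupp.linearCombination 𝕜 u l = v N :=
    fun N => (Finsupp.mem_span_image_iff_linearCombination 𝕜).mp (hvspan N)
  choose l hlsupp hlv using hl
  have hlmem : ∀ N, ∀ k ∈ (l N).support, N ≤ k := by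
    intro N k hk
    exact (Finsupp.mem_supported 𝕜 (l N)).mp (hlsupp N) hk
  -- projections of `v N`
  have hproj : ∀ N k, Fr.R (a (k + 1)) (v N) - Fr.R (a k) (v N) = l N k • u k := by
    intro N k
    rw [← hlv N, Finsupp.linearCombination_apply, Finsupp.sum, map_sum, map_sum,
      ← Finset.sum_sub_distrib]
    rw [Finset.sum_eq_single k]
    · rw [map_smul, map_smul, Fr.R_of_mem_span_Ico _ _ _ le_rfl _ (hu k),
        Fr.R_of_mem_span_Ico' _ _ _ le_rfl _ (hu k), smul_zero, sub_zero]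
    · intro j _ hjk
      rcases lt_or_gt_of_ne hjk with h | h
      · rw [map_smul, map_smul, Fr.R_of_mem_span_Ico _ _ _ (ha (by omega)) _ (hu j),
          Fr.R_of_mem_span_Ico _ _ _ (ha (by omega)) _ (hu j), sub_self]
      · rw [map_smul, map_smul, Fr.R_of_mem_span_Ico' _ _ _ (ha (by omega)) _ (hu j),
          Fr.R_of_mem_span_Ico' _ _ _ (ha (by omega)) _ (hu j), sub_self]
    · intro hk
      rw [Finsupp.notMem_support_iff.mp hk, zero_smul, map_zero, map_zero, sub_zero]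
  have hcoef : ∀ N k, ‖l N k‖ ≤ 4 * C / c₀ := by
    intro N k
    have h1 : ‖l N k‖ * ‖u k‖ ≤ 2 * C := by
      rw [← norm_smul, ← hproj N k]
      calc _ ≤ ‖Fr.R (a (k + 1)) (v N)‖ + ‖Fr.R (a k) (v N)‖ := norm_sub_le _ _
        _ ≤ ‖v N‖ + ‖v N‖ := add_le_add (Fr.R_norm _ _) (Fr.R_norm _ _)
        _ ≤ 2 * C := by linarith [hvC N]
    rw [le_div_iff₀ hc₀]
    have h2 : ‖l N k‖ * (c₀ / 2) ≤ ‖l N k‖ * ‖u k‖ :=
      mul_le_mul_of_nonneg_left (hulow k) (norm_nonneg _)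
    linarith
  let ψ : ℕ → V := fun N => Finsupp.linearCombination 𝕜 φ (l N)
  have hψg : ∀ N, ψ N ∈ Submodule.span 𝕜 (g '' {k | N ≤ k}) := by
    intro N
    simp only [ψ, Finsupp.linearCombination_apply, Finsupp.sum]
    refine Submodule.sum_mem _ fun k hk => Submodule.smul_mem _ _ ?_
    refine Submodule.span_mono (Set.image_mono ?_) (hφg k)
    intro i hi
    exact (hlmem N k hk).trans hi
  have hψdiff : ∀ N, ‖Fr.R γ (ψ N) - v N‖ ≤ C * (1 / 2) ^ N := by
    intro N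
    have e1 : Fr.R γ (ψ N) - v N = ∑ k ∈ (l N).support, l N k • (Fr.R γ (φ k) - u k) := by
      rw [← hlv N]
      simp only [ψ, Finsupp.linearCombination_apply, Finsupp.sum]
      rw [map_sum, ← Finset.sum_sub_distrib]
      refine Finset.sum_congr rfl fun k _ => ?_
      rw [map_smul, smul_sub]
    rw [e1]
    have h1 : ∀ k ∈ (l N).support, ‖l N k • (Fr.R γ (φ k) - u k)‖ ≤ C / 2 * (1 / 2) ^ k := by
      intro k _
      rw [norm_smul]
      calc ‖l N k‖ * ‖Fr.R γ (φ k) - u k‖ ≤ (4 * C / c₀) * (4 * (c₀ / 32 * (1 / 2) ^ k)) :=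
            mul_le_mul (hcoef N k) (hclose k) (norm_nonneg _) (by positivity)
        _ = C / 2 * (1 / 2) ^ k := by field_simp; ring
    refine (norm_sum_le _ _).trans ((Finset.sum_le_sum h1).trans ?_)
    rw [← Finset.mul_sum]
    have h2 : ∑ k ∈ (l N).support, (1 / 2 : ℝ) ^ k ≤ 2 * (1 / 2) ^ N := by
      have hsub : (l N).support ⊆ (Finset.range ((l N).support.sup id + 1)).image (fun i => N + i) := by
        intro k hk
        rw [Finset.mem_image]
        have hk1 := hlmem N k hk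
        have hk2 : k ≤ (l N).support.sup id := Finset.le_sup (f := id) hk
        exact ⟨k - N, Finset.mem_range.mpr (by omega), by omega⟩
      calc ∑ k ∈ (l N).support, (1 / 2 : ℝ) ^ k
          ≤ ∑ k ∈ (Finset.range ((l N).support.sup id + 1)).image (fun i => N + i), (1 / 2 : ℝ) ^ k :=
            Finset.sum_le_sum_of_subset_of_nonneg hsub (fun _ _ _ => by positivity)
        _ = ∑ i ∈ Finset.range ((l N).support.sup id + 1), (1 / 2 : ℝ) ^ (N + i) :=
            Finset.sum_image (fun i _ j _ h => by simpa using h)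
        _ = (1 / 2) ^ N * ∑ i ∈ Finset.range ((l N).support.sup id + 1), (1 / 2 : ℝ) ^ i := by
            rw [Finset.mul_sum]; refine Finset.sum_congr rfl fun i _ => pow_add _ _ _
        _ ≤ (1 / 2) ^ N * 2 := by
            refine mul_le_mul_of_nonneg_left ?_ (by positivity)
            have := hasSum_geometric_two
            have h3 := this.summable.sum_le_tsum (Finset.range ((l N).support.sup id + 1))
              (fun i _ => by positivity)
            rwa [this.tsum_eq] at h3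
        _ = 2 * (1 / 2) ^ N := mul_comm _ _
    calc C / 2 * ∑ k ∈ (l N).support, (1 / 2 : ℝ) ^ k ≤ C / 2 * (2 * (1 / 2) ^ N) :=
          mul_le_mul_of_nonneg_left h2 (by positivity)
      _ = C * (1 / 2) ^ N := by ring
  have hpow : Tendsto (fun N : ℕ => C * (1 / 2 : ℝ) ^ N) atTop (𝓝 0) := by
    simpa using (tendsto_pow_atTop_nhds_zero_of_lt_one (r := (1 / 2 : ℝ)) (by norm_num)
      (by norm_num)).const_mul C
  have hdiff0 : Tendsto (fun N => Fr.R γ (ψ N) - v N) atTop (𝓝 0) :=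
    squeeze_zero_norm hψdiff hpow
  have hψbd : ∀ N, ‖ψ N‖ ≤ 2 * C / c₀ := by
    intro N
    have hmem : ψ N ∈ Submodule.span 𝕜 (Set.range g) :=
      Submodule.span_mono (Set.image_subset_range _ _) (hψg N)
    have h1 := hbelow _ hmem
    have h2 : ‖Fr.R γ (ψ N)‖ ≤ ‖Fr.R γ (ψ N) - v N‖ + ‖v N‖ := by
      simpa using norm_add_le (Fr.R γ (ψ N) - v N) (v N)
    have h3 : (1 / 2 : ℝ) ^ N ≤ 1 := pow_le_one₀ (by norm_num) (by norm_num)
    have h4 := hψdiff N
    have h5 := hvC N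
    rw [le_div_iff₀ hc₀]
    nlinarith
  -- `R ξ (ψ N) → 0`
  have hRξ : ∀ ξ < γ, Tendsto (fun N => Fr.R ξ (ψ N)) atTop (𝓝 0) := by
    intro ξ hξ
    obtain ⟨k, hk⟩ := hacof ξ hξ
    have h1 : Tendsto (fun N => Fr.R ξ (Fr.R γ (ψ N) - v N)) atTop (𝓝 0) := by
      have := ((Fr.R ξ).continuous.tendsto 0).comp hdiff0
      rwa [map_zero] at this
    refine h1.congr' ?_
    filter_upwards [eventually_ge_atTop k] with N hN
    have h2 : Fr.R ξ (v N) = 0 := by
      rw [← hlv N, Finsupp.linearCombination_apply, Finsupp.sum, map_sum]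
      refine Finset.sum_eq_zero fun j hj => ?_
      rw [map_smul, Fr.R_of_mem_span_Ico' _ _ _ (hk.le.trans (ha (hN.trans (hlmem N j hj)))) _ (hu j),
        smul_zero]
    rw [map_sub, h2, sub_zero, Fr.R_R ξ γ hξ.le]
  have h0 := hpsi ψ ⟨_, hψbd⟩ hRξ
  -- `x β (ψ N) → 0`
  have hx0 : Tendsto (fun N => x β (ψ N)) atTop (𝓝 0) := by
    rw [Metric.tendsto_atTop]
    intro ε hε
    have hB : 0 < 2 * C / c₀ + 1 := by positivity
    obtain ⟨N, hN⟩ := htail β (ε / 2 / (2 * C / c₀ + 1)) (by positivity)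
    refine ⟨N, fun n hn => ?_⟩
    rw [dist_zero_right]
    have h1 := hN (ψ n) (Submodule.span_mono (Set.image_mono fun i (hi : n ≤ i) => hn.le.trans hi)
      (hψg n))
    have h2 : ε / 2 / (2 * C / c₀ + 1) * ‖ψ n‖ ≤ ε / 2 := by
      rw [div_mul_eq_mul_div, div_le_iff₀ hB]
      refine mul_le_mul_of_nonneg_left ?_ (by positivity)
      linarith [hψbd n]
    linarith
  -- `e β (ψ N) = 0` eventually
  have he0 : Tendsto (fun N => Fr.e β (ψ N)) atTop (𝓝 0) := by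
    obtain ⟨K, hK⟩ := hcoord β
    refine tendsto_const_nhds.congr' ?_
    filter_upwards [eventually_ge_atTop K] with N hN
    have : ∀ h ∈ Submodule.span 𝕜 (g '' {k | N ≤ k}), Fr.e β h = 0 := by
      intro h hh
      induction hh using Submodule.span_induction with
      | mem y hy => obtain ⟨i, hi, rfl⟩ := hy; exact hK i (hN.trans hi)
      | zero => exact map_zero _
      | add y z _ _ hy hz => rw [map_add, hy, hz, add_zero]
      | smul b y _ hy => rw [map_smul, hy, smul_zero]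
    exact (this _ (hψg N)).symm
  have ht0 : Tendsto (fun N => t (ψ N)) atTop (𝓝 0) := by
    have := (hx0.sub he0).sub h0
    simpa using this
  have htdiff : Tendsto (fun N => t (Fr.R γ (ψ N) - v N)) atTop (𝓝 0) := by
    have := (t.continuous.tendsto 0).comp hdiff0
    rwa [map_zero] at this
  have htv : Tendsto (fun N => t (v N)) atTop (𝓝 0) := by
    have := ht0.sub htdiff
    simp only [map_sub, htR, sub_sub_cancel, sub_zero] at this
    exact this
  have hge : c ≤ ‖(0 : 𝕜)‖ := ge_of_tendsto' htv.norm hvt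
  rw [norm_zero] at hge
  linarith

/-- Main abstract theorem: a frame with the main property has no tail-null sequence. -/
theorem no_tail_null [WellFoundedLT I] [Nonempty I] (hcount : ∀ γ : I, (Set.Iio γ).Countable)
    (hcof : ∀ s : ℕ → I, ∃ γ, ∀ n, s n < γ) (x : I → V →L[𝕜] 𝕜) (hmain : Fr.MainProp x)
    (f : ℕ → V) (hf : LinearIndependent 𝕜 f)
    (htail : ∀ β, ∀ ε > 0, ∃ N : ℕ, ∀ h ∈ Submodule.span 𝕜 (f '' {k | N ≤ k}),
      ‖x β h‖ ≤ ε * ‖h‖) : False := by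
  classical
  -- common bound for the supports
  choose s hs using fun k => Fr.exists_R_eq_self hcof (f k)
  obtain ⟨γ0, hγ0⟩ := hcof s
  have hRf : ∀ k, Fr.R γ0 (f k) = f k := fun k => hs k γ0 (hγ0 k).le
  have hRspan : ∀ h ∈ Submodule.span 𝕜 (Set.range f), Fr.R γ0 h = h := by
    intro h hh
    induction hh using Submodule.span_induction with
    | mem y hy => obtain ⟨i, rfl⟩ := hy; exact hRf i
    | zero => exact map_zero _
    | add y z _ _ hy hz => rw [map_add, hy, hz]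
    | smul b y _ hy => rw [map_smul, hy]
  -- kill the coordinates
  haveI : Countable (Set.Iio γ0) := (hcount γ0).to_subtype
  haveI : Encodable (Set.Iio γ0) := Encodable.ofCountable _
  let e' : ℕ → V →ₗ[𝕜] 𝕜 := fun n => match (Encodable.decode (α := Set.Iio γ0) n) with
    | some ξ => (Fr.e ξ.1).toLinearMap
    | none => 0
  obtain ⟨f', N', hN', hf'1, hf'2, hf'3⟩ := exists_blocks_killing (𝕜 := 𝕜) f hf e'
  have hff' : IsBlkOf 𝕜 f f' := ⟨N', hN', fun k => ⟨by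
    intro h0; have := hf'2 k; rw [h0, norm_zero] at this; exact zero_ne_one this, hf'1 k⟩⟩
  have hcoord : ∀ ξ, ∃ K : ℕ, ∀ k, K ≤ k → Fr.e ξ (f' k) = 0 := by
    intro ξ
    rcases lt_or_ge ξ γ0 with h | h
    · refine ⟨Encodable.encode (⟨ξ, h⟩ : Set.Iio γ0), fun k hk => ?_⟩
      have := hf'3 k _ hk
      simpa [e', Encodable.encodek] using this
    · refine ⟨0, fun k _ => ?_⟩
      have h1 : f' k ∈ Submodule.span 𝕜 (Set.range f) :=
        hff'.span_range_le (Submodule.subset_span ⟨k, rfl⟩)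
      rw [← hRspan _ h1]
      exact Fr.e_R_ge ξ γ0 h _
  -- minimal good ordinal
  let Good : I → (ℕ → V) → Prop := fun γ f => ∃ g, IsBlkOf 𝕜 f g ∧ ∃ c > 0,
    ∀ h ∈ Submodule.span 𝕜 (Set.range g), c * ‖h‖ ≤ ‖Fr.R γ h‖
  have hgood0 : Good γ0 f' := by
    refine ⟨f', IsBlkOf.refl hff'.ne_zero, 1, one_pos, fun h hh => ?_⟩
    rw [hRspan h (hff'.span_range_le hh), one_mul]
  obtain ⟨γ, ⟨g, hfg, c₀, hc₀, hbelow⟩, hmin⟩ := WellFounded.has_min
    (wellFounded_lt (α := I)) {γ | Good γ f'} ⟨γ0, hgood0⟩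
  have hmin' : ∀ γ' < γ, ¬ Good γ' g := by
    rintro γ' hγ' ⟨g', hg', c, hc, hb⟩
    exact hmin γ' ⟨g', hfg.trans hg', c, hc, hb⟩ hγ'
  have hgne := hfg.ne_zero
  have hcoordg : ∀ ξ, ∃ K : ℕ, ∀ k, K ≤ k → Fr.e ξ (g k) = 0 := by
    intro ξ
    obtain ⟨K, hK⟩ := hcoord ξ
    refine ⟨K, fun k hk => ?_⟩
    have h1 : g k ∈ Submodule.span 𝕜 (f' '' {i | k ≤ i}) :=
      hfg.span_le k (Submodule.subset_span ⟨k, (show k ≤ k from le_rfl), rfl⟩)
    have : ∀ h ∈ Submodule.span 𝕜 (f' '' {i | k ≤ i}), Fr.e ξ h = 0 := by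
      intro h hh
      induction hh using Submodule.span_induction with
      | mem y hy => obtain ⟨i, hi, rfl⟩ := hy; exact hK i (hk.trans hi)
      | zero => exact map_zero _
      | add y z _ _ hy hz => rw [map_add, hy, hz, add_zero]
      | smul b y _ hy => rw [map_smul, hy, smul_zero]
    exact this _ h1
  have htailg : ∀ β, ∀ ε > 0, ∃ N : ℕ, ∀ h ∈ Submodule.span 𝕜 (g '' {k | N ≤ k}),
      ‖x β h‖ ≤ ε * ‖h‖ := by
    intro β ε hε
    obtain ⟨N, hN⟩ := htail β ε hε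
    exact ⟨N, fun h hh => hN h ((hff'.trans hfg).span_le N hh)⟩
  -- `γ` is not minimal
  have hne : ∃ ξ, ξ < γ := by
    by_contra hcon
    push Not at hcon
    have h1 : Fr.R γ = 0 := by
      apply Fr.ext_clm
      intro ξ
      rw [Fr.R_ge γ ξ (hcon ξ)]; rfl
    have h2 := hbelow (g 0) (Submodule.subset_span ⟨0, rfl⟩)
    rw [h1] at h2
    have h3 : 0 < ‖g 0‖ := norm_pos_iff.mpr (hgne 0)
    have h4 : ‖(0 : V →L[𝕜] V) (g 0)‖ = 0 := norm_zero
    rw [h4] at h2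
    nlinarith
  have hlim : ∀ ξ, ξ < γ → ∃ η, ξ < η ∧ η < γ := by
    intro ξ hξ
    by_contra hcon
    push Not at hcon
    have hsucc : ∀ η, η < γ → η ≤ ξ := by
      intro η hη
      by_contra h
      exact absurd hη (not_lt.mpr (hcon η (not_le.mp h)))
    obtain ⟨K, hK⟩ := hcoordg ξ
    apply hmin' ξ hξ
    refine ⟨fun k => g (K + k), IsBlkOf.tail hgne K, c₀, hc₀, fun h hh => ?_⟩
    have hmem : h ∈ Submodule.span 𝕜 (Set.range g) := by
      refine Submodule.span_mono ?_ hh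
      rintro _ ⟨k, rfl⟩; exact ⟨K + k, rfl⟩
    have he : Fr.e ξ h = 0 := by
      induction hh using Submodule.span_induction with
      | mem y hy => obtain ⟨i, rfl⟩ := hy; exact hK _ (Nat.le_add_right _ _)
      | zero => exact map_zero _
      | add y z hy' hz' hy hz =>
        have a1 : y ∈ Submodule.span 𝕜 (Set.range g) := by
          refine Submodule.span_mono ?_ hy'
          rintro _ ⟨k, rfl⟩; exact ⟨K + k, rfl⟩
        have a2 : z ∈ Submodule.span 𝕜 (Set.range g) := by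
          refine Submodule.span_mono ?_ hz'
          rintro _ ⟨k, rfl⟩; exact ⟨K + k, rfl⟩
        rw [map_add, hy a1, hz a2, add_zero]
      | smul b y hy' hy =>
        have a1 : y ∈ Submodule.span 𝕜 (Set.range g) := by
          refine Submodule.span_mono ?_ hy'
          rintro _ ⟨k, rfl⟩; exact ⟨K + k, rfl⟩
        rw [map_smul, hy a1, smul_zero]
    have hR : Fr.R γ h = Fr.R ξ h + Fr.e ξ h • Fr.δ ξ := by
      have hclm : Fr.R γ = Fr.R ξ + (Fr.e ξ).smulRight (Fr.δ ξ) := by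
        apply Fr.ext_clm
        intro η
        show Fr.R γ (Fr.δ η) = Fr.R ξ (Fr.δ η) + Fr.e ξ (Fr.δ η) • Fr.δ ξ
        rcases lt_trichotomy η ξ with h1 | h1 | h1
        · rw [Fr.R_lt γ η (h1.trans hξ), Fr.R_lt ξ η h1, Fr.e_ne ξ η h1.ne', zero_smul, add_zero]
        · subst h1
          rw [Fr.R_lt γ η hξ, Fr.R_ge η η le_rfl, Fr.e_self, one_smul, zero_add]
        · have h2 : γ ≤ η := by
            by_contra h3
            exact absurd (hsucc η (not_le.mp h3)) (not_le.mpr h1)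
          rw [Fr.R_ge γ η h2, Fr.R_ge ξ η h1.le, Fr.e_ne ξ η h1.ne, zero_smul, add_zero]
      rw [hclm]; rfl
    have h1 := hbelow h hmem
    rwa [hR, he, zero_smul, add_zero] at h1
  -- smallness of lower projections
  have hsmall : ∀ γ' < γ, ∀ N : ℕ, ∀ ε > 0, ∃ h ∈ Submodule.span 𝕜 (g '' {k | N ≤ k}),
      ‖h‖ = 1 ∧ ‖Fr.R γ' h‖ ≤ ε := by
    intro γ' hγ' N ε hε
    by_contra hcon
    push Not at hcon
    apply hmin' γ' hγ'
    refine ⟨fun k => g (N + k), IsBlkOf.tail hgne N, ε, hε, fun h hh => ?_⟩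
    have hmem : h ∈ Submodule.span 𝕜 (g '' {k | N ≤ k}) := by
      refine Submodule.span_mono ?_ hh
      rintro _ ⟨k, rfl⟩; exact ⟨N + k, Nat.le_add_right _ _, rfl⟩
    by_cases h0 : h = 0
    · rw [h0, norm_zero, mul_zero]; exact norm_nonneg _
    have hpos : 0 < ‖h‖ := norm_pos_iff.mpr h0
    have h1 := hcon (((‖h‖⁻¹ : ℝ) : 𝕜) • h) (Submodule.smul_mem _ _ hmem) (by
      rw [norm_smul]
      simp only [RCLike.norm_ofReal, abs_inv, abs_norm]
      exact inv_mul_cancel₀ hpos.ne')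
    rw [map_smul, norm_smul] at h1
    simp only [RCLike.norm_ofReal, abs_inv, abs_norm] at h1
    rw [lt_inv_mul_iff₀ hpos] at h1
    linarith
  obtain ⟨a, φ, u, ha1, ha2, ha3, hφ1, hφ2, hu1, hu2⟩ := Fr.aux_construct (hcount γ) hne hlim g
    hsmall (fun k => c₀ / 32 * (1 / 2) ^ k) (fun n => by positivity)
  exact Fr.aux_contradiction x hmain g hc₀ hbelow hcoordg htailg a φ u ha1 ha2 ha3 hφ1 hφ2 hu1 hu2

end Frame

end Crest.Agent.R114
end

-- ▼ part R114/FinalAbs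
section

set_option autoImplicit false

/-!
# Final wrap-up for S0152 in abstract form (row 114)
-/

namespace Crest.Agent.R114

open Filter Topology

theorem fd_of_pairing {𝕜 X V : Type*} [RCLike 𝕜] [NormedAddCommGroup X] [NormedSpace 𝕜 X]
    [NormedAddCommGroup V] [NormedSpace 𝕜 V] [FiniteDimensional 𝕜 X] (B : X →ₗ[𝕜] (V →L[𝕜] 𝕜))
    (h : ∀ v, (∀ y, B y v = 0) → v = 0) : FiniteDimensional 𝕜 V := by
  let Φ : V →ₗ[𝕜] (X →ₗ[𝕜] 𝕜) :=
    { toFun := fun v =>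
        { toFun := fun y => B y v
          map_add' := fun y z => by rw [map_add]; rfl
          map_smul' := fun c y => by rw [map_smul]; rfl }
      map_add' := fun v w => by ext y; exact map_add (B y) v w
      map_smul' := fun c v => by ext y; exact map_smul (B y) c v }
  have hΦ : Function.Injective Φ := by
    rw [injective_iff_map_eq_zero]
    intro v hv
    apply h
    intro y
    exact congrArg (fun g : X →ₗ[𝕜] 𝕜 => g y) hv
  exact Module.Finite.of_injective Φ hΦ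

namespace Frame

section

variable {𝕜 : Type*} {V : Type*} {I : Type*} [RCLike 𝕜] [NormedAddCommGroup V]
    [NormedSpace 𝕜 V] [LinearOrder I] (Fr : Frame 𝕜 V I)

/-- The predual: closed span of the functionals `x β`. -/
def Predual (x : I → V →L[𝕜] 𝕜) : Submodule 𝕜 (V →L[𝕜] 𝕜) :=
  (Submodule.span 𝕜 (Set.range x)).topologicalClosure

omit [LinearOrder I] in
theorem mem_predual (x : I → V →L[𝕜] 𝕜) (β : I) : x β ∈ Predual x :=
  Submodule.le_topologicalClosure _ (Submodule.subset_span ⟨β, rfl⟩)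

include Fr in
theorem not_finiteDimensional [Infinite I] : ¬ FiniteDimensional 𝕜 V := by
  intro h
  have hli : LinearIndependent 𝕜 Fr.δ := by
    rw [linearIndependent_iff']
    intro s g hg i hi
    have h1 := congrArg (Fr.e i) hg
    rw [map_sum, map_zero, Finset.sum_eq_single i] at h1
    · rwa [map_smul, Fr.e_self, smul_eq_mul, mul_one] at h1
    · intro j _ hji
      rw [map_smul, Fr.e_ne i j hji.symm, smul_zero]
    · intro h; exact absurd hi h
  have := hli.finite_of_isNoetherian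
  exact not_finite I

end

variable {𝕜 : Type} {V : Type} {I : Type} [RCLike 𝕜] [NormedAddCommGroup V]
    [NormedSpace 𝕜 V] [LinearOrder I] (Fr : Frame 𝕜 V I)

/-- The conclusion of S0152 from a frame with the main property such that every functional on the
predual `closure span {x β}` is evaluation at a vector of `V`, and the `x β` separate the points
of `V`. -/
theorem exists_space [WellFoundedLT I] [Infinite I] (hcount : ∀ γ : I, (Set.Iio γ).Countable)
    (hcof : ∀ s : ℕ → I, ∃ γ, ∀ n, s n < γ) (x : I → V →L[𝕜] 𝕜) (hmain : Fr.MainProp x)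
    (hdual : ∀ F : Predual x →L[𝕜] 𝕜, ∃ v : V, ∀ β, F ⟨x β, mem_predual x β⟩ = x β v)
    (hinj : ∀ v : V, (∀ β, x β v = 0) → v = 0) :
    ∃ (X : Type) (_ : NormedAddCommGroup X) (_ : NormedSpace 𝕜 X),
      CompleteSpace X ∧ ¬ FiniteDimensional 𝕜 X ∧
      ∀ M : Submodule 𝕜 X, IsClosed (M : Set X) →
        TopologicalSpace.SeparableSpace (X ⧸ M) → FiniteDimensional 𝕜 (X ⧸ M) := by
  classical
  have hVinf := Fr.not_finiteDimensional
  refine ⟨Predual x, inferInstance, inferInstance, ?_, ?_, ?_⟩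
  · exact (Submodule.isClosed_topologicalClosure _).completeSpace_coe
  · -- infinite dimensional
    intro hfd
    apply hVinf
    exact fd_of_pairing (X := Predual x) (Predual x).subtype
      (fun v hv => hinj v fun β => hv ⟨x β, mem_predual x β⟩)
  · intro M hM hsep
    by_contra hfin
    obtain ⟨F, hF1, hFli, hFtail⟩ := exists_tail_null (𝕜 := 𝕜) M hM hsep hfin
    choose v hv using fun n => hdual (F n)
    -- `F n y = y (v n)` for all `y` in the predual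
    have hFv : ∀ n, ∀ y : Predual x, F n y = (y : V →L[𝕜] 𝕜) (v n) := by
      intro n y
      have hcl : IsClosed {y : Predual x | F n y = (y : V →L[𝕜] 𝕜) (v n)} := by
        refine isClosed_eq (F n).continuous ?_
        exact (ContinuousLinearMap.apply 𝕜 𝕜 (v n)).continuous.comp continuous_subtype_val
      have hspan : ∀ z : V →L[𝕜] 𝕜, ∀ hz : z ∈ Submodule.span 𝕜 (Set.range x),
          F n ⟨z, Submodule.le_topologicalClosure _ hz⟩ = z (v n) := by
        intro z hz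
        induction hz using Submodule.span_induction with
        | mem z hz => obtain ⟨β, rfl⟩ := hz; exact hv n β
        | zero => exact map_zero (F n)
        | add z w hz hw ihz ihw =>
          have := map_add (F n) ⟨z, Submodule.le_topologicalClosure _ hz⟩
            ⟨w, Submodule.le_topologicalClosure _ hw⟩
          rw [ihz, ihw] at this
          exact this
        | smul c z hz ihz =>
          have := map_smul (F n) c ⟨z, Submodule.le_topologicalClosure _ hz⟩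
          rw [ihz] at this
          exact this
      have hdense : Dense {y : Predual x | (y : V →L[𝕜] 𝕜) ∈ Submodule.span 𝕜 (Set.range x)} := by
        intro y
        rw [Metric.mem_closure_iff]
        intro ε hε
        have hy : (y : V →L[𝕜] 𝕜) ∈ closure ((Submodule.span 𝕜 (Set.range x) :
            Submodule 𝕜 (V →L[𝕜] 𝕜)) : Set (V →L[𝕜] 𝕜)) := by
          have h3 : (y : V →L[𝕜] 𝕜) ∈ (Submodule.span 𝕜 (Set.range x)).topologicalClosure := y.2
          rwa [← SetLike.mem_coe, Submodule.topologicalClosure_coe] at h3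
        obtain ⟨z, hz, hyz⟩ := Metric.mem_closure_iff.mp hy ε hε
        exact ⟨⟨z, Submodule.le_topologicalClosure _ hz⟩, hz, hyz⟩
      have h1 : closure {y : Predual x | (y : V →L[𝕜] 𝕜) ∈ Submodule.span 𝕜 (Set.range x)} ⊆
          {y : Predual x | F n y = (y : V →L[𝕜] 𝕜) (v n)} :=
        hcl.closure_subset_iff.mpr fun y hy => hspan y hy
      exact h1 (hdense y)
    -- correspondence of combinations
    have hcomb : ∀ l : ℕ →₀ 𝕜, ∀ y : Predual x,
        (Finsupp.linearCombination 𝕜 F l) y =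
          (y : V →L[𝕜] 𝕜) (Finsupp.linearCombination 𝕜 v l) := by
      intro l y
      rw [Finsupp.linearCombination_apply, Finsupp.linearCombination_apply, Finsupp.sum,
        Finsupp.sum, map_sum]
      simp only [ContinuousLinearMap.coe_sum', Finset.sum_apply, ContinuousLinearMap.coe_smul',
        Pi.smul_apply, hFv, map_smul]
    have hvli : LinearIndependent 𝕜 v := by
      rw [linearIndependent_iff]
      intro l hl
      rw [linearIndependent_iff] at hFli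
      apply hFli
      ext y
      rw [hcomb l y, hl, map_zero]; rfl
    refine Fr.no_tail_null hcount hcof x hmain v hvli ?_
    intro β ε hε
    obtain ⟨N, hN⟩ := hFtail ⟨x β, mem_predual x β⟩ ε hε
    refine ⟨N, fun h hh => ?_⟩
    obtain ⟨l, hl, rfl⟩ := (Finsupp.mem_span_image_iff_linearCombination 𝕜).mp hh
    have h1 := hN (Finsupp.linearCombination 𝕜 F l)
      ((Finsupp.mem_span_image_iff_linearCombination 𝕜).mpr ⟨l, hl, rfl⟩)
    rw [hcomb] at h1
    refine h1.trans (mul_le_mul_of_nonneg_left ?_ hε.le)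
    refine ContinuousLinearMap.opNorm_le_bound _ (norm_nonneg _) fun y => ?_
    rw [hcomb l y, mul_comm]
    exact (y : V →L[𝕜] 𝕜).le_opNorm _

end Frame

end Crest.Agent.R114
end

-- ▼ part R114/FrameT

set_option autoImplicit false

/-!
# Row 114, S0152: frames together with the recursion data `TData` (helper606)
-/

namespace Crest.Agent.R114

open Filter Topology

namespace Frame

variable {𝕜 : Type*} {V : Type*} {I : Type*} [RCLike 𝕜] [NormedAddCommGroup V]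
    [NormedSpace 𝕜 V] [LinearOrder I] (Fr : Frame 𝕜 V I)

/-- In a frame all of whose coordinates vanish at `v`, `R γ v = 0` for all `γ`. -/
theorem R_eq_zero_of_e [WellFoundedLT I] {v : V} (γ : I) (h : ∀ ξ < γ, Fr.e ξ v = 0) :
    Fr.R γ v = 0 := by
  induction γ using WellFoundedLT.induction with
  | ind γ ih =>
    by_cases hne : ∃ ξ, ξ < γ
    · by_cases hlim : ∀ ξ, ξ < γ → ∃ η, ξ < η ∧ η < γ
      · have h1 : ∀ ε > 0, ‖Fr.R γ v‖ ≤ ε := by
          intro ε hε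
          obtain ⟨a, ha, ha2⟩ := Fr.exists_R_close γ hne hlim v ε hε
          have h2 := ha2 a le_rfl ha
          rwa [ih a ha (fun ξ hξ => h ξ (hξ.trans ha)), sub_zero] at h2
        have h3 : ‖Fr.R γ v‖ ≤ 0 := le_of_forall_pos_le_add fun ε hε => by
          simpa using h1 ε hε
        exact norm_le_zero_iff.mp h3
      · push Not at hlim
        obtain ⟨ξ, hξ, hsucc⟩ := hlim
        have hclm : Fr.R γ = Fr.R ξ + (Fr.e ξ).smulRight (Fr.δ ξ) := by
          apply Fr.ext_clm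
          intro η
          show Fr.R γ (Fr.δ η) = Fr.R ξ (Fr.δ η) + Fr.e ξ (Fr.δ η) • Fr.δ ξ
          rcases lt_trichotomy η ξ with h1 | h1 | h1
          · rw [Fr.R_lt γ η (h1.trans hξ), Fr.R_lt ξ η h1, Fr.e_ne ξ η h1.ne', zero_smul, add_zero]
          · subst h1
            rw [Fr.R_lt γ η hξ, Fr.R_ge η η le_rfl, Fr.e_self, one_smul, zero_add]
          · rw [Fr.R_ge γ η (hsucc η h1), Fr.R_ge ξ η h1.le, Fr.e_ne ξ η h1.ne, zero_smul,
              add_zero]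
        rw [hclm]
        show Fr.R ξ v + Fr.e ξ v • Fr.δ ξ = 0
        rw [ih ξ hξ (fun η hη => h η (hη.trans hξ)), h ξ hξ, zero_smul, add_zero]
    · push Not at hne
      have h1 : Fr.R γ = 0 := by
        apply Fr.ext_clm
        intro ξ
        rw [Fr.R_ge γ ξ (hne ξ)]; rfl
      rw [h1]; rfl

theorem eq_zero_of_e [WellFoundedLT I] [Nonempty I] (hcof : ∀ s : ℕ → I, ∃ γ, ∀ n, s n < γ)
    {v : V} (h : ∀ ξ, Fr.e ξ v = 0) : v = 0 := by
  obtain ⟨γ, hγ⟩ := Fr.exists_R_eq_self hcof v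
  rw [← hγ γ le_rfl]
  exact Fr.R_eq_zero_of_e γ fun ξ _ => h ξ

/-- compatibility of a frame with recursion data -/
structure Compat (Fr : Frame 𝕜 V I) (d : TData 𝕜 V I) : Prop where
  est : ∀ ξ, d.est ξ = Fr.e ξ
  S_R : ∀ ξ K v, d.S ξ K (Fr.R ξ v) = d.S ξ K v

variable [WellFoundedLT I] {Fr} {d : TData 𝕜 V I}

theorem Compat.T_R (h : Compat Fr d) (ξ : I) : ∀ (K : ℕ) (v : V),
    d.T ξ K (Fr.R ξ v) = d.T ξ K v := by
  induction ξ using WellFoundedLT.induction with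
  | ind ξ ih =>
    intro K v
    have hD : ∀ l, d.D (d.b ξ l) (Fr.R ξ v) = d.D (d.b ξ l) v := by
      intro l
      unfold TData.D
      simp only [_root_.sum_apply, _root_.smul_apply]
      refine Finset.sum_congr rfl fun η hη => ?_
      have hηξ := d.lt_of_mem ξ l η hη
      rw [← ih η hηξ _ (Fr.R ξ v), Fr.R_R η ξ hηξ.le, ih η hηξ]
    have hsum : Summable fun l => d.D (d.b ξ (l + K)) :=
      ((d.summable_norm_D ξ).of_norm).comp_injective (add_left_injective K)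
    have heval : ∀ z : V, (∑' l, d.D (d.b ξ (l + K))) z = ∑' l, d.D (d.b ξ (l + K)) z := by
      intro z
      exact (ContinuousLinearMap.apply 𝕜 𝕜 z).map_tsum hsum
    rw [d.T_eq ξ K]
    show d.S ξ K (Fr.R ξ v) + (∑' l, d.D (d.b ξ (l + K))) (Fr.R ξ v) =
      d.S ξ K v + (∑' l, d.D (d.b ξ (l + K))) v
    rw [h.S_R, heval, heval]
    congr 1
    exact tsum_congr fun l => hD _

/-- the generators separate the points of `V` -/
theorem Compat.gen_inj [Nonempty I] (h : Compat Fr d) (hcof : ∀ s : ℕ → I, ∃ γ, ∀ n, s n < γ)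
    (v : V) (hv : ∀ β, d.gen β v = 0) : v = 0 := by
  apply Fr.eq_zero_of_e hcof
  intro ξ
  induction ξ using WellFoundedLT.induction with
  | ind ξ ih =>
    have h1 : Fr.R ξ v = 0 := Fr.R_eq_zero_of_e ξ ih
    have h2 := hv ξ
    have h3 : d.gen ξ v = d.est ξ v + d.T ξ 0 v := rfl
    rw [h3, ← h.T_R ξ 0 v, h1, map_zero, add_zero, h.est] at h2
    exact h2

/-- the small part of a generator tends to zero along bounded sequences whose lower projections
tend to zero -/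
theorem Compat.small_part (h : Compat Fr d) (β γ : I) (hγ : ∀ l, ∀ η ∈ (d.b β l).support, η < γ)
    (ψ : ℕ → V) (hB : ∃ B : ℝ, ∀ n, ‖ψ n‖ ≤ B)
    (hψ : ∀ ξ < γ, Tendsto (fun n => Fr.R ξ (ψ n)) atTop (𝓝 0)) :
    Tendsto (fun n => d.gen β (ψ n) - Fr.e β (ψ n) - d.S β 0 (ψ n)) atTop (𝓝 0) := by
  obtain ⟨B, hB⟩ := hB
  have hsum : Summable fun l => d.D (d.b β l) := (d.summable_norm_D β).of_norm
  have heq : ∀ n, d.gen β (ψ n) - Fr.e β (ψ n) - d.S β 0 (ψ n) = ∑' l, d.D (d.b β l) (ψ n) := by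
    intro n
    have h3 : d.gen β (ψ n) = d.est β (ψ n) + d.T β 0 (ψ n) := rfl
    have h4 : d.T β 0 (ψ n) = d.S β 0 (ψ n) + (∑' l, d.D (d.b β l)) (ψ n) := by
      rw [d.T_eq β 0]
      simp only [add_zero]
      rfl
    rw [h3, h4, h.est]
    have h5 : (∑' l, d.D (d.b β l)) (ψ n) = ∑' l, d.D (d.b β l) (ψ n) :=
      (ContinuousLinearMap.apply 𝕜 𝕜 (ψ n)).map_tsum hsum
    rw [h5]; ring
  simp_rw [heq]
  have hlim : ∀ l, Tendsto (fun n => d.D (d.b β l) (ψ n)) atTop (𝓝 0) := by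
    intro l
    unfold TData.D
    simp only [_root_.sum_apply, _root_.smul_apply]
    have h0 : (0 : 𝕜) = ∑ η ∈ (d.b β l).support, (((d.b β l) η : ℚ) : 𝕜) • (0 : 𝕜) := by simp
    rw [h0]
    refine tendsto_finsetSum _ fun η hη => Tendsto.const_smul ?_ _
    have h1 : (fun n => d.T η (d.kappa (d.b β l).support) (ψ n)) =
        fun n => d.T η (d.kappa (d.b β l).support) (Fr.R η (ψ n)) := by
      funext n; rw [h.T_R]
    rw [h1]
    have := ((d.T η (d.kappa (d.b β l).support)).continuous.tendsto 0).comp (hψ η (hγ l η hη))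
    rwa [map_zero] at this
  have h0 : (0 : 𝕜) = ∑' _ : ℕ, (0 : 𝕜) := by simp
  rw [h0]
  refine tendsto_tsum_of_dominated_convergence (bound := fun l => 3 * d.w β l * B)
    (((d.w_summable β).mul_left 3).mul_right B) hlim ?_
  filter_upwards with n l
  calc ‖d.D (d.b β l) (ψ n)‖ ≤ ‖d.D (d.b β l)‖ * ‖ψ n‖ := ContinuousLinearMap.le_opNorm _ _
    _ ≤ (3 * d.w β l) * B := mul_le_mul (d.norm_D_b_le β l) (hB n) (norm_nonneg _)
        ((norm_nonneg _).trans (d.norm_D_b_le β l))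

end Frame

end Crest.Agent.R114
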