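import Crest.Agent.R114.CodeSeq
import Crest.Agent.R114.MainDefs
import Crest.Agent.R114.Incid

-- ▼ part R114/Limit
section

/-! Compactness of coded lists (A2): the ultrafilter limit. (helper999) -/

set_option autoImplicit false

namespace Crest.Agent.R114

open Set Filter

set_option linter.unusedSectionVars false

variable {I : Type*} [LinearOrder I]

lemma IsCoded.le_idx {c : Coding I} {L : SList I} (hL : IsCoded c L) :
    ∀ l (_ : l < L.length), l ≤ (L.getD l 0).2 := by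
  intro l
  induction l with
  | zero => intro _; exact Nat.zero_le _
  | succ l ih =>
    intro h
    have h1 := ih (by omega)
    have h2 := hL.idx_lt (Nat.lt_succ_self l) h
    rw [List.getD_eq_getElem _ _ (by omega)] at h1
    rw [List.getD_eq_getElem _ _ h]
    exact lt_of_le_of_lt h1 h2

lemma IsCoded.idx_getD_lt {c : Coding I} {L : SList I} (hL : IsCoded c L) {l l' : ℕ}
    (h : l < l') (h' : l' < L.length) : (L.getD l 0).2 < (L.getD l' 0).2 := by
  rw [List.getD_eq_getElem _ _ (h.trans h'), List.getD_eq_getElem _ _ h']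
  exact hL.idx_lt h h'

lemma IsCoded.lt_of_getD {c : Coding I} {L : SList I} (hL : IsCoded c L) {l l' : ℕ}
    (h : l < l') (h' : l' < L.length) {ξ η : I} (hξ : (L.getD l 0).1 ξ ≠ 0)
    (hη : (L.getD l' 0).1 η ≠ 0) : ξ < η := by
  rw [List.getD_eq_getElem _ _ (h.trans h')] at hξ
  rw [List.getD_eq_getElem _ _ h'] at hη
  exact hL.succ l l' h h' ξ (Finsupp.mem_support_iff.2 hξ) η (Finsupp.mem_support_iff.2 hη)

lemma mem_suppL_getD {L : SList I} {ξ : I} {l : ℕ} (h : l < L.length)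
    (hξ : (L.getD l 0).1 ξ ≠ 0) : ξ ∈ suppL L := by
  rw [List.getD_eq_getElem _ _ h] at hξ
  exact mem_suppL_iff.2 ⟨l, h, hξ⟩

lemma getD_take {L : SList I} {l n : ℕ} (h : l < n) : (L.take n).getD l 0 = L.getD l 0 := by
  rw [List.getD_eq_getElem?_getD, List.getD_eq_getElem?_getD, List.getElem?_take, if_pos h]

lemma map_snd_getD {L : SList I} (l : ℕ) : (L.map Prod.snd).getD l 0 = (L.getD l 0).2 := by
  rw [List.getD_eq_getElem?_getD, List.getD_eq_getElem?_getD, List.getElem?_map]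
  cases L[l]? <;> rfl

/-- **Compactness of coded lists.**  `P k k'` is a special list defined for `k < k'` in an
infinite set `M`, whose code is in a set `C k'` of at most `q` elements, beyond `w k'`, and which
has an element at the place `l k k'` with index in the window `(w k, w (k+1)]`, nonzero at a point
`ξ k k'` of a finite set `F k`.  Then there is an infinite special sequence `t` which agrees, for
infinitely many `k` and suitable `k'`, with `P k k'` up to the point `ξ k k'`. -/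
theorem coherent_limit (c : Coding I) (Sp : SList I → Prop)
    (hSp : ∀ L, Sp L → IsCoded c L) (hSpt : ∀ L n, Sp L → Sp (L.take n))
    (w : ℕ → ℕ) (hw : StrictMono w)
    (q : ℕ) (C : ℕ → Finset ℕ) (hq : ∀ k, (C k).card ≤ q) (hC : ∀ k, ∀ j ∈ C k, w k < j)
    (M : Set ℕ) (hM : M.Infinite) (F : ℕ → Finset I)
    (P : ℕ → ℕ → SList I) (ξ : ℕ → ℕ → I) (l : ℕ → ℕ → ℕ)
    (hP : ∀ k ∈ M, ∀ k' ∈ M, k < k' → Sp (P k k') ∧ c.τ (P k k') ∈ C k' ∧ ξ k k' ∈ F k ∧
      l k k' < (P k k').length ∧ w k < ((P k k').getD (l k k') 0).2 ∧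
      ((P k k').getD (l k k') 0).2 ≤ w (k + 1) ∧ ((P k k').getD (l k k') 0).1 (ξ k k') ≠ 0) :
    ∃ t : ℕ → (I →₀ ℚ) × ℕ, (∀ n, Sp (pre t n)) ∧ ∃ M' ⊆ M, M'.Infinite ∧ ∀ k ∈ M',
      ∃ k' ∈ M, k < k' ∧ ∀ n ≤ l k k', ((P k k').getD n 0).2 = (t n).2 ∧
        ∀ η ≤ ξ k k', ((P k k').getD n 0).1 η = (t n).1 η := by
  classical
  -- the ultrafilter
  have hne : (atTop ⊓ 𝓟 M : Filter ℕ).NeBot := by
    rw [← Nat.cofinite_eq_atTop]
    exact cofinite_inf_principal_neBot_iff.2 hM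
  obtain ⟨U, hU⟩ := Ultrafilter.exists_le (atTop ⊓ 𝓟 M : Filter ℕ)
  have hUtop : (U : Filter ℕ) ≤ atTop := hU.trans inf_le_left
  have hUM : ∀ᶠ k' in (U : Filter ℕ), k' ∈ M := hU.trans inf_le_right (mem_principal_self M)
  have hUgt : ∀ n, ∀ᶠ k' in (U : Filter ℕ), n < k' := fun n => hUtop (eventually_gt_atTop n)
  have hwge : ∀ n, n ≤ w n := fun _ => hw.le_apply
  -- the enumeration of the codes
  set e : ℕ → ℕ → ℕ := fun k' i => (C k').toList.getD i 0 with he
  have he' : ∀ k', ∀ j ∈ C k', ∃ i : Fin q, j = e k' i := by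
    intro k' j hj
    obtain ⟨i, hi, rfl⟩ := List.getElem_of_mem (Finset.mem_toList.2 hj)
    have hi' : i < q := lt_of_lt_of_le (by simpa using hi) (hq k')
    exact ⟨⟨i, hi'⟩, by rw [he]; exact (List.getD_eq_getElem _ _ hi).symm⟩
  have h1 : ∀ k ∈ M, ∃ i : Fin q, ∀ᶠ k' in (U : Filter ℕ), c.τ (P k k') = e k' i := by
    intro k hk
    rw [← Ultrafilter.eventually_exists_iff]
    filter_upwards [hUM, hUgt k] with k' h2 h3
    exact he' k' _ (hP k hk k' h2 h3).2.1
  have h2 : ∃ i : Fin q, {k | ∃ _ : k ∈ M, ∀ᶠ k' in (U : Filter ℕ),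
      c.τ (P k k') = e k' i}.Infinite := by
    by_contra hcon
    push Not at hcon
    apply hM
    refine (Set.finite_iUnion fun i : Fin q => (hcon i)).subset ?_
    intro k hk
    obtain ⟨i, hi⟩ := h1 k hk
    exact Set.mem_iUnion.2 ⟨i, hk, hi⟩
  obtain ⟨i₀, hM'⟩ := h2
  set M' : Set ℕ := {k | ∃ _ : k ∈ M, ∀ᶠ k' in (U : Filter ℕ), c.τ (P k k') = e k' i₀} with hM'def
  set c' : ℕ → ℕ := fun k' => e k' i₀ with hc'
  have hM'M : M' ⊆ M := fun k hk => hk.1
  have hgood : ∀ k ∈ M', ∀ᶠ k' in (U : Filter ℕ), k' ∈ M ∧ k < k' ∧ c.τ (P k k') = c' k' := by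
    intro k hk
    filter_upwards [hUM, hUgt k, hk.2] with k' h3 h4 h5 using ⟨h3, h4, h5⟩
  have hM'ne : M'.Nonempty := hM'.nonempty
  have hM'gt : ∀ n, ∃ k ∈ M', n < k := by
    intro n
    obtain ⟨k, hk, hk'⟩ := hM'.exists_gt n
    exact ⟨k, hk, hk'⟩
  -- the depth of the codes tends to infinity
  have hdep : ∀ n, ∀ᶠ k' in (U : Filter ℕ), n < c.dep (c' k') := by
    intro n
    obtain ⟨N, hN⟩ := eventually_atTop.1 (c.dep_tendsto.eventually_gt_atTop n)
    obtain ⟨k, hk⟩ := hM'ne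
    filter_upwards [hgood k hk, hUgt N] with k' h3 h4
    apply hN
    have h5 := hC k' _ ((hP k (hM'M hk) k' h3.1 h3.2.1).2.1)
    rw [h3.2.2] at h5
    have := hwge k'
    omega
  -- common lists of indices
  have hidx : ∀ k₁ ∈ M', ∀ k₂ ∈ M', ∀ᶠ k' in (U : Filter ℕ),
      (P k₁ k').map Prod.snd = (P k₂ k').map Prod.snd := by
    intro k₁ h3 k₂ h4
    filter_upwards [hgood k₁ h3, hgood k₂ h4] with k' h5 h6
    exact (c.τ_eq _ _ (h5.2.2.trans h6.2.2.symm)).1
  have hidx' : ∀ k₁ ∈ M', ∀ k₂ ∈ M', ∀ᶠ k' in (U : Filter ℕ),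
      (P k₁ k').length = (P k₂ k').length ∧
        ∀ n, ((P k₁ k').getD n 0).2 = ((P k₂ k').getD n 0).2 := by
    intro k₁ h3 k₂ h4
    filter_upwards [hidx k₁ h3 k₂ h4] with k' h5
    refine ⟨by simpa using congrArg List.length h5, fun n => ?_⟩
    rw [← map_snd_getD, ← map_snd_getD, h5]
  -- growth of the places
  have hlt : ∀ k₁ ∈ M', ∀ k₂ ∈ M', k₁ < k₂ → ∀ᶠ k' in (U : Filter ℕ), l k₁ k' < l k₂ k' := by
    intro k₁ h3 k₂ h4 h12
    filter_upwards [hgood k₁ h3, hgood k₂ h4, hidx' k₁ h3 k₂ h4] with k' h5 h6 h7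
    by_contra hle
    have h8 := hP k₁ (hM'M h3) k' h5.1 h5.2.1
    have h9 := hP k₂ (hM'M h4) k' h6.1 h6.2.1
    have h10 : w (k₁ + 1) ≤ w k₂ := hw.monotone h12
    have h11 : ((P k₂ k').getD (l k₂ k') 0).2 ≤ ((P k₂ k').getD (l k₁ k') 0).2 := by
      rcases Nat.eq_or_lt_of_le (not_lt.1 hle) with h | h
      · rw [h]
      · refine ((hSp _ h9.1).idx_getD_lt h ?_).le
        rw [← h7.1]; exact h8.2.2.2.1
    have h12 := h7.2 (l k₁ k')
    have h13 := h8.2.2.2.2.2.1
    have h14 := h9.2.2.2.2.1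
    omega
  -- constant data
  have hl : ∀ k ∈ M', ∃ n, ∀ᶠ k' in (U : Filter ℕ), l k k' = n := by
    intro k hk
    have : ∀ᶠ k' in (U : Filter ℕ), ∃ n ∈ Set.Iic (w (k + 1)), l k k' = n := by
      filter_upwards [hgood k hk] with k' h3
      have h4 := hP k (hM'M hk) k' h3.1 h3.2.1
      refine ⟨_, ?_, rfl⟩
      exact ((hSp _ h4.1).le_idx _ h4.2.2.2.1).trans h4.2.2.2.2.2.1
    rw [Ultrafilter.eventually_exists_mem_iff (Set.finite_Iic _)] at this
    obtain ⟨n, -, hn⟩ := this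
    exact ⟨n, hn⟩
  choose! lk hlk using hl
  have hlk_lt : ∀ k₁ ∈ M', ∀ k₂ ∈ M', k₁ < k₂ → lk k₁ < lk k₂ := by
    intro k₁ h3 k₂ h4 h12
    obtain ⟨k', h5, h6, h7⟩ := ((hlk k₁ h3).and ((hlk k₂ h4).and (hlt k₁ h3 k₂ h4 h12))).exists
    omega
  have hlk_large : ∀ n, ∃ k ∈ M', n ≤ lk k := by
    intro n
    induction n with
    | zero => obtain ⟨k, hk⟩ := hM'ne; exact ⟨k, hk, Nat.zero_le _⟩
    | succ n ih =>
      obtain ⟨k, hk, hkn⟩ := ih
      obtain ⟨k₂, hk₂, hlt2⟩ := hM'gt k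
      have := hlk_lt k hk k₂ hk₂ hlt2
      exact ⟨k₂, hk₂, by omega⟩
  -- constant indices
  have hJ : ∀ n, ∃ j, ∀ k ∈ M', ∀ᶠ k' in (U : Filter ℕ),
      n < (P k k').length ∧ ((P k k').getD n 0).2 = j := by
    intro n
    obtain ⟨k₀, hk₀, hn⟩ := hlk_large n
    have : ∀ᶠ k' in (U : Filter ℕ), ∃ j ∈ Set.Iic (w (k₀ + 1)),
        n < (P k₀ k').length ∧ ((P k₀ k').getD n 0).2 = j := by
      filter_upwards [hgood k₀ hk₀, hlk k₀ hk₀] with k' h3 h4
      have h5 := hP k₀ (hM'M hk₀) k' h3.1 h3.2.1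
      refine ⟨_, ?_, by omega, rfl⟩
      rcases Nat.eq_or_lt_of_le hn with h | h
      · rw [h, ← h4]; exact h5.2.2.2.2.2.1
      · rw [← h4] at h
        exact ((hSp _ h5.1).idx_getD_lt h h5.2.2.2.1).le.trans h5.2.2.2.2.2.1
    rw [Ultrafilter.eventually_exists_mem_iff (Set.finite_Iic _)] at this
    obtain ⟨j, -, hj⟩ := this
    refine ⟨j, fun k hk => ?_⟩
    filter_upwards [hj, hidx' k₀ hk₀ k hk] with k' h3 h4
    exact ⟨h4.1 ▸ h3.1, by rw [← h4.2]; exact h3.2⟩
  choose J hJ using hJ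
  have hτJ : ∀ n, 0 < n → ∀ k ∈ M', ∀ᶠ k' in (U : Filter ℕ), c.τ ((P k k').take n) = J n := by
    intro n hn k hk
    filter_upwards [hgood k hk, hJ n k hk] with k' h3 h4
    have h5 := hP k (hM'M hk) k' h3.1 h3.2.1
    rw [← (hSp _ h5.1).code n h4.1 hn, ← List.getD_eq_getElem _ 0 h4.1]
    exact h4.2
  -- constant points
  have hξ : ∀ k ∈ M', ∃ x, ∀ᶠ k' in (U : Filter ℕ), ξ k k' = x := by
    intro k hk
    have : ∀ᶠ k' in (U : Filter ℕ), ∃ n ∈ (F k : Set I), ξ k k' = n := by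
      filter_upwards [hgood k hk] with k' h3
      exact ⟨_, (hP k (hM'M hk) k' h3.1 h3.2.1).2.2.1, rfl⟩
    rw [Ultrafilter.eventually_exists_mem_iff (Finset.finite_toSet _)] at this
    obtain ⟨n, -, hn⟩ := this
    exact ⟨n, hn⟩
  have hIne : Nonempty I := ⟨ξ 0 0⟩
  choose! ξk hξk using hξ
  -- summary of the good properties
  have hall : ∀ k ∈ M', ∀ᶠ k' in (U : Filter ℕ), k' ∈ M ∧ k < k' ∧ c.τ (P k k') = c' k' ∧
      IsCoded c (P k k') ∧ Sp (P k k') ∧ lk k < (P k k').length ∧ l k k' = lk k ∧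
      ξ k k' = ξk k ∧ ((P k k').getD (lk k) 0).1 (ξk k) ≠ 0 ∧
      ξk k ∈ suppL ((P k k').take (lk k + 1)) := by
    intro k hk
    filter_upwards [hgood k hk, hlk k hk, hξk k hk] with k' h3 h4 h5
    have h6 := hP k (hM'M hk) k' h3.1 h3.2.1
    rw [h4, h5] at h6
    refine ⟨h3.1, h3.2.1, h3.2.2, hSp _ h6.1, h6.1, h6.2.2.2.1, h4, h5, h6.2.2.2.2.2.2, ?_⟩
    refine mem_suppL_getD (l := lk k) (by simp; exact h6.2.2.2.1) ?_
    rw [getD_take (Nat.lt_succ_self _)]
    exact h6.2.2.2.2.2.2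
  -- constant restrictions
  have hR : ∀ k ∈ M', ∃ R : ℕ →₀ (Set.Iic (ξk k) →₀ ℚ), ∀ᶠ k' in (U : Filter ℕ),
      restr (ξk k) (P k k') = R := by
    intro k hk
    obtain ⟨k₀, h3, h4⟩ := ((hall k hk).and (hτJ (lk k + 1) (Nat.succ_pos _) k hk)).exists
    have h5 : ∀ᶠ k' in (U : Filter ℕ), ∃ η ∈ (suppL ((P k k₀).take (lk k + 1)) : Set I),
        c.E (ξk k) ((P k k').take (lk k + 1)) = c.E η ((P k k₀).take (lk k + 1)) := by
      filter_upwards [hall k hk, hτJ (lk k + 1) (Nat.succ_pos _) k hk] with k' h6 h7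
      obtain ⟨η, h8, -, -, h9⟩ := (c.τ_eq _ _ (h7.trans h4.symm)).2 (ξk k) h6.2.2.2.2.2.2.2.2.2
      exact ⟨η, h8, h9⟩
    rw [Ultrafilter.eventually_exists_mem_iff (Finset.finite_toSet _)] at h5
    obtain ⟨η, -, h6⟩ := h5
    obtain ⟨k₁, h7, h8⟩ := (h6.and (hall k hk)).exists
    refine ⟨restr (ξk k) (P k k₁), ?_⟩
    filter_upwards [h6, hall k hk] with k' h9 h10
    rw [← h10.2.2.2.1.restr_take h10.2.2.2.2.2.2.2.2.2,
      ← h8.2.2.2.1.restr_take h8.2.2.2.2.2.2.2.2.2, ← c.E_iff, h9, h7]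
  choose! R hR using hR
  -- coherence
  have hcoh : ∀ k₁ ∈ M', ∀ k₂ ∈ M', k₁ < k₂ → ∀ᶠ k' in (U : Filter ℕ),
      restr (ξk k₁) (P k₁ k') = restr (ξk k₁) (P k₂ k') := by
    intro k₁ hk₁ k₂ hk₂ h12
    obtain ⟨k₀, hk₀, hk₀'⟩ := ((hall k₂ hk₂).and (hR k₂ hk₂)).exists
    have hll := hlk_lt k₁ hk₁ k₂ hk₂ h12
    have h3 : ∀ᶠ k' in (U : Filter ℕ), ∃ η ∈ (suppL (P k₂ k₀) : Set I),
        (∀ i < c.dep (c' k'), c.x (ξk k₁) i = c.x η i) ∧
          c.E (ξk k₁) (P k₁ k') = c.E η (P k₂ k') := by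
      filter_upwards [hall k₁ hk₁, hall k₂ hk₂, hR k₂ hk₂,
        hτJ (lk k₁ + 1) (Nat.succ_pos _) k₁ hk₁, hτJ (lk k₁ + 1) (Nat.succ_pos _) k₂ hk₂]
        with k' h4 h5 h6 h7 h8
      have h9 : ξk k₁ ∈ suppL (P k₁ k') := suppL_take_subset _ _ h4.2.2.2.2.2.2.2.2.2
      obtain ⟨η, hη, hrk, hx, hE⟩ := (c.τ_eq _ _ (h4.2.2.1.trans h5.2.2.1.symm)).2 _ h9
      rw [h4.2.2.1] at hx
      obtain ⟨η', hη', hrk', -, -⟩ :=
        (c.τ_eq _ _ (h7.trans h8.symm)).2 (ξk k₁) h4.2.2.2.2.2.2.2.2.2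
      rw [h4.2.2.2.1.rk_take h4.2.2.2.2.2.2.2.2.2, h5.2.2.2.1.rk_take hη'] at hrk'
      have hηη : η = η' := rk_inj hη (suppL_take_subset _ _ hη') (hrk.symm.trans hrk')
      subst hηη
      refine ⟨η, ?_, hx, hE⟩
      obtain ⟨n, hn, hn'⟩ := mem_suppL_iff.1 hη'
      have hnl : n < lk k₁ + 1 := by simp at hn; omega
      have hnlen : n < (P k₂ k').length := by simp at hn; omega
      rw [List.getElem_take, ← List.getD_eq_getElem _ 0 hnlen] at hn'
      have hlt' : η < ξk k₂ := h5.2.2.2.1.lt_of_getD (by omega) h5.2.2.2.2.2.1 hn'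
        h5.2.2.2.2.2.2.2.2.1
      have h10 : restr (ξk k₂) (P k₂ k') = restr (ξk k₂) (P k₂ k₀) := h6.trans hk₀'.symm
      rw [restr_eq_iff] at h10
      have h11 := h10 n η hlt'.le
      rw [h11] at hn'
      have hn0 : n < (P k₂ k₀).length := by
        by_contra hge
        apply hn'
        rw [List.getD_eq_default _ _ (by omega)]; rfl
      exact mem_suppL_getD hn0 hn'
    rw [Ultrafilter.eventually_exists_mem_iff (Finset.finite_toSet _)] at h3
    obtain ⟨η, -, h4⟩ := h3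
    have hx : c.x (ξk k₁) = c.x η := by
      funext i
      obtain ⟨k', h5, h6⟩ := (h4.and (hdep i)).exists
      exact h5.1 i h6
    have hη := c.x_inj hx
    subst hη
    filter_upwards [h4] with k' h5
    exact (c.E_iff _ _ _).1 h5.2
  -- entries of the lists
  have hent : ∀ k ∈ M', ∀ n < lk k, ∃ p, ∀ᶠ k' in (U : Filter ℕ), (P k k').getD n 0 = p := by
    intro k hk n hn
    obtain ⟨k₀, h3, h4, h5⟩ := ((hall k hk).and ((hR k hk).and (hJ n k hk))).exists
    refine ⟨(P k k₀).getD n 0, ?_⟩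
    filter_upwards [hall k hk, hR k hk, hJ n k hk] with k' h6 h7 h8
    refine Prod.ext ?_ (h8.2.trans h5.2.symm)
    ext η
    have h9 := h7.trans h4.symm
    rw [restr_eq_iff] at h9
    by_cases h10 : η ≤ ξk k
    · exact h9 n η h10
    · have h11 : ((P k k').getD n 0).1 η = 0 := by
        by_contra h12
        exact h10 (h6.2.2.2.1.lt_of_getD hn h6.2.2.2.2.2.1 h12 h6.2.2.2.2.2.2.2.2.1).le
      have h13 : ((P k k₀).getD n 0).1 η = 0 := by
        by_contra h12
        exact h10 (h3.2.2.2.1.lt_of_getD hn h3.2.2.2.2.2.1 h12 h3.2.2.2.2.2.2.2.2.1).le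
      rw [h11, h13]
  have hent2 : ∀ k₁ ∈ M', ∀ k₂ ∈ M', k₁ < k₂ → ∀ n < lk k₁, ∀ᶠ k' in (U : Filter ℕ),
      (P k₁ k').getD n 0 = (P k₂ k').getD n 0 := by
    intro k₁ hk₁ k₂ hk₂ h12 n hn
    have hll := hlk_lt k₁ hk₁ k₂ hk₂ h12
    filter_upwards [hall k₁ hk₁, hall k₂ hk₂, hcoh k₁ hk₁ k₂ hk₂ h12, hJ n k₁ hk₁, hJ n k₂ hk₂]
      with k' h3 h4 h5 h6 h7
    refine Prod.ext ?_ (h6.2.trans h7.2.symm)
    rw [restr_eq_iff] at h5
    have h8 : ((P k₂ k').getD (lk k₁) 0).1 (ξk k₁) ≠ 0 := by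
      rw [← h5 (lk k₁) (ξk k₁) le_rfl]; exact h3.2.2.2.2.2.2.2.2.1
    ext η
    by_cases h10 : η ≤ ξk k₁
    · exact h5 n η h10
    · have h11 : ((P k₁ k').getD n 0).1 η = 0 := by
        by_contra h12
        exact h10 (h3.2.2.2.1.lt_of_getD hn h3.2.2.2.2.2.1 h12 h3.2.2.2.2.2.2.2.2.1).le
      have h13 : ((P k₂ k').getD n 0).1 η = 0 := by
        by_contra h12
        exact h10 (h4.2.2.2.1.lt_of_getD hn (by have := h4.2.2.2.2.2.1; omega) h12 h8).le
      rw [h11, h13]
  choose κ hκM hκ using fun n => hlk_large (n + 1)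
  have ht : ∀ n, ∃ p, ∀ᶠ k' in (U : Filter ℕ), (P (κ n) k').getD n 0 = p := fun n =>
    hent (κ n) (hκM n) n (by have := hκ n; omega)
  choose t ht using ht
  have ht2 : ∀ k ∈ M', ∀ n < lk k, ∀ᶠ k' in (U : Filter ℕ), (P k k').getD n 0 = t n := by
    intro k hk n hn
    rcases lt_trichotomy k (κ n) with h | h | h
    · filter_upwards [hent2 k hk (κ n) (hκM n) h n hn, ht n] with k' h3 h4
      rw [h3, h4]
    · rw [h]; exact ht n
    · filter_upwards [hent2 (κ n) (hκM n) k hk h n (by have := hκ n; omega), ht n] with k' h3 h4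
      rw [← h3, h4]
  refine ⟨t, ?_, M', hM'M, hM', ?_⟩
  · intro N
    obtain ⟨k, hk, hkN⟩ := hlk_large N
    have h3 : ∀ᶠ k' in (U : Filter ℕ), ∀ n ∈ Finset.range N, (P k k').getD n 0 = t n := by
      rw [Finset.eventually_all]
      intro n hn
      exact ht2 k hk n (by have := Finset.mem_range.1 hn; omega)
    obtain ⟨k', h4, h5⟩ := (h3.and (hall k hk)).exists
    have h6 : pre t N = (P k k').take N := by
      apply List.ext_getElem
      · simp; have := h5.2.2.2.2.2.1; omega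
      · intro n h7 h8
        simp only [length_pre] at h7
        rw [getElem_pre, List.getElem_take, ← List.getD_eq_getElem _ 0]
        exact (h4 n (Finset.mem_range.2 h7)).symm
    rw [h6]
    exact hSpt _ _ h5.2.2.2.2.1
  · intro k hk
    obtain ⟨k₂, hk₂, hkk⟩ := hM'gt k
    have hll := hlk_lt k hk k₂ hk₂ hkk
    have h3 : ∀ᶠ k' in (U : Filter ℕ), ∀ n ∈ Finset.range (lk k + 1), (P k₂ k').getD n 0 = t n := by
      rw [Finset.eventually_all]
      intro n hn
      exact ht2 k₂ hk₂ n (by have := Finset.mem_range.1 hn; omega)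
    obtain ⟨k', h4, h5, h6, h7, h8⟩ := (h3.and ((hall k hk).and
      ((hcoh k hk k₂ hk₂ hkk).and ((hidx' k hk k₂ hk₂).and (hUgt k))))).exists
    refine ⟨k', h5.1, h5.2.1, ?_⟩
    intro n hn
    rw [h5.2.2.2.2.2.2.1] at hn
    have h9 := h4 n (Finset.mem_range.2 (by omega))
    refine ⟨by rw [h7.2 n, h9], ?_⟩
    intro η hη
    rw [h5.2.2.2.2.2.2.2.1] at hη
    rw [restr_eq_iff] at h6
    rw [h6 n η hη, h9]

end Crest.Agent.R114
end

-- ▼ part R114/MLink
section

/-!
(4.3): in a rapidly increasing sequence `y k` with windows `(w k, w (k+1)]`, a subsequence can be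
chosen on which no special list acts `≥ η` (through the window parts) on two members, unless some
infinite special sequence acts `≥ η / 2` on infinitely many `y k` (restricted to an interval).
(helper115)
-/

set_option autoImplicit false

namespace Crest.Agent.R114

open Set Filter

set_option linter.unusedSectionVars false

section Ramsey

/-- the infinite set built from an ultrafilter -/
lemma exists_infinite_of_ultrafilter {R : ℕ → ℕ → Prop} {A : Set ℕ} (U : Ultrafilter ℕ)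
    (hU : (U : Filter ℕ) ≤ atTop) (hA : ∀ᶠ k in (U : Filter ℕ), k ∈ A)
    (h : ∀ k ∈ A, ∀ᶠ k' in (U : Filter ℕ), R k k') :
    ∃ M ⊆ A, M.Infinite ∧ ∀ k ∈ M, ∀ k' ∈ M, k < k' → R k k' := by
  obtain ⟨f, hf, hr⟩ := exists_seq_of_forall_finset_exists (fun k => k ∈ A)
    (fun k k' => k < k' ∧ R k k') (by
      intro s hs
      have h1 : ∀ᶠ k' in (U : Filter ℕ), ∀ x ∈ s, x < k' ∧ R x k' := by
        rw [Finset.eventually_all]
        intro x hx
        have h2 : ∀ᶠ k' in (U : Filter ℕ), x < k' := hU (eventually_gt_atTop x)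
        exact h2.and (h x (hs x hx))
      obtain ⟨y, hy⟩ := (hA.and h1).exists
      exact ⟨y, hy⟩)
  have hmono : StrictMono f := fun m n hmn => (hr m n hmn).1
  refine ⟨Set.range f, ?_, Set.infinite_range_of_injective hmono.injective, ?_⟩
  · rintro _ ⟨n, rfl⟩; exact hf n
  · rintro _ ⟨m, rfl⟩ _ ⟨n, rfl⟩ hmn
    exact (hr m n (hmono.lt_iff_lt.1 hmn)).2

/-- Ramsey's theorem for pairs -/
theorem ramsey_pairs (R : ℕ → ℕ → Prop) (K : Set ℕ) (hK : K.Infinite) :
    ∃ M ⊆ K, M.Infinite ∧ ((∀ k ∈ M, ∀ k' ∈ M, k < k' → R k k') ∨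
      (∀ k ∈ M, ∀ k' ∈ M, k < k' → ¬ R k k')) := by
  have hne : (atTop ⊓ 𝓟 K : Filter ℕ).NeBot := by
    rw [← Nat.cofinite_eq_atTop]
    exact cofinite_inf_principal_neBot_iff.2 hK
  obtain ⟨U, hU⟩ := Ultrafilter.exists_le (atTop ⊓ 𝓟 K : Filter ℕ)
  have hUtop : (U : Filter ℕ) ≤ atTop := hU.trans inf_le_left
  have hUK : ∀ᶠ k' in (U : Filter ℕ), k' ∈ K := hU.trans inf_le_right (mem_principal_self K)
  by_cases hA : ∀ᶠ k in (U : Filter ℕ), ∀ᶠ k' in (U : Filter ℕ), R k k'
  · obtain ⟨M, hM, hM', h⟩ := exists_infinite_of_ultrafilter (R := R)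
      (A := {k | k ∈ K ∧ ∀ᶠ k' in (U : Filter ℕ), R k k'}) U hUtop (hUK.and hA)
      (fun k hk => hk.2)
    exact ⟨M, fun k hk => (hM hk).1, hM', Or.inl h⟩
  · rw [← Ultrafilter.eventually_not] at hA
    obtain ⟨M, hM, hM', h⟩ := exists_infinite_of_ultrafilter (R := fun k k' => ¬ R k k')
      (A := {k | k ∈ K ∧ ¬ ∀ᶠ k' in (U : Filter ℕ), R k k'}) U hUtop (hUK.and hA)
      (fun k hk => Ultrafilter.eventually_not.2 hk.2)
    exact ⟨M, fun k hk => (hM hk).1, hM', Or.inr h⟩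

end Ramsey

variable {I : Type*} [LinearOrder I] {𝕜 : Type*} [RCLike 𝕜]

/-- value of a rational functional at a vector -/
noncomputable def ev (f : I →₀ ℚ) (v : I → 𝕜) : 𝕜 := f.sum fun ξ q => (q : 𝕜) * v ξ

/-- value of the sum of a list at a vector -/
noncomputable def lact (L : SList I) (v : I → 𝕜) : 𝕜 := (L.map fun p => ev p.1 v).sum

/-- value of the window part of a list at a vector -/
noncomputable def wact (L : SList I) (a b : ℕ) (v : I → 𝕜) : 𝕜 :=
  (L.map fun p => if a < p.2 ∧ p.2 ≤ b then ev p.1 v else 0).sum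

lemma ev_congr {f : I →₀ ℚ} {v v' : I → 𝕜} (h : ∀ ξ, f ξ ≠ 0 → v ξ = v' ξ) :
    ev f v = ev f v' := by
  unfold ev Finsupp.sum
  refine Finset.sum_congr rfl fun ξ hξ => ?_
  show (f ξ : 𝕜) * v ξ = (f ξ : 𝕜) * v' ξ
  rw [h ξ (Finsupp.mem_support_iff.1 hξ)]

lemma ev_congr' {f g : I →₀ ℚ} {v : I → 𝕜} (h : ∀ ξ, v ξ ≠ 0 → f ξ = g ξ) :
    ev f v = ev g v := by
  classical
  have h1 : ∀ f g : I →₀ ℚ, ev f v = ∑ ξ ∈ f.support ∪ g.support, (f ξ : 𝕜) * v ξ := by
    intro f g
    unfold ev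
    exact Finsupp.sum_of_support_subset f Finset.subset_union_left _ (fun i _ => by simp)
  rw [h1 f g, h1 g f, Finset.union_comm]
  refine Finset.sum_congr rfl fun ξ _ => ?_
  by_cases hv : v ξ = 0
  · simp [hv]
  · rw [h ξ hv]

lemma ev_eq_zero {f : I →₀ ℚ} {v : I → 𝕜} (h : ∀ ξ, f ξ ≠ 0 → v ξ = 0) : ev f v = 0 := by
  unfold ev Finsupp.sum
  refine Finset.sum_eq_zero fun ξ hξ => ?_
  show (f ξ : 𝕜) * v ξ = 0
  rw [h ξ (Finsupp.mem_support_iff.1 hξ), mul_zero]

@[simp] lemma ev_zero (v : I → 𝕜) : ev 0 v = 0 := by simp [ev]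

lemma sum_map_eq_range {α β : Type*} [AddCommMonoid β] (L : List α) (d : α) (g : α → β) :
    (L.map g).sum = ∑ i ∈ Finset.range L.length, g (L.getD i d) := by
  induction L using List.reverseRecOn with
  | nil => simp
  | append_singleton L a ih =>
    rw [List.map_append, List.sum_append, ih, List.length_append, List.length_singleton,
      Finset.sum_range_succ]
    congr 1
    · refine Finset.sum_congr rfl fun i hi => ?_
      rw [List.getD_append _ _ _ _ (Finset.mem_range.1 hi)]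
    · simp

lemma lact_eq (L : SList I) (v : I → 𝕜) :
    lact L v = ∑ i ∈ Finset.range L.length, ev (L.getD i 0).1 v :=
  sum_map_eq_range L 0 _

lemma wact_eq (L : SList I) (a b : ℕ) (v : I → 𝕜) :
    wact L a b v = ∑ i ∈ Finset.range L.length,
      if a < (L.getD i 0).2 ∧ (L.getD i 0).2 ≤ b then ev (L.getD i 0).1 v else 0 :=
  sum_map_eq_range L 0 fun p : (I →₀ ℚ) × ℕ => if a < p.2 ∧ p.2 ≤ b then ev p.1 v else 0

lemma lact_pre (t : ℕ → (I →₀ ℚ) × ℕ) (n : ℕ) (v : I → 𝕜) :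
    lact (pre t n) v = ∑ i ∈ Finset.range n, ev (t i).1 v := by
  rw [lact_eq, length_pre]
  refine Finset.sum_congr rfl fun i hi => ?_
  rw [getD_pre, if_pos (Finset.mem_range.1 hi)]

/-- the number of elements of a list with index `≤ a` -/
noncomputable def cnt (L : SList I) (a : ℕ) : ℕ :=
  ((Finset.range L.length).filter fun i => (L.getD i 0).2 ≤ a).card

lemma IsCoded.lt_cnt_iff {c : Coding I} {L : SList I} (hL : IsCoded c L) {a i : ℕ}
    (hi : i < L.length) : i < cnt L a ↔ (L.getD i 0).2 ≤ a := by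
  classical
  have hmono : ∀ i j, i ≤ j → j < L.length → (L.getD i 0).2 ≤ (L.getD j 0).2 := by
    intro i j hij hj
    rcases Nat.eq_or_lt_of_le hij with h | h
    · rw [h]
    · exact (hL.idx_getD_lt h hj).le
  have key : ((Finset.range L.length).filter fun i => (L.getD i 0).2 ≤ a) =
      Finset.range (cnt L a) := by
    apply Finset.eq_of_subset_of_card_le
    · intro j hj
      rw [Finset.mem_filter, Finset.mem_range] at hj
      rw [Finset.mem_range]
      have : Finset.range (j + 1) ⊆ (Finset.range L.length).filter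
          fun i => (L.getD i 0).2 ≤ a := by
        intro i hi
        rw [Finset.mem_range] at hi
        rw [Finset.mem_filter, Finset.mem_range]
        exact ⟨by omega, (hmono i j (by omega) hj.1).trans hj.2⟩
      have h2 := Finset.card_le_card this
      rw [Finset.card_range] at h2
      exact h2
    · rw [Finset.card_range]; exact le_rfl
  constructor
  · intro h
    have : i ∈ (Finset.range L.length).filter fun i => (L.getD i 0).2 ≤ a := by
      rw [key]; exact Finset.mem_range.2 h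
    exact (Finset.mem_filter.1 this).2
  · intro h
    have : i ∈ Finset.range (cnt L a) := by
      rw [← key, Finset.mem_filter, Finset.mem_range]; exact ⟨hi, h⟩
    exact Finset.mem_range.1 this

lemma cnt_le_length (L : SList I) (a : ℕ) : cnt L a ≤ L.length := by
  unfold cnt
  exact (Finset.card_filter_le _ _).trans (by rw [Finset.card_range])

lemma length_seg (L : SList I) (r s : ℕ) :
    ((L.take s).drop r).length = min s L.length - r := by simp

lemma getD_seg (L : SList I) (r s i : ℕ) (hi : r + i < s) :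
    ((L.take s).drop r).getD i 0 = L.getD (r + i) 0 := by
  rw [List.getD_eq_getElem?_getD, List.getElem?_drop, List.getElem?_take, if_pos hi,
    List.getD_eq_getElem?_getD]

lemma lact_seg (L : SList I) (r s : ℕ) (v : I → 𝕜) :
    lact ((L.take s).drop r) v = ∑ i ∈ Finset.Ico r (min s L.length), ev (L.getD i 0).1 v := by
  rw [lact_eq, Finset.sum_Ico_eq_sum_range, length_seg]
  refine Finset.sum_congr rfl fun i hi => ?_
  rw [Finset.mem_range] at hi
  rw [getD_seg _ _ _ _ (by omega)]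

/-- the window part as a segment of the list -/
lemma IsCoded.wact_eq_lact {c : Coding I} {L : SList I} (hL : IsCoded c L) (a b : ℕ)
    (v : I → 𝕜) : wact L a b v = lact ((L.take (cnt L b)).drop (cnt L a)) v := by
  classical
  rw [wact_eq, lact_seg, min_eq_left (cnt_le_length L b), ← Finset.sum_filter]
  refine Finset.sum_congr ?_ fun _ _ => rfl
  ext i
  rw [Finset.mem_filter, Finset.mem_range, Finset.mem_Ico]
  constructor
  · rintro ⟨h1, h2, h3⟩
    rw [← hL.lt_cnt_iff h1] at h3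
    refine ⟨?_, h3⟩
    by_contra h4
    have := (hL.lt_cnt_iff h1).1 (not_le.1 h4)
    omega
  · rintro ⟨h1, h2⟩
    have h3 : i < L.length := lt_of_lt_of_le h2 (cnt_le_length L b)
    rw [hL.lt_cnt_iff h3] at h2
    refine ⟨h3, ?_, h2⟩
    by_contra h4
    have := (hL.lt_cnt_iff h3).2 (not_lt.1 h4)
    omega

lemma mem_seg {L : SList I} {r s : ℕ} {p : (I →₀ ℚ) × ℕ} (h : p ∈ (L.take s).drop r) :
    ∃ i, r ≤ i ∧ i < s ∧ i < L.length ∧ p = L.getD i 0 := by
  obtain ⟨j, hj, rfl⟩ := List.getElem_of_mem h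
  rw [length_seg] at hj
  refine ⟨r + j, by omega, by omega, by omega, ?_⟩
  rw [← getD_seg L r s j (by omega), List.getD_eq_getElem]

lemma IsCoded.code_getD {c : Coding I} {L : SList I} (hL : IsCoded c L) {i : ℕ}
    (h0 : 0 < i) (hi : i < L.length) : (L.getD i 0).2 = c.τ (L.take i) := by
  rw [List.getD_eq_getElem _ _ hi]
  exact hL.code i hi h0

/-- distinct first window codes give distinct window indices -/
lemma distinct_window {c : Coding I} {a b : ℕ} {L L' : SList I} (hL : IsCoded c L)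
    (hL' : IsCoded c L') (h0 : 0 < cnt L a) (h0' : 0 < cnt L' a)
    (hne : c.τ (L.take (cnt L a)) ≠ c.τ (L'.take (cnt L' a))) :
    ∀ p ∈ (L.take (cnt L b)).drop (cnt L a), ∀ p' ∈ (L'.take (cnt L' b)).drop (cnt L' a),
      p.2 ≠ p'.2 := by
  intro p hp p' hp' heq
  obtain ⟨i, h1, h2, h3, rfl⟩ := mem_seg hp
  obtain ⟨i', h1', h2', h3', rfl⟩ := mem_seg hp'
  have hτ := heq
  rw [hL.code_getD (by omega) h3, hL'.code_getD (by omega) h3'] at hτ
  have hmap := (c.τ_eq _ _ hτ).1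
  have hlen := congrArg List.length hmap
  simp only [List.length_map, List.length_take] at hlen
  have hii : i = i' := by omega
  subst hii
  have hx : ∀ x ≤ i, (L.getD x 0).2 = (L'.getD x 0).2 := by
    intro x hx
    rcases Nat.eq_or_lt_of_le hx with h | h
    · rw [h]; exact heq
    · have h4 := congrArg (fun l => l.getD x 0) hmap
      simp only [map_snd_getD] at h4
      rwa [getD_take h, getD_take h] at h4
  have hcc : cnt L a = cnt L' a := by
    rcases lt_trichotomy (cnt L a) (cnt L' a) with h | h | h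
    · exfalso
      have h4 := hx (cnt L a) h1
      have h5 := (hL'.lt_cnt_iff (a := a) (i := cnt L a) (by omega)).1 h
      have h6 := mt (hL.lt_cnt_iff (a := a) (i := cnt L a) (by omega)).2 (lt_irrefl _)
      omega
    · exact h
    · exfalso
      have h4 := hx (cnt L' a) h1'
      have h5 := (hL.lt_cnt_iff (a := a) (i := cnt L' a) (by omega)).1 h
      have h6 := mt (hL'.lt_cnt_iff (a := a) (i := cnt L' a) (by omega)).2 (lt_irrefl _)
      omega
  apply hne
  rw [← hL.code_getD h0 (by omega), ← hL'.code_getD h0' (by omega), ← hcc]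
  exact hx _ h1

/-- tail of a summable nonnegative sequence -/
lemma exists_tail_le {μ : ℕ → ℝ} (hμ : Summable μ) {ε : ℝ} (hε : 0 < ε) :
    ∃ N, ∀ S : Finset ℕ, (∀ j ∈ S, N < j) → ∑ j ∈ S, μ j ≤ ε := by
  have h := (summable_iff_vanishing_norm.1 hμ) ε hε
  obtain ⟨s, hs⟩ := h
  refine ⟨s.sup id, fun S hS => ?_⟩
  have h1 := hs S (by
    rw [Finset.disjoint_left]
    intro j hj hjs
    have := hS j hj
    have h2 : j ≤ s.sup id := Finset.le_sup (f := id) hjs
    omega)
  rw [Real.norm_eq_abs] at h1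
  exact (le_abs_self _).trans h1.le

theorem exists_unlinked (c : Coding I) (Sp : SList I → Prop)
    (hSp : ∀ L, Sp L → IsCoded c L) (hSpt : ∀ L n, Sp L → Sp (L.take n))
    (IsInt : Set I → Prop) (hInt : ∀ E ξ, IsInt E → IsInt (E ∩ Iic ξ))
    (w : ℕ → ℕ) (hw : StrictMono w) (y : ℕ → I → 𝕜) (F : ℕ → Finset I)
    (hF : ∀ k ξ, y k ξ ≠ 0 → ξ ∈ F k)
    (hFs : ∀ k k', k < k' → ∀ ξ ∈ F k, ∀ ξ' ∈ F k', ξ < ξ')
    (μ : ℕ → ℝ) (hμ : Summable μ)
    (hout : ∀ L, Sp L → ∀ p ∈ L, ∀ k, p.2 ≤ w k → ∀ E, IsInt E →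
      ‖ev p.1 (E.indicator (y k))‖ ≤ μ p.2)
    (C : ℝ)
    (hpsi : ∀ k, ∀ (S : Finset ℕ) (L : ℕ → SList I) (r : ℕ → ℕ) (E : ℕ → Set I),
      (∀ u ∈ S, Sp (L u)) → (∀ u ∈ S, IsInt (E u)) →
      (∀ u ∈ S, ∀ v ∈ S, u ≠ v → ∀ p ∈ (L u).drop (r u), ∀ p' ∈ (L v).drop (r v), p.2 ≠ p'.2) →
      (∀ u ∈ S, ∀ p ∈ (L u).drop (r u), S.card ≤ p.2) →
      ∑ u ∈ S, ‖lact ((L u).drop (r u)) ((E u).indicator (y k))‖ ≤ C)
    (hNK : ∀ t : ℕ → (I →₀ ℚ) × ℕ, (∀ n, Sp (pre t n)) → ∀ ε : ℝ, 0 < ε → ∃ k₀, ∀ k ≥ k₀, ∀ E,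
      IsInt E → ∀ᶠ n in atTop, ‖lact (pre t n) (E.indicator (y k))‖ ≤ ε)
    (η : ℝ) (hη : 0 < η) (K : Set ℕ) (hK : K.Infinite) :
    ∃ M ⊆ K, M.Infinite ∧ ∀ k ∈ M, ∀ k' ∈ M, k < k' → ∀ L, Sp L → ∀ E E', IsInt E → IsInt E' →
      ¬ (η ≤ ‖wact L (w k) (w (k + 1)) (E.indicator (y k))‖ ∧
        η ≤ ‖wact L (w k') (w (k' + 1)) (E'.indicator (y k'))‖) := by
  classical
  obtain ⟨M, hMK, hM, h | h⟩ := ramsey_pairs (fun k k' => ∃ L, Sp L ∧ ∃ E E', IsInt E ∧
    IsInt E' ∧ η ≤ ‖wact L (w k) (w (k + 1)) (E.indicator (y k))‖ ∧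
        η ≤ ‖wact L (w k') (w (k' + 1)) (E'.indicator (y k'))‖) K hK
  swap
  · refine ⟨M, hMK, hM, fun k hk k' hk' hkk L hL E E' hE hE' h1 => ?_⟩
    exact h k hk k' hk' hkk ⟨L, hL, E, E', hE, hE', h1.1, h1.2⟩
  exfalso
  -- the choice of the lists
  obtain ⟨L, hL⟩ : ∃ L : ℕ → ℕ → SList I, ∀ k ∈ M, ∀ k' ∈ M, k < k' → Sp (L k k') ∧ ∃ E E',
      IsInt E ∧ IsInt E' ∧ η ≤ ‖wact (L k k') (w k) (w (k + 1)) (E.indicator (y k))‖ ∧
        η ≤ ‖wact (L k k') (w k') (w (k' + 1)) (E'.indicator (y k'))‖ := by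
    refine ⟨fun k k' => if h' : k ∈ M ∧ k' ∈ M ∧ k < k' then
      (h k h'.1 k' h'.2.1 h'.2.2).choose else [], ?_⟩
    intro k hk k' hk' hkk
    have h' : k ∈ M ∧ k' ∈ M ∧ k < k' := ⟨hk, hk', hkk⟩
    simp only [dif_pos h']
    exact (h k hk k' hk' hkk).choose_spec
  obtain ⟨E, hE⟩ : ∃ E : ℕ → ℕ → Set I, ∀ k ∈ M, ∀ k' ∈ M, k < k' → ∃ E',
      IsInt (E k k') ∧ IsInt E' ∧
        η ≤ ‖wact (L k k') (w k) (w (k + 1)) ((E k k').indicator (y k))‖ ∧
        η ≤ ‖wact (L k k') (w k') (w (k' + 1)) (E'.indicator (y k'))‖ := by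
    refine ⟨fun k k' => if h' : k ∈ M ∧ k' ∈ M ∧ k < k' then
      (hL k h'.1 k' h'.2.1 h'.2.2).2.choose else ∅, ?_⟩
    intro k hk k' hk' hkk
    have h' : k ∈ M ∧ k' ∈ M ∧ k < k' := ⟨hk, hk', hkk⟩
    simp only [dif_pos h']
    exact (hL k hk k' hk' hkk).2.choose_spec
  obtain ⟨E', hE'⟩ : ∃ E' : ℕ → ℕ → Set I, ∀ k ∈ M, ∀ k' ∈ M, k < k' →
      IsInt (E k k') ∧ IsInt (E' k k') ∧
        η ≤ ‖wact (L k k') (w k) (w (k + 1)) ((E k k').indicator (y k))‖ ∧
        η ≤ ‖wact (L k k') (w k') (w (k' + 1)) ((E' k k').indicator (y k'))‖ := by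
    refine ⟨fun k k' => if h' : k ∈ M ∧ k' ∈ M ∧ k < k' then
      (hE k h'.1 k' h'.2.1 h'.2.2).choose else ∅, ?_⟩
    intro k hk k' hk' hkk
    have h' : k ∈ M ∧ k' ∈ M ∧ k < k' := ⟨hk, hk', hkk⟩
    simp only [dif_pos h']
    exact (hE k hk k' hk' hkk).choose_spec
  replace hL : ∀ k ∈ M, ∀ k' ∈ M, k < k' → Sp (L k k') := fun k hk k' hk' hkk =>
    (hL k hk k' hk' hkk).1
  clear hE h
  have hLc : ∀ k ∈ M, ∀ k' ∈ M, k < k' → IsCoded c (L k k') := fun k hk k' hk' hkk =>
    hSp _ (hL k hk k' hk' hkk)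
  -- elements in the windows
  have hwin : ∀ (L : SList I) (a b : ℕ) (v : I → 𝕜), η ≤ ‖wact L a b v‖ →
      ∃ i < L.length, a < (L.getD i 0).2 ∧ (L.getD i 0).2 ≤ b ∧ ∃ ξ, (L.getD i 0).1 ξ ≠ 0 ∧
        v ξ ≠ 0 := by
    intro L a b v h
    have h1 : wact L a b v ≠ 0 := by
      intro h0; rw [h0, norm_zero] at h; linarith
    rw [wact_eq] at h1
    obtain ⟨i, hi, h2⟩ := Finset.exists_ne_zero_of_sum_ne_zero h1
    rw [Finset.mem_range] at hi
    split_ifs at h2 with h3
    · refine ⟨i, hi, h3.1, h3.2, ?_⟩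
      by_contra hcon
      push Not at hcon
      exact h2 (ev_eq_zero hcon)
    · exact absurd rfl h2
  -- the number of codes
  obtain ⟨q, hq⟩ : ∃ q : ℕ, C < (q + 1) * η := by
    obtain ⟨q, hq⟩ := exists_nat_gt (C / η)
    refine ⟨q, ?_⟩
    rw [div_lt_iff₀ hη] at hq
    nlinarith
  set M₁ : Set ℕ := {k | k ∈ M ∧ q + 1 ≤ w k} with hM₁
  have hM₁inf : M₁.Infinite := by
    have h1 : (M \ Set.Iio (q + 1)).Infinite := hM.sdiff (Set.finite_Iio _)
    refine h1.mono ?_
    rintro k ⟨hk, hk'⟩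
    refine ⟨hk, le_trans ?_ (hw.le_apply (x := k))⟩
    simpa using hk'
  set r : ℕ → ℕ → ℕ := fun k k' => cnt (L k k') (w k') with hr
  set P : ℕ → ℕ → SList I := fun k k' => (L k k').take (r k k') with hP
  have hr1 : ∀ k ∈ M, ∀ k' ∈ M, k < k' → 0 < r k k' ∧ r k k' < (L k k').length ∧
      w k' < ((L k k').getD (r k k') 0).2 ∧ ((L k k').getD (r k k') 0).2 ≤ w (k' + 1) := by
    intro k hk k' hk' hkk
    obtain ⟨-, -, h1, h2⟩ := hE' k hk k' hk' hkk
    obtain ⟨i, hi, h3, h4, -⟩ := hwin _ _ _ _ h1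
    obtain ⟨j, hj, h5, h6, -⟩ := hwin _ _ _ _ h2
    have hc := hLc k hk k' hk' hkk
    have hww : w (k + 1) ≤ w k' := hw.monotone hkk
    have h7 : i < r k k' := (hc.lt_cnt_iff hi).2 (h4.trans hww)
    have h8 : ¬ j < r k k' := by
      intro h; have := (hc.lt_cnt_iff hj).1 h; omega
    have h9 : r k k' < (L k k').length := by omega
    have h10 : ¬ ((L k k').getD (r k k') 0).2 ≤ w k' := by
      rw [← hc.lt_cnt_iff h9]; exact lt_irrefl _
    refine ⟨by omega, h9, by omega, ?_⟩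
    rcases Nat.eq_or_lt_of_le (not_lt.1 h8) with h | h
    · rw [h]; exact h6
    · exact (hc.idx_getD_lt h hj).le.trans h6
  have hcode : ∀ k ∈ M, ∀ k' ∈ M, k < k' →
      c.τ (P k k') = ((L k k').getD (r k k') 0).2 := by
    intro k hk k' hk' hkk
    obtain ⟨h1, h2, h3, h4⟩ := hr1 k hk k' hk' hkk
    exact ((hLc k hk k' hk' hkk).code_getD h1 h2).symm
  set Cd : ℕ → Finset ℕ := fun k' =>
    if k' ∈ M₁ then ((Finset.range k').filter fun k => k ∈ M₁).image fun k => c.τ (P k k')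
    else ∅ with hCd
  have hCdcard : ∀ k, (Cd k).card ≤ q := by
    intro k'
    simp only [hCd]
    split_ifs with hk'
    swap
    · simp
    by_contra hcon
    rw [not_le] at hcon
    obtain ⟨T, hT, hTcard⟩ := Finset.exists_subset_card_eq (Nat.succ_le_of_lt hcon)
    obtain ⟨S, hS, hinj, hST⟩ := Finset.exists_subset_injOn_image_eq_of_surjOn
      (f := fun k => c.τ (P k k')) {k | k ∈ M₁ ∧ k < k'} T (by
        intro j hj
        have := hT hj
        rw [Finset.mem_image] at this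
        obtain ⟨k, hk, rfl⟩ := this
        rw [Finset.mem_filter, Finset.mem_range] at hk
        exact ⟨k, ⟨hk.2, hk.1⟩, rfl⟩)
    have hScard : S.card = q + 1 := by
      rw [← Nat.succ_eq_add_one, ← hTcard, ← hST, Finset.card_image_of_injOn hinj]
    have hSM : ∀ u ∈ S, u ∈ M₁ ∧ u < k' := fun u hu => hS hu
    have hkM : k' ∈ M := hk'.1
    have hkey := hpsi k' S (fun u => (L u k').take (cnt (L u k') (w (k' + 1))))
      (fun u => r u k') (fun u => E' u k')
      (fun u hu => hSpt _ _ (hL u (hSM u hu).1.1 k' hkM (hSM u hu).2))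
      (fun u hu => (hE' u (hSM u hu).1.1 k' hkM (hSM u hu).2).2.1)
      (fun u hu v hv huv => distinct_window (hLc u (hSM u hu).1.1 k' hkM (hSM u hu).2)
        (hLc v (hSM v hv).1.1 k' hkM (hSM v hv).2) (hr1 u (hSM u hu).1.1 k' hkM (hSM u hu).2).1
        (hr1 v (hSM v hv).1.1 k' hkM (hSM v hv).2).1 (fun h => huv (hinj hu hv h)))
      (by
        intro u hu p hp
        obtain ⟨i, h1, h2, h3, rfl⟩ := mem_seg hp
        have h4 : ¬ ((L u k').getD i 0).2 ≤ w k' := by
          rw [← (hLc u (hSM u hu).1.1 k' hkM (hSM u hu).2).lt_cnt_iff h3]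
          exact not_lt.2 h1
        have := hk'.2
        rw [hScard]
        omega)
    have h1 : ∑ u ∈ S, η ≤ ∑ u ∈ S, ‖lact (((L u k').take (cnt (L u k') (w (k' + 1)))).drop
        (r u k')) ((E' u k').indicator (y k'))‖ := by
      refine Finset.sum_le_sum fun u hu => ?_
      have h2 := (hE' u (hSM u hu).1.1 k' hkM (hSM u hu).2).2.2.2
      rwa [(hLc u (hSM u hu).1.1 k' hkM (hSM u hu).2).wact_eq_lact] at h2
    rw [Finset.sum_const, hScard, nsmul_eq_mul] at h1
    push_cast at h1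
    linarith
  have hCdgt : ∀ k, ∀ j ∈ Cd k, w k < j := by
    intro k' j hj
    simp only [hCd] at hj
    split_ifs at hj with hk'
    · rw [Finset.mem_image] at hj
      obtain ⟨k, hk, rfl⟩ := hj
      rw [Finset.mem_filter, Finset.mem_range] at hk
      rw [hcode k hk.2.1 k' hk'.1 hk.1]
      exact (hr1 k hk.2.1 k' hk'.1 hk.1).2.2.1
    · simp at hj
  -- the last points
  have hξl : ∀ k ∈ M, ∀ k' ∈ M, k < k' → ∃ (x : I) (i : ℕ), i < (L k k').length ∧
      w k < ((L k k').getD i 0).2 ∧ ((L k k').getD i 0).2 ≤ w (k + 1) ∧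
      ((L k k').getD i 0).1 x ≠ 0 ∧ x ∈ E k k' ∧ y k x ≠ 0 ∧
      ∀ j < (L k k').length, w k < ((L k k').getD j 0).2 → ((L k k').getD j 0).2 ≤ w (k + 1) →
        ∀ x' ∈ E k k', y k x' ≠ 0 → ((L k k').getD j 0).1 x' ≠ 0 → x' ≤ x := by
    intro k hk k' hk' hkk
    obtain ⟨-, -, h1, -⟩ := hE' k hk k' hk' hkk
    obtain ⟨i, hi, h3, h4, x, h5, h6⟩ := hwin _ _ _ _ h1
    have h7 : x ∈ E k k' := by
      by_contra h
      exact h6 (Set.indicator_of_notMem h _)
    have h8 : y k x ≠ 0 := by rwa [Set.indicator_of_mem h7] at h6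
    have hG : ((F k).filter fun x => x ∈ E k k' ∧ y k x ≠ 0 ∧ ∃ i < (L k k').length,
        w k < ((L k k').getD i 0).2 ∧ ((L k k').getD i 0).2 ≤ w (k + 1) ∧
        ((L k k').getD i 0).1 x ≠ 0).Nonempty :=
      ⟨x, by rw [Finset.mem_filter]; exact ⟨hF k x h8, h7, h8, i, hi, h3, h4, h5⟩⟩
    obtain ⟨x₀, hx₀, hmax⟩ := Finset.exists_max_image _ id hG
    rw [Finset.mem_filter] at hx₀
    obtain ⟨hx₀, h9, h10, i₀, h11, h12, h13, h14⟩ := hx₀
    refine ⟨x₀, i₀, h11, h12, h13, h14, h9, h10, ?_⟩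
    intro j hj h15 h16 x' hx' h17 h18
    exact hmax x' (by rw [Finset.mem_filter]; exact ⟨hF k x' h17, hx', h17, j, hj, h15, h16, h18⟩)
  have hIne : Nonempty I := by
    obtain ⟨k, hk⟩ := hM.nonempty
    obtain ⟨k', hk', hkk⟩ := hM.exists_gt k
    obtain ⟨x, -⟩ := hξl k hk k' hk' hkk
    exact ⟨x⟩
  choose! ξ l hξl using hξl
  obtain ⟨t, ht, M', hM'M, hM', hag⟩ := coherent_limit c Sp hSp hSpt w hw q Cd hCdcard hCdgt M₁
    hM₁inf F P ξ l (by
      intro k hk k' hk' hkk
      obtain ⟨h1, h2, h3, h4, h5, h6, -⟩ := hξl k hk.1 k' hk'.1 hkk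
      have hww : w (k + 1) ≤ w k' := hw.monotone hkk
      have h7 : l k k' < r k k' :=
        ((hLc k hk.1 k' hk'.1 hkk).lt_cnt_iff h1).2 (h3.trans hww)
      refine ⟨hSpt _ _ (hL k hk.1 k' hk'.1 hkk), ?_, hF _ _ h6, ?_, ?_, ?_, ?_⟩
      · simp only [hCd, if_pos hk']
        exact Finset.mem_image_of_mem _ (by rw [Finset.mem_filter, Finset.mem_range]; exact ⟨hkk, hk⟩)
      · simp only [hP, List.length_take]; omega
      · simp only [hP]; rw [getD_take h7]; exact h2
      · simp only [hP]; rw [getD_take h7]; exact h3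
      · simp only [hP]; rw [getD_take h7]; exact h4)
  choose! κ hκM hκlt hκ using hag
  have hMM : ∀ k ∈ M', k ∈ M := fun k hk => (hM'M hk).1
  have hκM' : ∀ k ∈ M', κ k ∈ M := fun k hk => (hκM k hk).1
  -- the places in the limit sequence
  have htc : IsCodedSeq c t := fun n => hSp _ (ht n)
  have hplace : ∀ k ∈ M', w k < (t (l k (κ k))).2 ∧ (t (l k (κ k))).2 ≤ w (k + 1) ∧
      (t (l k (κ k))).1 (ξ k (κ k)) ≠ 0 ∧ ξ k (κ k) ∈ F k := by
    intro k hk
    obtain ⟨h1, h2, h3, h4, h5, h6, -⟩ := hξl k (hMM k hk) (κ k) (hκM' k hk) (hκlt k hk)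
    have hww : w (k + 1) ≤ w (κ k) := hw.monotone (hκlt k hk)
    have h7 : l k (κ k) < r k (κ k) :=
      ((hLc k (hMM k hk) (κ k) (hκM' k hk) (hκlt k hk)).lt_cnt_iff h1).2 (h3.trans hww)
    obtain ⟨h8, h9⟩ := hκ k hk (l k (κ k)) le_rfl
    simp only [hP] at h8 h9
    rw [getD_take h7] at h8 h9
    rw [← h8, ← h9 _ le_rfl]
    exact ⟨h2, h3, h4, hF _ _ h6⟩
  obtain ⟨N, hN⟩ := exists_tail_le hμ (show (0 : ℝ) < η / 4 by linarith)
  obtain ⟨k0, hk0, hk0N⟩ := hM'.exists_gt N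
  obtain ⟨k1, hk1, hk01⟩ := hM'.exists_gt k0
  obtain ⟨k2, hk2⟩ := hNK t ht (η / 4) (by linarith)
  obtain ⟨k, hk, hkgt⟩ := hM'.exists_gt (max k1 k2)
  have hk1k : k1 < k := lt_of_le_of_lt (le_max_left _ _) hkgt
  have hk2k : k2 ≤ k := (le_max_right k1 k2).trans hkgt.le
  obtain ⟨h1, h2, h3, h4, h5, h6, h7⟩ := hξl k (hMM k hk) (κ k) (hκM' k hk) (hκlt k hk)
  obtain ⟨hEint, -, hη1, -⟩ := hE' k (hMM k hk) (κ k) (hκM' k hk) (hκlt k hk)
  have hcod := hLc k (hMM k hk) (κ k) (hκM' k hk) (hκlt k hk)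
  have hspL := hL k (hMM k hk) (κ k) (hκM' k hk) (hκlt k hk)
  have hag := hκ k hk
  obtain ⟨h8, h9, h10, h11⟩ := hplace k hk
  set k' := κ k with hk'
  set x := ξ k k' with hx
  set i := l k k' with hi
  set J : Set I := E k k' ∩ Iic x with hJ
  set v : I → 𝕜 := J.indicator (y k) with hv
  have hww : w (k + 1) ≤ w k' := hw.monotone (hκlt k hk)
  have hilt : i < r k k' := (hcod.lt_cnt_iff h1).2 (h3.trans hww)
  -- the limit sequence on `v`
  obtain ⟨n, hn, hni⟩ := ((hk2 k hk2k J (hInt _ _ hEint)).and (eventually_gt_atTop i)).exists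
  rw [← hv, lact_pre] at hn
  have hvx : ∀ ζ, v ζ ≠ 0 → ζ ∈ E k k' ∧ ζ ≤ x ∧ y k ζ ≠ 0 := by
    intro ζ hζ
    by_cases h : ζ ∈ J
    · rw [hv, Set.indicator_of_mem h] at hζ
      exact ⟨h.1, h.2, hζ⟩
    · exact absurd (Set.indicator_of_notMem h _) hζ
  have hlate : ∀ j, i < j → ev (t j).1 v = 0 := by
    intro j hj
    refine ev_eq_zero fun ζ hζ => ?_
    by_contra h
    have := htc.succ hj x (Finsupp.mem_support_iff.2 h10) ζ (Finsupp.mem_support_iff.2 hζ)
    exact absurd (hvx ζ h).2.1 (not_le.2 this)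
  have hearly : ∀ j ≤ i, ev (t j).1 v = ev ((L k k').getD j 0).1 v ∧
      (t j).2 = ((L k k').getD j 0).2 := by
    intro j hj
    obtain ⟨h12, h13⟩ := hag j hj
    simp only [hP] at h12 h13
    rw [getD_take (by omega)] at h12 h13
    refine ⟨ev_congr' fun ζ hζ => ?_, h12.symm⟩
    exact (h13 ζ (hvx ζ hζ).2.1).symm
  have hsum1 : ∑ j ∈ Finset.range n, ev (t j).1 v =
      ∑ j ∈ Finset.range (i + 1), ev ((L k k').getD j 0).1 v := by
    rw [← Finset.sum_subset (s₁ := Finset.range (i + 1))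
      (Finset.range_subset_range.2 (by omega))
      (fun j _ hj => hlate j (by rw [Finset.mem_range] at hj; omega))]
    exact Finset.sum_congr rfl fun j hj => (hearly j (by rw [Finset.mem_range] at hj; omega)).1
  rw [hsum1] at hn
  -- the window part
  have hwin2 : ∀ j < (L k k').length, w k < ((L k k').getD j 0).2 →
      ((L k k').getD j 0).2 ≤ w (k + 1) →
      ev ((L k k').getD j 0).1 ((E k k').indicator (y k)) = ev ((L k k').getD j 0).1 v := by
    intro j hj h12 h13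
    refine ev_congr fun ζ hζ => ?_
    by_cases hζE : ζ ∈ E k k'
    · by_cases hζy : y k ζ = 0
      · rw [Set.indicator_of_mem hζE, hζy, hv]
        by_cases h : ζ ∈ J
        · rw [Set.indicator_of_mem h, hζy]
        · rw [Set.indicator_of_notMem h]
      · have h14 := h7 j hj h12 h13 ζ hζE hζy hζ
        rw [Set.indicator_of_mem hζE, hv, Set.indicator_of_mem (show ζ ∈ J from ⟨hζE, h14⟩)]
    · rw [Set.indicator_of_notMem hζE, hv,
        Set.indicator_of_notMem (show ζ ∉ J from fun h => hζE h.1)]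
  have hlate2 : ∀ j, i < j → j < (L k k').length → ev ((L k k').getD j 0).1 v = 0 := by
    intro j hj hjl
    refine ev_eq_zero fun ζ hζ => ?_
    by_contra h
    exact absurd (hvx ζ h).2.1 (not_le.2 (hcod.lt_of_getD hj hjl h4 hζ))
  set Wd : Finset ℕ := (Finset.range (i + 1)).filter fun j => w k < ((L k k').getD j 0).2 ∧
    ((L k k').getD j 0).2 ≤ w (k + 1) with hWd
  have hsum2 : wact (L k k') (w k) (w (k + 1)) ((E k k').indicator (y k)) =
      ∑ j ∈ Wd, ev ((L k k').getD j 0).1 v := by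
    rw [wact_eq, hWd, Finset.sum_filter,
      ← Finset.sum_subset (s₁ := Finset.range (i + 1)) (s₂ := Finset.range (L k k').length)
      (Finset.range_subset_range.2 (by omega))]
    · refine Finset.sum_congr rfl fun j hj => ?_
      rw [Finset.mem_range] at hj
      split_ifs with h12
      · exact hwin2 j (by omega) h12.1 h12.2
      · rfl
    · intro j hj hj'
      rw [Finset.mem_range] at hj hj'
      split_ifs with h12
      · rw [hwin2 j hj h12.1 h12.2]
        exact hlate2 j (by omega) hj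
      · rfl
  -- the low part
  set Lo : Finset ℕ := (Finset.range (i + 1)).filter fun j => ¬ (w k < ((L k k').getD j 0).2 ∧
    ((L k k').getD j 0).2 ≤ w (k + 1)) with hLo
  have hsum3 : ∑ j ∈ Finset.range (i + 1), ev ((L k k').getD j 0).1 v =
      ∑ j ∈ Wd, ev ((L k k').getD j 0).1 v + ∑ j ∈ Lo, ev ((L k k').getD j 0).1 v := by
    rw [hWd, hLo, Finset.sum_filter_add_sum_filter_not]
  have hlow : ∀ j ∈ Lo, ((L k k').getD j 0).2 ≤ w k ∧ j < (L k k').length ∧ j ≤ i := by
    intro j hj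
    rw [hLo, Finset.mem_filter, Finset.mem_range] at hj
    have hji : ((L k k').getD j 0).2 ≤ ((L k k').getD i 0).2 := by
      rcases Nat.eq_or_lt_of_le (show j ≤ i by omega) with h | h
      · rw [h]
      · exact (hcod.idx_getD_lt h h1).le
    exact ⟨by omega, by omega, by omega⟩
  -- the places of `k0` and `k1`
  obtain ⟨a1, a2, a3, a4⟩ := hplace k0 hk0
  obtain ⟨b1, b2, b3, b4⟩ := hplace k1 hk1
  have hl01 : l k0 (κ k0) < l k1 (κ k1) := by
    have h12 : w (k0 + 1) ≤ w k1 := hw.monotone hk01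
    exact (htc.idx_strictMono.lt_iff_lt).1 (show (t (l k0 (κ k0))).2 < (t (l k1 (κ k1))).2 by
      omega)
  have hzero : ∀ j ≤ l k0 (κ k0), ev (t j).1 v = 0 := by
    intro j hj
    refine ev_eq_zero fun ζ hζ => ?_
    by_contra h
    have h12 : ζ < ξ k1 (κ k1) := htc.succ (lt_of_le_of_lt hj hl01) ζ
      (Finsupp.mem_support_iff.2 hζ) _ (Finsupp.mem_support_iff.2 b3)
    have h13 := hFs k1 k hk1k _ b4 ζ (hF _ _ (hvx ζ h).2.2)
    exact absurd h12 (not_lt.2 h13.le)
  set Lo' : Finset ℕ := Lo.filter fun j => l k0 (κ k0) < j with hLo'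
  have hsum4 : ∑ j ∈ Lo, ev ((L k k').getD j 0).1 v =
      ∑ j ∈ Lo', ev ((L k k').getD j 0).1 v := by
    refine (Finset.sum_subset (Finset.filter_subset _ _) fun j hj hj' => ?_).symm
    rw [← (hearly j (hlow j hj).2.2).1]
    refine hzero j (not_lt.1 fun h => hj' ?_)
    rw [Finset.mem_filter]
    exact ⟨hj, h⟩
  have hsum5 : ‖∑ j ∈ Lo', ev ((L k k').getD j 0).1 v‖ ≤ η / 4 := by
    have hinj : Set.InjOn (fun j => ((L k k').getD j 0).2) (Lo' : Set ℕ) := by
      intro j hj j' hj' hjj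
      have hj1 := hlow j (Finset.mem_filter.1 hj).1
      have hj2 := hlow j' (Finset.mem_filter.1 hj').1
      simp only at hjj
      rcases lt_trichotomy j j' with h | h | h
      · have := hcod.idx_getD_lt h hj2.2.1; omega
      · exact h
      · have := hcod.idx_getD_lt h hj1.2.1; omega
    calc ‖∑ j ∈ Lo', ev ((L k k').getD j 0).1 v‖
        ≤ ∑ j ∈ Lo', ‖ev ((L k k').getD j 0).1 v‖ := norm_sum_le _ _
      _ ≤ ∑ j ∈ Lo', μ ((L k k').getD j 0).2 := by
          refine Finset.sum_le_sum fun j hj => ?_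
          have hj1 := hlow j (Finset.mem_filter.1 hj).1
          refine hout (L k k') hspL _ ?_ k hj1.1 J (hInt _ _ hEint)
          rw [List.getD_eq_getElem _ _ hj1.2.1]
          exact List.getElem_mem _
      _ = ∑ j ∈ Lo'.image (fun j => ((L k k').getD j 0).2), μ j := by
          rw [Finset.sum_image hinj]
      _ ≤ η / 4 := by
          refine hN _ fun m hm => ?_
          obtain ⟨j, hj, rfl⟩ := Finset.mem_image.1 hm
          rw [hLo', Finset.mem_filter] at hj
          have h12 := (hearly j (hlow j hj.1).2.2).2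
          have h13 := htc.idx_strictMono hj.2
          have h14 : k0 ≤ w k0 := hw.le_apply
          simp only at h13
          omega
  rw [hsum3, ← hsum2, hsum4] at hn
  have h12 := norm_sub_norm_le (wact (L k k') (w k) (w (k + 1)) ((E k k').indicator (y k)))
    (-∑ j ∈ Lo', ev ((L k k').getD j 0).1 v)
  rw [norm_neg, sub_neg_eq_add] at h12
  linarith

end Crest.Agent.R114
end

-- ▼ part R114/Link
section

/-! # Row 114, S0152 (4.3): no special list acts on two vectors. -/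

set_option autoImplicit false

open Set Filter

namespace Crest.Agent.R114

variable {I : Type} [LinearOrder I] {c : Coding I} {𝕜 : Type} [RCLike 𝕜]

/-- the window part of a special list acts by at most `1` -/
theorem act_piece_le {y : ℕ → I →₀ 𝕜} {k : ℕ} {L : SList I} (hL : IsSpecial c (NB c) L)
    {E : Set I} (hE : E.OrdConnected) {J : Set ℕ} (hJ : J.OrdConnected) :
    ‖act (piece L E J) (y k)‖ ≤ nrm c (y k) :=
  norm_act_le (NB.piece hL hE hJ) _

section bridge

lemma act_eq_ev (b : I →₀ ℚ) (f : I →₀ 𝕜) : act b f = ev b (f : I → 𝕜) := by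
  classical
  unfold act ev
  rw [Finsupp.sum_of_support_subset f (Finset.subset_union_right (s₁ := b.support)) _
    (fun i _ => by simp),
    Finsupp.sum_of_support_subset b (Finset.subset_union_left (s₂ := f.support)) _
    (fun i _ => by simp)]

lemma coe_cut (E : Set I) (f : I →₀ 𝕜) : ((cut E f : I →₀ 𝕜) : I → 𝕜) = E.indicator f := by
  classical
  ext a
  rw [cut_apply]
  by_cases h : a ∈ E
  · rw [if_pos h, Set.indicator_of_mem h]
  · rw [if_neg h, Set.indicator_of_notMem h]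

lemma act_cut_eq_ev (E : Set I) (b : I →₀ ℚ) (f : I →₀ 𝕜) :
    act (cut E b) f = ev b (E.indicator (f : I → 𝕜)) := by
  rw [act_cut, act_eq_ev, coe_cut]

lemma act_piece_eq (L : SList I) (E : Set I) (J : Set ℕ) [DecidablePred (· ∈ J)] (f : I →₀ 𝕜) :
    act (piece L E J) f =
      (L.map fun p => if p.2 ∈ J then ev p.1 (E.indicator (f : I → 𝕜)) else 0).sum := by
  classical
  unfold piece
  rw [act_cut, act_list_sum_left]
  induction L with
  | nil => simp
  | cons p L ih =>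
    rw [List.map_cons, List.sum_cons, ← ih, List.filter_cons]
    by_cases h : p.2 ∈ J
    · rw [if_pos (by simpa using h), if_pos h, List.map_cons, List.map_cons, List.sum_cons,
        act_eq_ev, coe_cut]
    · rw [if_neg (by simpa using h), if_neg h, zero_add]

lemma wact_eq_act (L : SList I) (E : Set I) (a b : ℕ) (f : I →₀ 𝕜) :
    wact L a b (E.indicator (f : I → 𝕜)) = act (piece L E (Ioc a b)) f := by
  classical
  rw [act_piece_eq]
  rfl

lemma lact_eq_act (L : SList I) (E : Set I) (f : I →₀ 𝕜) :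
    lact L (E.indicator (f : I → 𝕜)) = act (piece L E univ) f := by
  classical
  rw [act_piece_eq]
  simp [lact]

lemma lact_drop_eq_act {L : SList I} (hL : IsCoded c L) (r : ℕ) (hr : r < L.length) (E : Set I)
    (f : I →₀ 𝕜) :
    lact (L.drop r) (E.indicator (f : I → 𝕜)) = act (piece L E (Ici (L.getD r 0).2)) f := by
  classical
  rw [act_piece_eq]
  unfold lact
  conv_rhs => rw [← List.take_append_drop r L]
  rw [List.map_append, List.sum_append]
  have h1 : ((L.take r).map fun p : (I →₀ ℚ) × ℕ => if p.2 ∈ Ici ((L.take r ++ L.drop r).getD r 0).2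
      then ev p.1 (E.indicator (f : I → 𝕜)) else 0).sum = 0 := by
    apply List.sum_eq_zero
    intro z hz
    obtain ⟨p, hp, rfl⟩ := List.mem_map.1 hz
    rw [if_neg]
    obtain ⟨i, hi, rfl⟩ := List.getElem_of_mem hp
    rw [List.take_append_drop, mem_Ici, not_le, List.getElem_take]
    rw [List.length_take] at hi
    have := hL.idx_getD_lt (l := i) (l' := r) (by omega) hr
    rwa [List.getD_eq_getElem _ _ (by omega : i < L.length)] at this
  rw [h1, zero_add]
  congr 1
  refine List.map_congr_left fun p hp => ?_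
  rw [if_pos]
  obtain ⟨i, hi, rfl⟩ := List.getElem_of_mem hp
  rw [List.take_append_drop, mem_Ici, List.getElem_drop]
  rw [List.length_drop] at hi
  rcases Nat.eq_zero_or_pos i with h | h
  · subst h
    rw [List.getD_eq_getElem _ _ hr]
    simp
  · have := hL.idx_getD_lt (l := r) (l' := r + i) (by omega) (by omega)
    rw [List.getD_eq_getElem _ _ (by omega : r + i < L.length)] at this
    exact this.le

omit [LinearOrder I] in
lemma sum_fst_apply_zero (L : SList I) (a : I) (P : (I →₀ ℚ) × ℕ → Bool)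
    (h : ∀ p ∈ L, p.1 a = 0) : ((L.filter P).map Prod.fst).sum a = 0 := by
  induction L with
  | nil => simp
  | cons p L ih =>
    have h1 := ih fun q hq => h q (List.mem_cons_of_mem _ hq)
    rw [List.filter_cons]
    split_ifs
    · rw [List.map_cons, List.sum_cons, Finsupp.add_apply, h1, h p (by simp), add_zero]
    · exact h1

/-- values of a piece -/
lemma piece_apply {L : SList I} (hL : IsCoded c L) (E : Set I) (J : Set ℕ)
    [DecidablePred (· ∈ J)] [DecidablePred (· ∈ E)] {q : (I →₀ ℚ) × ℕ} (hq : q ∈ L) {a : I}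
    (ha : q.1 a ≠ 0) : piece L E J a = if a ∈ E ∧ q.2 ∈ J then q.1 a else 0 := by
  classical
  unfold piece
  rw [cut_apply]
  by_cases haE : a ∈ E
  swap
  · rw [if_neg haE, if_neg (fun h => haE h.1)]
  rw [if_pos haE]
  obtain ⟨L1, L2, rfl⟩ := List.append_of_mem hq
  have hqget : (L1 ++ q :: L2)[L1.length]'(by simp) = q := by simp
  have h1 : ∀ p ∈ L1, p.1 a = 0 := by
    intro p hp
    obtain ⟨i, hi, rfl⟩ := List.getElem_of_mem hp
    by_contra h
    have := hL.succ i L1.length hi (by simp)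
    rw [hqget, List.getElem_append_left hi] at this
    exact lt_irrefl _ (this a (Finsupp.mem_support_iff.2 h) a (Finsupp.mem_support_iff.2 ha))
  have h2 : ∀ p ∈ L2, p.1 a = 0 := by
    intro p hp
    obtain ⟨i, hi, rfl⟩ := List.getElem_of_mem hp
    by_contra h
    have := hL.succ L1.length (L1.length + 1 + i) (by omega) (by simp; omega)
    rw [hqget] at this
    have h3 : (L1 ++ q :: L2)[L1.length + 1 + i]'(by simp; omega) = L2[i] := by
      rw [List.getElem_append_right (by omega)]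
      have : L1.length + 1 + i - L1.length = i + 1 := by omega
      simp only [this, List.getElem_cons_succ]
    rw [h3] at this
    exact lt_irrefl _ (this a (Finsupp.mem_support_iff.2 ha) a (Finsupp.mem_support_iff.2 h))
  rw [List.filter_append, List.filter_cons, List.map_append, List.sum_append, Finsupp.add_apply,
    sum_fst_apply_zero L1 a _ h1, zero_add]
  by_cases hqJ : q.2 ∈ J
  · rw [if_pos (by simpa using hqJ), if_pos ⟨haE, hqJ⟩, List.map_cons, List.sum_cons,
      Finsupp.add_apply, sum_fst_apply_zero L2 a _ h2, add_zero]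
  · rw [if_neg (by simpa using hqJ), if_neg (fun h => hqJ h.2), sum_fst_apply_zero L2 a _ h2]

lemma piece_window {L : SList I} {B : (I →₀ ℚ) → Prop} (hL : IsSpecial c B L) {E : Set I}
    (hE : E.OrdConnected) {J : Set ℕ} (hJ : J.OrdConnected) {W : Set ℕ} (hJW : J ⊆ W) :
    ∃ E' : Set I, E'.OrdConnected ∧ piece L E J = piece L E' W := by
  classical
  obtain ⟨E', hE', -, h⟩ := piece_eq_univ hL hE hJ
  refine ⟨E', hE', ?_⟩
  ext a
  by_cases hq : ∃ q ∈ L, q.1 a ≠ 0
  · obtain ⟨q, hq, ha⟩ := hq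
    have h1 : piece L E J a = piece L E' univ a := by rw [h]
    rw [piece_apply hL.coded E J hq ha, piece_apply hL.coded E' univ hq ha] at h1
    rw [piece_apply hL.coded E J hq ha, piece_apply hL.coded E' W hq ha]
    by_cases h2 : a ∈ E'
    · rw [if_pos (⟨h2, mem_univ _⟩ : a ∈ E' ∧ q.2 ∈ univ)] at h1
      have h3 : a ∈ E ∧ q.2 ∈ J := by
        by_contra h3
        rw [if_neg h3] at h1
        exact ha h1.symm
      rw [if_pos h3, if_pos ⟨h2, hJW h3.2⟩]
    · rw [if_neg (show ¬ (a ∈ E' ∧ q.2 ∈ univ) from fun h => h2 h.1)] at h1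
      rw [h1, if_neg (show ¬ (a ∈ E' ∧ q.2 ∈ W) from fun h => h2 h.1)]
  · push Not at hq
    unfold piece
    rw [cut_apply, cut_apply, sum_fst_apply_zero L a _ hq, sum_fst_apply_zero L a _ hq]
    simp

end bridge

section seq

lemma finite_act_ne_zero {t : ℕ → (I →₀ ℚ) × ℕ} (ht : IsCodedSeq c t) (v : I →₀ 𝕜) :
    {l | act (t l).1 v ≠ 0}.Finite := by
  classical
  have h : ∀ l, act (t l).1 v ≠ 0 → ∃ a ∈ v.support, (t l).1 a ≠ 0 := by
    intro l hl
    by_contra hcon
    push Not at hcon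
    apply hl
    apply act_eq_zero_of_disjoint
    intro a ha hav
    exact Finsupp.mem_support_iff.1 ha (hcon a hav)
  rcases isEmpty_or_nonempty I with hI | hI
  · refine (Set.finite_empty).subset fun l hl => ?_
    obtain ⟨a, -⟩ := h l hl
    exact (hI.false a).elim
  choose! a ha ha' using h
  refine Set.Finite.of_finite_image (f := a) ((Finset.finite_toSet v.support).subset ?_) ?_
  · rintro _ ⟨l, hl, rfl⟩
    exact ha l hl
  · intro l hl l' hl' hll
    by_contra hne
    rcases lt_or_gt_of_ne hne with h | h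
    · exact absurd (ht.succ h (a l) (Finsupp.mem_support_iff.2 (ha' l hl)) (a l')
        (Finsupp.mem_support_iff.2 (ha' l' hl'))) (by rw [hll]; exact lt_irrefl _)
    · exact absurd (ht.succ h (a l') (Finsupp.mem_support_iff.2 (ha' l' hl')) (a l)
        (Finsupp.mem_support_iff.2 (ha' l hl))) (by rw [hll]; exact lt_irrefl _)

lemma actSeq_eq_eventually {t : ℕ → (I →₀ ℚ) × ℕ} (ht : IsCodedSeq c t) (v : I →₀ 𝕜) :
    ∀ᶠ n in atTop, actSeq t v = act (piece (pre t n) univ univ) v := by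
  classical
  have hfin := finite_act_ne_zero ht v
  obtain ⟨N, hN⟩ := hfin.bddAbove
  filter_upwards [eventually_gt_atTop N] with n hn
  unfold actSeq
  rw [finsum_eq_sum_of_support_subset (s := Finset.range n)]
  · have h1 := lact_eq_act (pre t n) univ v
    rw [Set.indicator_univ, lact_pre] at h1
    rw [← h1]
    exact Finset.sum_congr rfl fun i _ => act_eq_ev _ _
  · intro l hl
    have : l ≤ N := hN hl
    rw [Finset.coe_range, mem_Iio]
    omega

end seq

/-- `Ψ`-functionals bound the sum of the actions of pieces -/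
lemma sum_act_piece_le (S : Finset ℕ) (L : ℕ → SList I) (E : ℕ → Set I) (J : ℕ → Set ℕ)
    (hL : ∀ u ∈ S, IsSpecial c (NB c) (L u)) (hE : ∀ u ∈ S, (E u).OrdConnected)
    (hJ : ∀ u ∈ S, (J u).OrdConnected) (hn : ∀ u ∈ S, ∀ p ∈ L u, p.2 ∈ J u → S.card ≤ p.2)
    (hd : ∀ u ∈ S, ∀ v ∈ S, u ≠ v → ∀ p ∈ L u, ∀ q ∈ L v, p.2 ∈ J u → q.2 ∈ J v → p.2 ≠ q.2)
    (f : I →₀ 𝕜) :
    ∑ u ∈ S, ‖act (piece (L u) (E u) (J u)) f‖ ≤ 2 * nrm c f := by
  classical
  obtain ⟨ε, hε, hsum⟩ := exists_signs_sum S fun u => act (piece (L u) (E u) (J u)) f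
  let e : Fin S.card ≃ S := S.equivFin.symm
  have hb : NB c (∑ u : Fin S.card, ε (e u) • piece (L (e u)) (E (e u)) (J (e u))) := by
    refine (NB.closedFam c).psi _ ⟨S.card, fun u => ε (e u), fun u => L (e u), fun u => E (e u),
      fun u => J (e u), ?_, fun u => hL _ (e u).2, fun u => hE _ (e u).2, fun u => hJ _ (e u).2,
      fun u => hn _ (e u).2, ?_, rfl⟩
    · intro u
      show |ε (e u)| ≤ 1
      rcases hε (e u) with h | h <;> rw [h] <;> simp
    · intro u v huv p hp q hq h1 h2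
      refine hd _ (e u).2 _ (e v).2 ?_ p hp q hq h1 h2
      intro h
      exact huv (e.injective (Subtype.ext h))
  have h1 := norm_act_le hb f
  have h2 : act (∑ u : Fin S.card, ε (e u) • piece (L (e u)) (E (e u)) (J (e u))) f =
      ∑ u ∈ S, (ε u : 𝕜) * act (piece (L u) (E u) (J u)) f := by
    rw [act_sum_left, ← Finset.sum_coe_sort S, ← e.sum_comp]
    exact Finset.sum_congr rfl fun u _ => act_smul_left _ _ _
  rw [h2] at h1
  linarith

theorem link {u y : ℕ → I →₀ 𝕜} {w : ℕ → ℕ} (hu : IsBlockSeq u) (hy : YData c u y w)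
    (hNK : NK c u) (η : ℝ) (hη : 0 < η) (S : Set ℕ) (hS : S.Infinite) :
    ∃ M ⊆ S, M.Infinite ∧ ∀ k ∈ M, ∀ k' ∈ M, k < k' → ∀ L, IsSpecial c (NB c) L →
      ¬ (Acts y w η k L ∧ Acts y w η k' L) := by
  classical
  obtain ⟨M, hMS, hM, h⟩ := exists_unlinked (𝕜 := 𝕜) c (IsSpecial c (NB c))
    (fun L hL => hL.coded) (fun L n hL => hL.take n) (fun E => E.OrdConnected)
    (fun E ξ hE => hE.inter Set.ordConnected_Iic) w hy.w_mono (fun k => (y k : I → 𝕜))
    (fun k => (y k).support) (fun k ξ h => Finsupp.mem_support_iff.2 h)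
    (fun k k' hkk ξ hξ ξ' hξ' => hy.block.slt k k' hkk ξ hξ ξ' hξ')
    (fun j => 4 / mq j) (by
      have h1 : Summable fun j : ℕ => (4 / 16 : ℝ) * (1 / 16) ^ j :=
        (summable_geometric_of_lt_one (by norm_num) (by norm_num)).mul_left _
      refine h1.congr fun j => ?_
      unfold mq
      push_cast
      rw [pow_succ, one_div, inv_pow]
      field_simp)
    (by
      intro L hL p hp k hpk E hE
      rw [← act_cut_eq_ev]
      exact hy.small k p.2 _ hpk ((hL.wt p hp).cut hE))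
    2 (by
      intro k S L r E hL hE hd hn
      -- drop the trivial pieces
      have hr : ∀ v ∈ S, lact ((L v).drop (r v)) ((E v).indicator (y k : I → 𝕜)) =
          act (piece (L v) (E v) (if r v < (L v).length then Ici ((L v).getD (r v) 0).2 else ∅))
            (y k) := by
        intro v hv
        split_ifs with h1
        · exact lact_drop_eq_act (hL v hv).coded _ h1 _ _
        · rw [List.drop_eq_nil_of_le (not_lt.1 h1), act_piece_eq]
          simp [lact]
      rw [Finset.sum_congr rfl fun v hv => by rw [hr v hv]]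
      have hmem : ∀ v ∈ S, ∀ p ∈ L v,
          p.2 ∈ (if r v < (L v).length then Ici ((L v).getD (r v) 0).2 else ∅ : Set ℕ) →
          p ∈ (L v).drop (r v) := by
        intro v hv p hp hpJ
        split_ifs at hpJ with h1
        · obtain ⟨i, hi, rfl⟩ := List.getElem_of_mem hp
          have h2 : r v ≤ i := by
            by_contra h3
            have := (hL v hv).coded.idx_getD_lt (not_le.1 h3) h1
            rw [List.getD_eq_getElem _ _ hi] at this
            rw [mem_Ici] at hpJ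
            omega
          have h3 : i - r v < ((L v).drop (r v)).length := by rw [List.length_drop]; omega
          have h4 : ((L v).drop (r v))[i - r v] = (L v)[i] := by
            rw [List.getElem_drop]
            congr 1
            omega
          rw [← h4]
          exact List.getElem_mem _
        · exact absurd hpJ (Set.notMem_empty _)
      refine (sum_act_piece_le S L E _ hL hE ?_ ?_ ?_ (y k)).trans ?_
      · intro v _
        split_ifs
        · exact Set.ordConnected_Ici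
        · exact Set.ordConnected_empty
      · intro v hv p hp hpJ
        exact hn v hv p (hmem v hv p hp hpJ)
      · intro v hv v' hv' hne p hp q hq h1 h2
        exact hd v hv v' hv' hne p (hmem v hv p hp h1) q (hmem v' hv' q hq h2)
      · rw [hy.nrm_eq, mul_one])
    (by
      intro t ht ε hε
      obtain ⟨N, hN⟩ := hNK t ht (ε / 4) (by linarith)
      obtain ⟨k₁, hk₁⟩ := exists_nat_gt (8 / ε)
      refine ⟨max N k₁, fun k hk E hE => ?_⟩
      obtain ⟨v, hv, hv2, hav⟩ := hy.avg k E hE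
      have hvN : v ∈ tailSpan u N :=
        Submodule.span_mono (Set.image_mono (Set.Ici_subset_Ici.2 ((le_max_left _ _).trans hk))) hv
      have h1 : ‖actSeq t v‖ ≤ ε / 2 := by
        refine (hN v hvN).trans ?_
        nlinarith [mul_le_mul_of_nonneg_left hv2 (show (0 : ℝ) ≤ ε / 4 by linarith)]
      have htc : IsCodedSeq c t := fun n => (ht n).coded
      filter_upwards [actSeq_eq_eventually htc v] with n hn
      rw [lact_eq_act]
      have h2 := hav (piece (pre t n) univ univ)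
        (NB.piece (ht n) Set.ordConnected_univ Set.ordConnected_univ)
      rw [piece_cut, Set.inter_univ, ← hn] at h2
      have h3 : (4 : ℝ) / (k + 1) ≤ ε / 2 := by
        rw [div_le_div_iff₀ (by positivity) (by norm_num)]
        have h4 : (k₁ : ℝ) ≤ k := by exact_mod_cast (le_max_right _ _).trans hk
        rw [div_lt_iff₀ hε] at hk₁
        nlinarith
      calc ‖act (piece (pre t n) E univ) (y k)‖
          = ‖(act (piece (pre t n) E univ) (y k) - actSeq t v) + actSeq t v‖ := by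
            rw [sub_add_cancel]
        _ ≤ ε / 2 + ε / 2 := (norm_add_le _ _).trans (add_le_add (h2.trans h3) h1)
        _ = ε := by ring)
    η hη S hS
  refine ⟨M, hMS, hM, fun k hk k' hk' hkk L hL => ?_⟩
  rintro ⟨⟨E, J, hE, hJ, hJW, h1⟩, ⟨E', J', hE', hJ', hJW', h1'⟩⟩
  obtain ⟨F, hF, h2⟩ := piece_window hL hE hJ hJW
  obtain ⟨F', hF', h2'⟩ := piece_window hL hE' hJ' hJW'
  refine h k hk k' hk' hkk L hL F F' hF hF' ?_
  rw [wact_eq_act, wact_eq_act, ← h2, ← h2']
  exact ⟨h1, h1'⟩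

end Crest.Agent.R114
end

-- ▼ part R114/GSeqA

/-! # Row 114, S0152 (S7): common lemmas: parts of a special list. -/

set_option autoImplicit false

open Set Filter

namespace Crest.Agent.R114

variable {I : Type} [LinearOrder I] {c : Coding I} {𝕜 : Type} [RCLike 𝕜]

/-- output of the case distinction: finite sets `A` of indices far out such that the sum of the
`y k`, `k ∈ A`, is large, and the total window action of any special list is small. -/
def GoodSets (c : Coding I) (y : ℕ → I →₀ 𝕜) (w : ℕ → ℕ) (κ : ℝ) : Prop :=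
  ∀ θ : ℝ, 0 < θ → ∀ K : ℕ, ∃ A : Finset ℕ, A.Nonempty ∧ (∀ k ∈ A, K ≤ k) ∧
    κ * A.card ≤ nrm c (∑ k ∈ A, y k) ∧
    ∀ (L : SList I) (E : Set I) (J : Set ℕ), IsSpecial c (NB c) L → E.OrdConnected →
      J.OrdConnected →
      ∑ k ∈ A, ‖act (piece L E (J ∩ Ioc (w k) (w (k + 1)))) (y k)‖ ≤ θ * A.card

/-- splitting a piece according to the index -/
theorem piece_split (L : SList I) (E : Set I) (J : Set ℕ) {a b : ℕ} (hab : a ≤ b) :
    piece L E J = piece L E (J ∩ Iic a) + piece L E (J ∩ Ioc a b) + piece L E (J ∩ Ioi b) := by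
  classical
  unfold piece
  rw [← cut_add, ← cut_add]
  congr 1
  induction L with
  | nil => simp
  | cons p L ih =>
    simp only [List.filter_cons]
    by_cases hJ : p.2 ∈ J
    · rcases le_or_gt p.2 a with h1 | h1
      · rw [if_pos (by simpa using hJ), if_pos (by simpa using ⟨hJ, h1⟩),
          if_neg (by simp only [decide_eq_true_eq, mem_inter_iff, mem_Ioc]; omega),
          if_neg (by simp only [decide_eq_true_eq, mem_inter_iff, mem_Ioi]; omega),
          List.map_cons, List.sum_cons, List.map_cons, List.sum_cons, ih]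
        abel
      · rcases le_or_gt p.2 b with h2 | h2
        · rw [if_pos (by simpa using hJ),
            if_neg (by simp only [decide_eq_true_eq, mem_inter_iff, mem_Iic]; omega),
            if_pos (by simpa using ⟨hJ, h1, h2⟩),
            if_neg (by simp only [decide_eq_true_eq, mem_inter_iff, mem_Ioi]; omega),
            List.map_cons, List.sum_cons, List.map_cons, List.sum_cons, ih]
          abel
        · rw [if_pos (by simpa using hJ),
            if_neg (by simp only [decide_eq_true_eq, mem_inter_iff, mem_Iic]; omega),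
            if_neg (by simp only [decide_eq_true_eq, mem_inter_iff, mem_Ioc]; omega),
            if_pos (by simpa using ⟨hJ, h2⟩),
            List.map_cons, List.sum_cons, List.map_cons, List.sum_cons, ih]
          abel
    · rw [if_neg (by simpa using hJ), if_neg (by simp [hJ]), if_neg (by simp [hJ]),
        if_neg (by simp [hJ]), ih]

/-- a piece of a special list as a sum over indices -/
theorem piece_as_sum {L : SList I} (hL : IsSpecial c (NB c) L) {E : Set I}
    (hE : E.OrdConnected) (J : Set ℕ) :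
    ∃ (T : Finset ℕ) (x : ℕ → I →₀ ℚ), (∀ i ∈ T, i ∈ J) ∧ (∀ i ∈ T, IsW (NB c) i (cut E (x i))) ∧
      piece L E J = ∑ i ∈ T, cut E (x i) := by
  classical
  obtain ⟨T, x, h1, h2, h3⟩ := psi_flatten (n := 1) (L := fun _ => L) (J := fun _ => J)
    (B := NB c) (c := c) (fun _ => hL) (fun u v huv => absurd (Subsingleton.elim u v) huv)
  refine ⟨T 0, x 0, fun i hi => (h1 0 i hi).2, fun i hi => (hL.wt _ (h1 0 i hi).1).cut hE, ?_⟩
  have := h3 0 E J subset_rfl
  rw [this, Finset.filter_true_of_mem]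
  intro i hi
  exact (h1 0 i hi).2

/-- small indices -/
theorem act_piece_small {L : SList I} (hL : IsSpecial c (NB c) L) {E : Set I}
    (hE : E.OrdConnected) {J : Set ℕ} {W a : ℕ} (hJ : J ⊆ Ioc W a) {f : I →₀ 𝕜}
    (hf : ∀ i b, i ≤ a → IsW (NB c) i b → ‖act b f‖ ≤ 4 / mq i) :
    ‖act (piece L E J) f‖ ≤ 8 / mq (W + 1) := by
  obtain ⟨T, x, h1, h2, h3⟩ := piece_as_sum hL hE J
  rw [h3, act_sum_left]
  refine (norm_sum_le _ _).trans ?_
  have h4 : ∀ i ∈ T, ‖act (cut E (x i)) f‖ ≤ 4 * ((mq i : ℝ))⁻¹ := by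
    intro i hi
    have := hf i (cut E (x i)) (hJ (h1 i hi)).2 (h2 i hi)
    rwa [div_eq_mul_inv] at this
  refine (Finset.sum_le_sum h4).trans ?_
  rw [← Finset.mul_sum]
  have h5 := sum_inv_mq_le (W + 1) T (fun i hi => (hJ (h1 i hi)).1)
  have h6 : (8 : ℝ) / mq (W + 1) = 4 * (2 * ((mq (W + 1) : ℝ))⁻¹) := by
    rw [div_eq_mul_inv]; ring
  rw [h6]
  exact mul_le_mul_of_nonneg_left h5 (by norm_num)

/-- large indices -/
theorem act_piece_large {L : SList I} (hL : IsSpecial c (NB c) L) {E : Set I}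
    (hE : E.OrdConnected) {J : Set ℕ} {b : ℕ} (hJ : J ⊆ Ioi b) (f : I →₀ 𝕜) :
    ‖act (piece L E J) f‖ ≤ 2 / mq (b + 1) * l1 f := by
  obtain ⟨T, x, h1, h2, h3⟩ := piece_as_sum hL hE J
  rw [h3, act_sum_left]
  refine (norm_sum_le _ _).trans ?_
  exact act_large (b + 1) T (fun i hi => hJ (h1 i hi)) (fun i => cut E (x i))
    (fun i hi a => (h2 i hi).abs_le a) f

end Crest.Agent.R114
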