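import Mathlib

set_option autoImplicit false

/-!
# Separable quotients: basic criteria (row 114, S0153)
-/

namespace Crest.Agent.R114

open Filter Topology

/-- `X` has a separable infinite-dimensional quotient by a closed subspace. -/
def SepQuot (𝕜 : Type*) (X : Type*) [RCLike 𝕜] [NormedAddCommGroup X] [NormedSpace 𝕜 X] : Prop :=
  ∃ M : Submodule 𝕜 X, IsClosed (M : Set X) ∧
    TopologicalSpace.SeparableSpace (X ⧸ M) ∧ ¬ FiniteDimensional 𝕜 (X ⧸ M)

section
variable {𝕜 : Type*} {X : Type*} [RCLike 𝕜] [NormedAddCommGroup X] [NormedSpace 𝕜 X]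
variable {Y : Type*} [NormedAddCommGroup Y] [NormedSpace 𝕜 Y]


/-- Quotient maps: if `T : X → Y` is a surjection between Banach spaces and `Y` has a separable
infinite-dimensional quotient then so does `X`. -/
theorem SepQuot.of_surjective [CompleteSpace X] [CompleteSpace Y] (T : X →L[𝕜] Y)
    (hT : Function.Surjective T) (h : SepQuot 𝕜 Y) : SepQuot 𝕜 X := by
  obtain ⟨M, hM, hsep, hfin⟩ := h
  have hopen : IsOpenMap T := T.isOpenMap hT
  have hclosed : IsClosed ((M.comap T.toLinearMap : Submodule 𝕜 X) : Set X) := by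
    have : ((M.comap T.toLinearMap : Submodule 𝕜 X) : Set X) = T ⁻¹' (M : Set Y) := rfl
    rw [this]; exact hM.preimage T.continuous
  refine ⟨M.comap T.toLinearMap, hclosed, ?_, ?_⟩
  · obtain ⟨s, hsc, hsd⟩ := TopologicalSpace.exists_countable_dense (Y ⧸ M)
    set N := M.comap T.toLinearMap with hN
    have hcs : ∀ z : Y ⧸ M, ∃ x : X, M.mkQ (T x) = z := by
      intro z
      obtain ⟨y, rfl⟩ := M.mkQ_surjective z
      obtain ⟨x, rfl⟩ := hT y
      exact ⟨x, rfl⟩
    choose g hg using hcs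
    refine ⟨⟨(fun z => N.mkQ (g z)) '' s, hsc.image _, ?_⟩⟩
    rw [dense_iff_inter_open]
    intro U hU hUne
    have hV : IsOpen ((N.mkQ : X → X ⧸ N) ⁻¹' U) := hU.preimage N.isOpenQuotientMap_mkQ.continuous
    obtain ⟨u, hu⟩ := hUne
    obtain ⟨v, rfl⟩ := N.mkQ_surjective u
    have hW : IsOpen ((M.mkQ : Y → Y ⧸ M) '' (T '' ((N.mkQ : X → X ⧸ N) ⁻¹' U))) :=
      M.isOpenQuotientMap_mkQ.isOpenMap _ (hopen _ hV)
    obtain ⟨z, hz, hzs⟩ := hsd.inter_open_nonempty _ hW ⟨M.mkQ (T v), ⟨T v, ⟨v, hu, rfl⟩, rfl⟩⟩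
    obtain ⟨_, ⟨x, hx, rfl⟩, hxz⟩ := hz
    refine ⟨N.mkQ (g z), ?_, ⟨z, hzs, rfl⟩⟩
    have h1 : N.mkQ (g z) = N.mkQ x := by
      rw [Submodule.mkQ_apply, Submodule.mkQ_apply, Submodule.Quotient.eq]
      show T.toLinearMap (g z - x) ∈ M
      have h2 : M.mkQ (T (g z)) = M.mkQ (T x) := (hg z).trans hxz.symm
      rw [Submodule.mkQ_apply, Submodule.mkQ_apply, Submodule.Quotient.eq] at h2
      rw [map_sub]; exact h2
    rw [h1]; exact hx
  · intro hfd
    apply hfin
    let φ : (X ⧸ M.comap T.toLinearMap) →ₗ[𝕜] (Y ⧸ M) :=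
      Submodule.mapQ _ _ T.toLinearMap le_rfl
    have hφ : Function.Surjective φ := by
      intro z
      obtain ⟨y, rfl⟩ := M.mkQ_surjective z
      obtain ⟨x, rfl⟩ := hT y
      exact ⟨(M.comap T.toLinearMap).mkQ x, rfl⟩
    exact Module.Finite.of_surjective φ hφ

/-- Separable infinite-dimensional spaces. -/
theorem SepQuot.of_separable [TopologicalSpace.SeparableSpace X] (h : ¬ FiniteDimensional 𝕜 X)
    (_ : CompleteSpace X) : SepQuot 𝕜 X := by
  refine ⟨⊥, ?_, ?_, ?_⟩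
  · exact isClosed_singleton
  · have hcont : Continuous ((⊥ : Submodule 𝕜 X).mkQ : X → X ⧸ (⊥ : Submodule 𝕜 X)) :=
      (⊥ : Submodule 𝕜 X).isOpenQuotientMap_mkQ.continuous
    have hsurj : Function.Surjective ((⊥ : Submodule 𝕜 X).mkQ : X → X ⧸ (⊥ : Submodule 𝕜 X)) :=
      (⊥ : Submodule 𝕜 X).mkQ_surjective
    exact hsurj.denseRange.separableSpace hcont
  · intro hfd
    apply h
    exact Module.Finite.equiv (Submodule.quotEquivOfEqBot (⊥ : Submodule 𝕜 X) rfl)



end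

end Crest.Agent.R114
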