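import Crest.Agent.R114.Defs

/-! # Row 114, S0152: basic properties of the norming set. -/

set_option autoImplicit false

open Set Filter

namespace Crest.Agent.R114

variable {I : Type} [LinearOrder I]

section par

lemma one_le_nprev (j : ℕ) : 1 ≤ nprev j := by
  cases j with
  | zero => exact le_rfl
  | succ j => exact Nat.one_le_iff_ne_zero.2 (by unfold nprev; positivity)

private lemma nprev_lt_succ (j : ℕ) : nprev j < nprev (j + 1) := by
  have h1 : nprev (j + 1) = 16 ^ (j + 1) * ((j + 2) * nprev j + 10) ^ (4 * j + 6) := rfl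
  have h2 : ((j + 2) * nprev j + 10) ≤ ((j + 2) * nprev j + 10) ^ (4 * j + 6) :=
    Nat.le_self_pow (by omega) _
  have h3 : ((j + 2) * nprev j + 10) ^ (4 * j + 6) ≤ nprev (j + 1) := by
    rw [h1]; exact Nat.le_mul_of_pos_left _ (by positivity)
  have h4 : nprev j ≤ (j + 2) * nprev j := Nat.le_mul_of_pos_left _ (by omega)
  omega

lemma nprev_mono : Monotone nprev := monotone_nat_of_le_succ fun j => (nprev_lt_succ j).le

lemma nq_le_nprev {i j : ℕ} (h : i < j) : nq i ≤ nprev j := nprev_mono h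

lemma nq_strictMono : StrictMono nq := strictMono_nat_of_lt_succ fun j => nprev_lt_succ (j + 1)

/-- the parameter condition of `MRis.ris_upper` -/
lemma nq_growth (j : ℕ) :
    (mq j : ℝ) * (2 * ((∑ i ∈ Finset.range j, nq i : ℕ) + 1)) ^ (2 * j + 2) ≤ nq j := by
  have h1 : ∑ i ∈ Finset.range j, nq i ≤ j * nprev j := by
    calc ∑ i ∈ Finset.range j, nq i ≤ ∑ i ∈ Finset.range j, nprev j :=
          Finset.sum_le_sum fun i hi => nq_le_nprev (Finset.mem_range.1 hi)
      _ = j * nprev j := by simp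
  have hP := one_le_nprev j
  set Y := (j + 2) * nprev j + 10 with hY
  have h2 : 2 * ((∑ i ∈ Finset.range j, nq i) + 1) ≤ Y ^ 2 := by
    have h3 : 2 * ((∑ i ∈ Finset.range j, nq i) + 1) ≤ 2 * Y := by
      have : (j + 2) * nprev j = j * nprev j + 2 * nprev j := by ring
      omega
    have h4 : 2 * Y ≤ Y ^ 2 := by
      rw [sq]; exact Nat.mul_le_mul_right _ (by omega)
    exact h3.trans h4
  have h3 : (2 * ((∑ i ∈ Finset.range j, nq i) + 1)) ^ (2 * j + 2) ≤ Y ^ (4 * j + 6) := by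
    calc (2 * ((∑ i ∈ Finset.range j, nq i) + 1)) ^ (2 * j + 2) ≤ (Y ^ 2) ^ (2 * j + 2) :=
          Nat.pow_le_pow_left h2 _
      _ = Y ^ (4 * j + 4) := by rw [← pow_mul]; congr 1; ring
      _ ≤ Y ^ (4 * j + 6) := Nat.pow_le_pow_right (by omega) (by omega)
  have h4 : mq j * (2 * ((∑ i ∈ Finset.range j, nq i) + 1)) ^ (2 * j + 2) ≤ nq j := by
    rw [nq_eq]; exact Nat.mul_le_mul_left _ h3
  exact_mod_cast h4

/-- the parameter condition for averages (S2) -/
lemma pow_le_nq {N j : ℕ} (h : N ≤ j) : N ^ (4 * j + 6) ≤ nq j := by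
  rw [nq_eq]
  have hP := one_le_nprev j
  have h1 : N ≤ (j + 2) * nprev j + 10 := by
    have : j + 2 ≤ (j + 2) * nprev j := Nat.le_mul_of_pos_right _ (by omega)
    omega
  calc N ^ (4 * j + 6) ≤ ((j + 2) * nprev j + 10) ^ (4 * j + 6) := Nat.pow_le_pow_left h1 _
    _ ≤ _ := Nat.le_mul_of_pos_left _ (by unfold mq; positivity)

lemma two_mq_lt (j : ℕ) : 2 * (mq j : ℝ) < 2 ^ (4 * j + 6) := by
  have h : 2 * mq j < 2 ^ (4 * j + 6) := by
    unfold mq
    have h1 : (16 : ℕ) ^ (j + 1) = 2 ^ (4 * j + 4) := by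
      rw [show (16 : ℕ) = 2 ^ 4 by norm_num, ← pow_mul]; congr 1
    rw [h1, ← pow_succ']
    exact Nat.pow_lt_pow_right (by norm_num) (by omega)
  exact_mod_cast h

private lemma sum_Ico_inv_mq (j : ℕ) (M : ℕ) (hM : j ≤ M) :
    ∑ i ∈ Finset.Ico j M, ((mq i : ℝ))⁻¹ ≤ 2 * ((mq j : ℝ))⁻¹ - 2 * ((mq M : ℝ))⁻¹ := by
  induction M, hM using Nat.le_induction with
  | base => simp
  | succ M hM ih =>
    rw [Finset.sum_Ico_succ_top hM]
    have h1 : (mq (M + 1) : ℝ) = 16 * mq M := by
      unfold mq; push_cast; ring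
    have h2 : (0 : ℝ) < mq M := by unfold mq; positivity
    rw [h1, mul_inv]
    have h3 : (0 : ℝ) < (mq M : ℝ)⁻¹ := inv_pos.2 h2
    nlinarith

/-- sums of `1/m_j` over a finite set of indices `≥ j` -/
lemma sum_inv_mq_le (j : ℕ) (s : Finset ℕ) (hs : ∀ i ∈ s, j ≤ i) :
    ∑ i ∈ s, ((mq i : ℝ))⁻¹ ≤ 2 * ((mq j : ℝ))⁻¹ := by
  obtain ⟨M, hM⟩ : ∃ M, ∀ i ∈ s, i < M := by
    obtain ⟨M, hM⟩ := s.bddAbove
    exact ⟨M + 1, fun i hi => Nat.lt_succ_of_le (hM hi)⟩
  have h1 : s ⊆ Finset.Ico j (max j M) := by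
    intro i hi
    rw [Finset.mem_Ico]
    exact ⟨hs i hi, lt_of_lt_of_le (hM i hi) (le_max_right _ _)⟩
  calc ∑ i ∈ s, ((mq i : ℝ))⁻¹ ≤ ∑ i ∈ Finset.Ico j (max j M), ((mq i : ℝ))⁻¹ :=
        Finset.sum_le_sum_of_subset_of_nonneg h1 fun i _ _ => by positivity
    _ ≤ 2 * ((mq j : ℝ))⁻¹ - 2 * ((mq (max j M) : ℝ))⁻¹ := sum_Ico_inv_mq j _ (le_max_left _ _)
    _ ≤ _ := by
      have : (0 : ℝ) ≤ ((mq (max j M) : ℝ))⁻¹ := by positivity
      linarith

end par

section cutlemmas

variable {𝕜 : Type} [RCLike 𝕜]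

lemma cut_univ {R : Type*} [Zero R] (f : I →₀ R) : cut univ f = f := by
  classical
  ext a; rw [cut_apply]; simp

lemma cut_cut {R : Type*} [Zero R] (E F : Set I) (f : I →₀ R) : cut E (cut F f) = cut (E ∩ F) f := by
  classical
  ext a; rw [cut_apply, cut_apply, cut_apply]
  by_cases h1 : a ∈ E <;> by_cases h2 : a ∈ F <;> simp [h1, h2]

lemma cut_add (E : Set I) {R : Type*} [AddCommGroup R] (f g : I →₀ R) :
    cut E (f + g) = cut E f + cut E g := by
  classical
  ext a; rw [cut_apply, Finsupp.add_apply, Finsupp.add_apply, cut_apply, cut_apply]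
  split_ifs <;> simp

private lemma cut_zero (E : Set I) {R : Type*} [Zero R] : cut E (0 : I →₀ R) = 0 := by
  classical
  ext a; rw [cut_apply]; simp

lemma cut_sum (E : Set I) {R : Type*} [AddCommGroup R] {ι : Type*} (s : Finset ι) (f : ι → I →₀ R) :
    cut E (∑ i ∈ s, f i) = ∑ i ∈ s, cut E (f i) := by
  classical
  induction s using Finset.induction_on with
  | empty => simp [cut_zero]
  | insert i s hi ih => rw [Finset.sum_insert hi, Finset.sum_insert hi, cut_add, ih]

lemma cut_list_sum (E : Set I) {R : Type*} [AddCommGroup R] (l : List (I →₀ R)) :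
    cut E l.sum = (l.map (cut E)).sum := by
  induction l with
  | nil => simp [cut_zero]
  | cons a l ih => rw [List.sum_cons, List.map_cons, List.sum_cons, cut_add, ih]

lemma cut_smul (E : Set I) (q : ℚ) (f : I →₀ ℚ) : cut E (q • f) = q • cut E f := by
  classical
  ext a; rw [cut_apply, Finsupp.smul_apply, Finsupp.smul_apply, cut_apply]
  split_ifs <;> simp

lemma cut_smul' (E : Set I) (q : 𝕜) (f : I →₀ 𝕜) : cut E (q • f) = q • cut E f := by
  classical
  ext a; rw [cut_apply, Finsupp.smul_apply, Finsupp.smul_apply, cut_apply]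
  split_ifs <;> simp

lemma cut_of_subset {R : Type*} [Zero R] {E : Set I} {f : I →₀ R} (h : ↑f.support ⊆ E) :
    cut E f = f := by
  classical
  ext a; rw [cut_apply]
  split_ifs with ha
  · rfl
  · by_contra hne
    exact ha (h (by simpa using fun h0 => hne h0.symm))

lemma cut_support {R : Type*} [Zero R] (E : Set I) (f : I →₀ R) :
    ∀ a ∈ (cut E f).support, a ∈ E ∧ a ∈ f.support := by
  classical
  intro a ha
  rw [Finsupp.mem_support_iff, cut_apply] at ha
  split_ifs at ha with h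
  · exact ⟨h, Finsupp.mem_support_iff.2 ha⟩
  · exact absurd rfl ha

/-! `act` is bilinear. -/

private lemma act_eq_sum (b : I →₀ ℚ) (f : I →₀ 𝕜) {s : Finset I} (hs : f.support ⊆ s) :
    act b f = ∑ a ∈ s, ((b a : ℚ) : 𝕜) * f a := by
  unfold act
  exact Finsupp.sum_of_support_subset f hs _ (by simp)

lemma act_add_left (b b' : I →₀ ℚ) (f : I →₀ 𝕜) : act (b + b') f = act b f + act b' f := by
  rw [act_eq_sum _ f subset_rfl, act_eq_sum _ f subset_rfl, act_eq_sum _ f subset_rfl,
    ← Finset.sum_add_distrib]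
  refine Finset.sum_congr rfl fun a _ => ?_
  rw [Finsupp.add_apply]; push_cast; ring

lemma act_smul_left (q : ℚ) (b : I →₀ ℚ) (f : I →₀ 𝕜) : act (q • b) f = (q : 𝕜) * act b f := by
  rw [act_eq_sum _ f subset_rfl, act_eq_sum _ f subset_rfl, Finset.mul_sum]
  refine Finset.sum_congr rfl fun a _ => ?_
  rw [Finsupp.smul_apply, smul_eq_mul]; push_cast; ring

lemma act_zero_left (f : I →₀ 𝕜) : act (0 : I →₀ ℚ) f = 0 := by
  rw [act_eq_sum _ f subset_rfl]; simp

lemma act_sum_left {ι : Type*} (s : Finset ι) (b : ι → I →₀ ℚ) (f : I →₀ 𝕜) :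
    act (∑ i ∈ s, b i) f = ∑ i ∈ s, act (b i) f := by
  classical
  induction s using Finset.induction_on with
  | empty => simp [act_zero_left]
  | insert i s hi ih => rw [Finset.sum_insert hi, Finset.sum_insert hi, act_add_left, ih]

lemma act_list_sum_left (l : List (I →₀ ℚ)) (f : I →₀ 𝕜) :
    act l.sum f = (l.map fun b => act b f).sum := by
  induction l with
  | nil => simp [act_zero_left]
  | cons a l ih => rw [List.sum_cons, List.map_cons, List.sum_cons, act_add_left, ih]


lemma act_add (b : I →₀ ℚ) (f g : I →₀ 𝕜) : act b (f + g) = act b f + act b g := by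
  classical
  rw [act_eq_sum b (f + g) (s := f.support ∪ g.support) Finsupp.support_add,
    act_eq_sum b f (s := f.support ∪ g.support) Finset.subset_union_left,
    act_eq_sum b g (s := f.support ∪ g.support) Finset.subset_union_right,
    ← Finset.sum_add_distrib]
  refine Finset.sum_congr rfl fun a _ => ?_
  rw [Finsupp.add_apply]; ring

lemma act_smul (b : I →₀ ℚ) (z : 𝕜) (f : I →₀ 𝕜) : act b (z • f) = z * act b f := by
  rw [act_eq_sum b (z • f) (s := f.support) Finsupp.support_smul, act_eq_sum b f subset_rfl,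
    Finset.mul_sum]
  refine Finset.sum_congr rfl fun a _ => ?_
  rw [Finsupp.smul_apply, smul_eq_mul]; ring

lemma act_zero (b : I →₀ ℚ) : act b (0 : I →₀ 𝕜) = 0 := by
  simp [act]


lemma act_sum {ι : Type*} (b : I →₀ ℚ) (s : Finset ι) (f : ι → I →₀ 𝕜) :
    act b (∑ i ∈ s, f i) = ∑ i ∈ s, act b (f i) := by
  classical
  induction s using Finset.induction_on with
  | empty => simp [act_zero]
  | insert i s hi ih => rw [Finset.sum_insert hi, Finset.sum_insert hi, act_add, ih]

lemma act_single_left (a : I) (q : ℚ) (f : I →₀ 𝕜) : act (Finsupp.single a q) f = (q : 𝕜) * f a := by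
  classical
  rw [act_eq_sum _ f (s := insert a f.support) (Finset.subset_insert _ _),
    Finset.sum_eq_single a]
  · simp
  · intro a' _ hne
    rw [Finsupp.single_apply, if_neg hne.symm]; simp
  · intro h; exact absurd (Finset.mem_insert_self _ _) h


lemma act_cut (E : Set I) (b : I →₀ ℚ) (f : I →₀ 𝕜) : act (cut E b) f = act b (cut E f) := by
  classical
  rw [act_eq_sum _ f subset_rfl, act_eq_sum b (cut E f) (s := f.support)
    (fun a ha => (cut_support E f a ha).2)]
  refine Finset.sum_congr rfl fun a _ => ?_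
  rw [cut_apply, cut_apply]
  split_ifs <;> simp

lemma act_eq_zero_of_disjoint {b : I →₀ ℚ} {f : I →₀ 𝕜} (h : ∀ a ∈ b.support, a ∉ f.support) :
    act b f = 0 := by
  rw [act_eq_sum _ f subset_rfl]
  refine Finset.sum_eq_zero fun a ha => ?_
  have : b a = 0 := by
    by_contra hne
    exact h a (Finsupp.mem_support_iff.2 hne) ha
  rw [this]; simp

lemma act_eq_cut (E : Set I) (b : I →₀ ℚ) (f : I →₀ 𝕜) (h : ∀ a ∈ b.support, a ∈ f.support → a ∈ E) :
    act (cut E b) f = act b f := by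
  classical
  rw [act_eq_sum _ f subset_rfl, act_eq_sum _ f subset_rfl]
  refine Finset.sum_congr rfl fun a ha => ?_
  rw [cut_apply]
  split_ifs with hE
  · rfl
  · have : b a = 0 := by
      by_contra hne
      exact hE (h a (Finsupp.mem_support_iff.2 hne) ha)
    rw [this]

/-- bound by the `ℓ₁` norm -/
lemma norm_act_le_l1 {b : I →₀ ℚ} {M : ℝ} (f : I →₀ 𝕜) (h : ∀ a, |(b a : ℝ)| ≤ M) :
    ‖act b f‖ ≤ M * l1 f := by
  unfold act l1 Finsupp.sum
  rw [Finset.mul_sum]
  refine (norm_sum_le _ _).trans (Finset.sum_le_sum fun a _ => ?_)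
  rw [norm_mul]
  refine mul_le_mul_of_nonneg_right ?_ (norm_nonneg _)
  have h1 : ‖((b a : ℚ) : 𝕜)‖ = |(b a : ℝ)| := by
    have : ((b a : ℚ) : 𝕜) = (((b a : ℚ) : ℝ) : 𝕜) := by norm_cast
    rw [this, RCLike.norm_ofReal]
  rw [h1]; exact h a

lemma l1_nonneg (f : I →₀ 𝕜) : 0 ≤ l1 f := by
  unfold l1 Finsupp.sum
  exact Finset.sum_nonneg fun _ _ => norm_nonneg _

end cutlemmas

section monotone

variable {c : Coding I} {B B' : (I →₀ ℚ) → Prop}

lemma IsW.mono (h : ∀ b, B b → B' b) {j : ℕ} {b : I →₀ ℚ} (hb : IsW B j b) : IsW B' j b := by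
  obtain ⟨l, h1, h2, h3, h4⟩ := hb
  exact ⟨l, h1, fun x hx => h x (h2 x hx), h3, h4⟩

lemma IsSpecial.mono (h : ∀ b, B b → B' b) {L : SList I} (hL : IsSpecial c B L) :
    IsSpecial c B' L :=
  ⟨hL.coded, hL.head, fun p hp => (hL.wt p hp).mono h⟩

lemma IsPsi.mono (h : ∀ b, B b → B' b) {b : I →₀ ℚ} (hb : IsPsi c B b) : IsPsi c B' b := by
  obtain ⟨n, ε, L, E, J, h1, h2, h3⟩ := hb
  exact ⟨n, ε, L, E, J, h1, fun u => (h2 u).mono h, h3⟩

lemma IsSpecial.take {L : SList I} (hL : IsSpecial c B L) (n : ℕ) : IsSpecial c B (L.take n) where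
  coded := hL.coded.take n
  head h := by
    rw [List.getElem_take]
    exact hL.head (by simp at h; exact h.2)
  wt p hp := hL.wt p (List.mem_of_mem_take hp)

/-- indices are codes of prefixes -/
lemma IsSpecial.code' {L : SList I} (hL : IsSpecial c B L) (l : ℕ) (h : l < L.length) :
    (L[l]).2 = c.τ (L.take l) := by
  rcases Nat.eq_zero_or_pos l with h0 | h0
  · subst h0
    simpa using hL.head h
  · exact hL.coded.code l h h0

/-- all indices are positive -/
lemma IsSpecial.idx_pos {L : SList I} (hL : IsSpecial c B L) : ∀ p ∈ L, 1 ≤ p.2 := by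
  intro p hp
  obtain ⟨l, hl, rfl⟩ := List.getElem_of_mem hp
  rw [hL.code' l hl]
  exact c.τ_pos _

end monotone

section NBlemmas

variable {c : Coding I}

theorem NB.closedFam (c : Coding I) : ClosedFam c (NB c) where
  unit a q hq B hB := hB.unit a q hq
  wt j b hb B hB := hB.wt j b (hb.mono fun x hx => hx B hB)
  psi b hb B hB := hB.psi b (hb.mono fun x hx => hx B hB)

/-- induction principle with the strengthened hypothesis -/
theorem NB.induct {P : (I →₀ ℚ) → Prop} (hP : ClosedFam c (fun b => NB c b ∧ P b))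
    {b : I →₀ ℚ} (hb : NB c b) : P b := (hb _ hP).2

/-- inversion -/
theorem NB.cases {b : I →₀ ℚ} (hb : NB c b) :
    (∃ a q, |q| ≤ 1 ∧ b = Finsupp.single a q) ∨ (∃ j, IsW (NB c) j b) ∨ IsPsi c (NB c) b := by
  refine NB.induct (P := fun b => (∃ a q, |q| ≤ 1 ∧ b = Finsupp.single a q) ∨
    (∃ j, IsW (NB c) j b) ∨ IsPsi c (NB c) b) ⟨?_, ?_, ?_⟩ hb
  · intro a q hq
    exact ⟨(NB.closedFam c).unit a q hq, Or.inl ⟨a, q, hq, rfl⟩⟩
  · intro j b hb
    have hb' : IsW (NB c) j b := hb.mono fun x hx => hx.1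
    exact ⟨(NB.closedFam c).wt j b hb', Or.inr (Or.inl ⟨j, hb'⟩)⟩
  · intro b hb
    have hb' : IsPsi c (NB c) b := hb.mono fun x hx => hx.1
    exact ⟨(NB.closedFam c).psi b hb', Or.inr (Or.inr hb')⟩

private lemma SuccF.of_subset {f g f' g' : I →₀ ℚ} (h : SuccF f g) (hf : f'.support ⊆ f.support)
    (hg : g'.support ⊆ g.support) : SuccF f' g' :=
  fun a ha b hb => h a (hf ha) b (hg hb)

theorem NB.smul {b : I →₀ ℚ} (hb : NB c b) {q : ℚ} (hq : |q| ≤ 1) : NB c (q • b) := by
  revert q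
  refine NB.induct (P := fun b => ∀ {q : ℚ}, |q| ≤ 1 → NB c (q • b)) ⟨?_, ?_, ?_⟩ hb
  · intro a q hq
    refine ⟨(NB.closedFam c).unit a q hq, ?_⟩
    intro q' hq'
    rw [Finsupp.smul_single, smul_eq_mul]
    refine (NB.closedFam c).unit a _ ?_
    rw [abs_mul]; exact mul_le_one₀ hq' (abs_nonneg _) hq
  · intro j b hb
    refine ⟨(NB.closedFam c).wt j b (hb.mono fun x hx => hx.1), ?_⟩
    intro q' hq'
    obtain ⟨l, h1, h2, h3, rfl⟩ := hb
    refine (NB.closedFam c).wt j _ ⟨l.map (q' • ·), by simpa using h1, ?_, ?_, ?_⟩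
    · intro x hx
      obtain ⟨y, hy, rfl⟩ := List.mem_map.1 hx
      exact (h2 y hy).2 hq'
    · rw [List.pairwise_map]
      exact h3.imp fun h => h.of_subset Finsupp.support_smul Finsupp.support_smul
    · rw [smul_comm, List.smul_sum]
  · intro b hb
    refine ⟨(NB.closedFam c).psi b (hb.mono fun x hx => hx.1), ?_⟩
    intro q' hq'
    obtain ⟨n, ε, L, E, J, h1, h2, h3, h4, h5, h6, rfl⟩ := hb
    refine (NB.closedFam c).psi _ ⟨n, fun u => q' * ε u, L, E, J, ?_,
      fun u => (h2 u).mono fun x hx => hx.1, h3, h4, h5, h6, ?_⟩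
    · intro u
      rw [abs_mul]; exact mul_le_one₀ hq' (abs_nonneg _) (h1 u)
    · rw [Finset.smul_sum]
      exact Finset.sum_congr rfl fun u _ => by rw [smul_smul]

theorem NB.zero (c : Coding I) : NB c 0 :=
  (NB.closedFam c).wt 0 0 ⟨[], by simp, by simp, by simp, by simp⟩

theorem NB.neg {b : I →₀ ℚ} (hb : NB c b) : NB c (-b) := by
  have := hb.smul (q := -1) (by simp)
  simpa using this

theorem piece_cut (L : SList I) (E F : Set I) (J : Set ℕ) :
    cut F (piece L E J) = piece L (F ∩ E) J := by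
  unfold piece
  exact cut_cut F E _

private lemma support_cut_subset (E : Set I) (f : I →₀ ℚ) : (cut E f).support ⊆ f.support :=
  fun a ha => (cut_support E f a ha).2

theorem NB.cut {b : I →₀ ℚ} (hb : NB c b) {E : Set I} (hE : E.OrdConnected) : NB c (cut E b) := by
  classical
  refine NB.induct (P := fun b => NB c (Crest.Agent.R114.cut E b)) ⟨?_, ?_, ?_⟩ hb
  · intro a q hq
    refine ⟨(NB.closedFam c).unit a q hq, ?_⟩
    by_cases ha : a ∈ E
    · rw [cut_of_subset]
      · exact (NB.closedFam c).unit a q hq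
      · intro x hx
        have := Finsupp.support_single_subset hx
        simp at this
        rwa [this]
    · have : Crest.Agent.R114.cut E (Finsupp.single a q) = 0 := by
        ext x
        rw [cut_apply]
        split_ifs with hx
        · rw [Finsupp.single_apply, if_neg]
          · rfl
          · rintro rfl; exact ha hx
        · rfl
      rw [this]; exact NB.zero c
  · intro j b hb
    refine ⟨(NB.closedFam c).wt j b (hb.mono fun x hx => hx.1), ?_⟩
    obtain ⟨l, h1, h2, h3, rfl⟩ := hb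
    refine (NB.closedFam c).wt j _ ⟨l.map (Crest.Agent.R114.cut E), by simpa using h1, ?_, ?_, ?_⟩
    · intro x hx
      obtain ⟨y, hy, rfl⟩ := List.mem_map.1 hx
      exact (h2 y hy).2
    · rw [List.pairwise_map]
      exact h3.imp fun h => h.of_subset (support_cut_subset _ _) (support_cut_subset _ _)
    · rw [cut_smul, cut_list_sum]
  · intro b hb
    refine ⟨(NB.closedFam c).psi b (hb.mono fun x hx => hx.1), ?_⟩
    obtain ⟨n, ε, L, E', J, h1, h2, h3, h4, h5, h6, rfl⟩ := hb
    refine (NB.closedFam c).psi _ ⟨n, ε, L, fun u => E ∩ E' u, J, h1,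
      fun u => (h2 u).mono fun x hx => hx.1, fun u => hE.inter (h3 u), h4, h5, h6, ?_⟩
    rw [cut_sum]
    exact Finset.sum_congr rfl fun u _ => by rw [cut_smul, piece_cut]

theorem IsW.cut {b : I →₀ ℚ} {j : ℕ} (hb : IsW (NB c) j b) {E : Set I} (hE : E.OrdConnected) :
    IsW (NB c) j (Crest.Agent.R114.cut E b) := by
  obtain ⟨l, h1, h2, h3, rfl⟩ := hb
  refine ⟨l.map (Crest.Agent.R114.cut E), by simpa using h1, ?_, ?_, ?_⟩
  · intro x hx
    obtain ⟨y, hy, rfl⟩ := List.mem_map.1 hx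
    exact (h2 y hy).cut hE
  · rw [List.pairwise_map]
    exact h3.imp fun h => h.of_subset (support_cut_subset _ _) (support_cut_subset _ _)
  · rw [cut_smul, cut_list_sum]

theorem NB.piece {L : SList I} (hL : IsSpecial c (NB c) L) {E : Set I} (hE : E.OrdConnected)
    {J : Set ℕ} (hJ : J.OrdConnected) : NB c (piece L E J) := by
  refine (NB.closedFam c).psi _ ⟨1, fun _ => 1, fun _ => L, fun _ => E, fun _ => J, by simp,
    fun _ => hL, fun _ => hE, fun _ => hJ, fun _ p hp _ => hL.idx_pos p hp, ?_, by simp⟩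
  intro u v huv
  exact absurd (Subsingleton.elim u v) huv

/-- indices in a coded list are pairwise increasing -/
private lemma IsCoded.pairwise_idx {L : SList I} (hL : IsCoded c L) :
    L.Pairwise fun p q => p.2 < q.2 := by
  rw [List.pairwise_iff_getElem]
  intro i j hi hj hij
  exact hL.idx_lt hij hj

private lemma IsCoded.inj {L : SList I} (hL : IsCoded c L) {p q : (I →₀ ℚ) × ℕ} (hp : p ∈ L)
    (hq : q ∈ L) (h : p.2 = q.2) : p = q := by
  obtain ⟨l, hl, rfl⟩ := List.getElem_of_mem hp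
  obtain ⟨l', hl', rfl⟩ := List.getElem_of_mem hq
  rcases lt_trichotomy l l' with h1 | h1 | h1
  · have := hL.idx_lt h1 hl'; omega
  · subst h1; rfl
  · have := hL.idx_lt h1 hl; omega

open Classical in
/-- the pieces of a `Ψ`-functional, flattened: `T v` is the set of indices used by piece `v`,
these sets are pairwise disjoint. -/
theorem psi_flatten {n : ℕ} {L : Fin n → SList I} {J : Fin n → Set ℕ} {B : (I →₀ ℚ) → Prop}
    (hL : ∀ u, IsSpecial c B (L u))
    (hd : ∀ u v, u ≠ v → ∀ p ∈ L u, ∀ q ∈ L v, p.2 ∈ J u → q.2 ∈ J v → p.2 ≠ q.2) :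
    ∃ (T : Fin n → Finset ℕ) (x : Fin n → ℕ → I →₀ ℚ),
      (∀ v, ∀ i ∈ T v, (x v i, i) ∈ L v ∧ i ∈ J v) ∧
      (∀ v w, v ≠ w → Disjoint (T v) (T w)) ∧
      ∀ (v : Fin n) (E : Set I) (J' : Set ℕ), J' ⊆ J v →
        piece (L v) E J' = ∑ i ∈ (T v).filter (· ∈ J'), Crest.Agent.R114.cut E (x v i) := by
  let x : Fin n → ℕ → I →₀ ℚ := fun v i => if h : ∃ y, (y, i) ∈ L v then h.choose else 0
  have hx : ∀ v, ∀ p ∈ L v, x v p.2 = p.1 := by
    intro v p hp
    have h : ∃ y, (y, p.2) ∈ L v := ⟨p.1, hp⟩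
    have h1 : x v p.2 = h.choose := dif_pos h
    have h2 := (hL v).coded.inj h.choose_spec hp rfl
    rw [h1]; exact congrArg Prod.fst h2
  refine ⟨fun v => (((L v).filter fun p => decide (p.2 ∈ J v)).map Prod.snd).toFinset, x,
    ?_, ?_, ?_⟩
  · intro v i hi
    rw [List.mem_toFinset, List.mem_map] at hi
    obtain ⟨p, hp, rfl⟩ := hi
    rw [List.mem_filter] at hp
    refine ⟨?_, by simpa using hp.2⟩
    rw [hx v p hp.1]; exact hp.1
  · intro v w hvw
    rw [Finset.disjoint_left]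
    intro i hi hi'
    rw [List.mem_toFinset, List.mem_map] at hi hi'
    obtain ⟨p, hp, rfl⟩ := hi
    obtain ⟨q, hq, hpq⟩ := hi'
    rw [List.mem_filter] at hp hq
    exact hd v w hvw p hp.1 q hq.1 (by simpa using hp.2) (by simpa using hq.2) hpq.symm
  · intro v E J' hJ'
    have h1 : ((((L v).filter fun p => decide (p.2 ∈ J v)).map Prod.snd).toFinset).filter (· ∈ J')
        = (((L v).filter fun p => decide (p.2 ∈ J')).map Prod.snd).toFinset := by
      ext i
      simp only [Finset.mem_filter, List.mem_toFinset, List.mem_map, List.mem_filter,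
        decide_eq_true_eq]
      constructor
      · rintro ⟨⟨p, ⟨h1, h2⟩, rfl⟩, h3⟩
        exact ⟨p, ⟨h1, h3⟩, rfl⟩
      · rintro ⟨p, ⟨h1, h2⟩, rfl⟩
        exact ⟨⟨p, ⟨h1, hJ' h2⟩, rfl⟩, h2⟩
    have h2 : (((L v).filter fun p => decide (p.2 ∈ J')).map Prod.snd).Nodup := by
      unfold List.Nodup
      rw [List.pairwise_map]
      refine List.Pairwise.imp ?_ ((hL v).coded.pairwise_idx.filter _)
      intro p q h; exact h.ne
    rw [← cut_sum, h1, List.sum_toFinset _ h2, List.map_map]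
    unfold piece
    congr 2
    refine List.map_congr_left fun p hp => ?_
    rw [List.mem_filter] at hp
    exact (hx v p hp.1).symm

/-- value of a sum of successive functionals -/
private lemma abs_list_sum_le {l : List (I →₀ ℚ)} (h : l.Pairwise SuccF) (a : I) {M : ℚ}
    (hM : 0 ≤ M) (hb : ∀ x ∈ l, |x a| ≤ M) : |l.sum a| ≤ M := by
  induction l with
  | nil => simpa using hM
  | cons x l ih =>
    rw [List.pairwise_cons] at h
    rw [List.sum_cons, Finsupp.add_apply]
    by_cases hx : x a = 0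
    · rw [hx, zero_add]
      exact ih h.2 fun y hy => hb y (List.mem_cons_of_mem _ hy)
    · have : l.sum a = 0 := by
        have hl : ∀ y ∈ l, y a = 0 := by
          intro y hy
          by_contra hne
          exact lt_irrefl a (h.1 y hy a (Finsupp.mem_support_iff.2 hx) a
            (Finsupp.mem_support_iff.2 hne))
        clear ih h hb hx
        induction l with
        | nil => simp
        | cons y l ih' =>
          rw [List.sum_cons, Finsupp.add_apply, hl y (by simp),
            ih' fun z hz => hl z (List.mem_cons_of_mem _ hz), add_zero]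
      rw [this, add_zero]
      exact hb x (by simp)

private lemma isW_abs_le {B : (I →₀ ℚ) → Prop} (hB : ∀ b, B b → ∀ a, |b a| ≤ 1) {b : I →₀ ℚ}
    {j : ℕ} (hb : IsW B j b) (a : I) : |b a| ≤ ((mq j : ℚ))⁻¹ := by
  obtain ⟨l, h1, h2, h3, rfl⟩ := hb
  rw [Finsupp.smul_apply, smul_eq_mul, abs_mul]
  have h4 : |l.sum a| ≤ 1 := abs_list_sum_le h3 a zero_le_one fun x hx => hB x (h2 x hx) a
  have h5 : (0 : ℚ) ≤ ((mq j : ℚ))⁻¹ := by positivity
  rw [abs_of_nonneg h5]
  exact mul_le_of_le_one_right h5 h4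

/-- coefficients are bounded by one -/
theorem NB.abs_le_one {b : I →₀ ℚ} (hb : NB c b) (a : I) : |b a| ≤ 1 := by
  classical
  revert a
  refine NB.induct (P := fun b => ∀ a, |b a| ≤ 1) ⟨?_, ?_, ?_⟩ hb
  · intro a q hq
    refine ⟨(NB.closedFam c).unit a q hq, ?_⟩
    intro a'
    rw [Finsupp.single_apply]
    split_ifs
    · exact hq
    · simp
  · intro j b hb
    refine ⟨(NB.closedFam c).wt j b (hb.mono fun x hx => hx.1), fun a => ?_⟩
    refine (isW_abs_le (fun b hb => hb.2) hb a).trans ?_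
    apply inv_le_one_of_one_le₀
    have : 1 ≤ mq j := Nat.one_le_iff_ne_zero.2 (by unfold mq; positivity)
    exact_mod_cast this
  · intro b hb
    refine ⟨(NB.closedFam c).psi b (hb.mono fun x hx => hx.1), fun a => ?_⟩
    obtain ⟨n, ε, L, E', J, h1, h2, h3, h4, h5, h6, rfl⟩ := hb
    obtain ⟨T, x, hT1, hT2, hT3⟩ := psi_flatten h2 h6
    rw [Finsupp.finsetSum_apply]
    have hpiece : ∀ u, |(ε u • Crest.Agent.R114.piece (L u) (E' u) (J u)) a| ≤ ∑ i ∈ T u, ((mq i : ℚ))⁻¹ := by
      intro u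
      rw [Finsupp.smul_apply, smul_eq_mul, abs_mul]
      have h7 : |(Crest.Agent.R114.piece (L u) (E' u) (J u)) a| ≤ ∑ i ∈ T u, ((mq i : ℚ))⁻¹ := by
        rw [hT3 u (E' u) (J u) subset_rfl, Finsupp.finsetSum_apply]
        refine (Finset.abs_sum_le_sum_abs _ _).trans ?_
        refine (Finset.sum_le_sum_of_subset_of_nonneg (Finset.filter_subset _ _)
          fun _ _ _ => abs_nonneg _).trans (Finset.sum_le_sum fun i hi => ?_)
        have h8 := isW_abs_le (fun b hb => hb.2) ((h2 u).wt _ (hT1 u i hi).1) a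
        rw [cut_apply]
        split_ifs
        · exact h8
        · rw [abs_zero]; positivity
      have h9 : (0 : ℚ) ≤ ∑ i ∈ T u, ((mq i : ℚ))⁻¹ := Finset.sum_nonneg fun _ _ => by positivity
      calc |ε u| * |(Crest.Agent.R114.piece (L u) (E' u) (J u)) a| ≤ 1 * ∑ i ∈ T u, ((mq i : ℚ))⁻¹ :=
            mul_le_mul (h1 u) h7 (abs_nonneg _) zero_le_one
        _ = _ := one_mul _
    refine (Finset.abs_sum_le_sum_abs _ _).trans ((Finset.sum_le_sum fun u _ => hpiece u).trans ?_)
    rw [← Finset.sum_biUnion (fun u _ v _ huv => hT2 u v huv)]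
    have h10 := sum_inv_mq_le 0 (Finset.univ.biUnion T) (fun _ _ => Nat.zero_le _)
    have h11 : (∑ i ∈ Finset.univ.biUnion T, ((mq i : ℚ))⁻¹ : ℚ) ≤ 2 * ((mq 0 : ℚ))⁻¹ := by
      have : ((∑ i ∈ Finset.univ.biUnion T, ((mq i : ℚ))⁻¹ : ℚ) : ℝ) ≤
          ((2 * ((mq 0 : ℚ))⁻¹ : ℚ) : ℝ) := by
        push_cast
        exact h10
      exact_mod_cast this
    refine h11.trans ?_
    norm_num [mq]

theorem IsW.abs_le {b : I →₀ ℚ} {j : ℕ} (hb : IsW (NB c) j b) (a : I) :
    |b a| ≤ ((mq j : ℚ))⁻¹ := isW_abs_le (fun _ hb => hb.abs_le_one) hb a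

/-- the elements of a piece with index in an order-connected set form an interval part of the
list; in particular `J` can be replaced by a smaller `E`. -/
theorem piece_eq_univ {L : SList I} {B : (I →₀ ℚ) → Prop} (hL : IsSpecial c B L) {E : Set I}
    (hE : E.OrdConnected) {J : Set ℕ} (hJ : J.OrdConnected) :
    ∃ E' : Set I, E'.OrdConnected ∧ E' ⊆ E ∧ piece L E J = piece L E' univ := by
  classical
  let U : Set I := {a | ∃ p ∈ L, p.2 ∈ J ∧ p.1 a ≠ 0}
  let H : Set I := {a | (∃ b ∈ U, b ≤ a) ∧ ∃ b ∈ U, a ≤ b}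
  have hH : H.OrdConnected := by
    refine ⟨fun a ha b hb z hz => ⟨?_, ?_⟩⟩
    · obtain ⟨b', h1, h2⟩ := ha.1
      exact ⟨b', h1, h2.trans hz.1⟩
    · obtain ⟨b', h1, h2⟩ := hb.2
      exact ⟨b', h1, hz.2.trans h2⟩
  refine ⟨E ∩ H, hE.inter hH, inter_subset_left, ?_⟩
  have key : ∀ p ∈ L, ∀ a, p.1 a ≠ 0 → (a ∈ H ↔ p.2 ∈ J) := by
    intro p hp a ha
    constructor
    · rintro ⟨⟨b, ⟨p1, hp1, hJ1, hb1⟩, hba⟩, ⟨b', ⟨p2, hp2, hJ2, hb2⟩, hab⟩⟩
      obtain ⟨l, hl, rfl⟩ := List.getElem_of_mem hp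
      obtain ⟨l1, hl1, rfl⟩ := List.getElem_of_mem hp1
      obtain ⟨l2, hl2, rfl⟩ := List.getElem_of_mem hp2
      have h1 : l1 ≤ l := by
        by_contra hlt
        exact absurd (hL.coded.succ l l1 (not_le.1 hlt) hl1 a (Finsupp.mem_support_iff.2 ha) b
          (Finsupp.mem_support_iff.2 hb1)) (not_lt.2 hba)
      have h2 : l ≤ l2 := by
        by_contra hlt
        exact absurd (hL.coded.succ l2 l (not_le.1 hlt) hl b' (Finsupp.mem_support_iff.2 hb2) a
          (Finsupp.mem_support_iff.2 ha)) (not_lt.2 hab)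
      have h3 : (L[l1]).2 ≤ (L[l]).2 := by
        rcases h1.lt_or_eq with h | h
        · exact (hL.coded.idx_lt h hl).le
        · subst h; exact le_rfl
      have h4 : (L[l]).2 ≤ (L[l2]).2 := by
        rcases h2.lt_or_eq with h | h
        · exact (hL.coded.idx_lt h hl2).le
        · subst h; exact le_rfl
      exact hJ.out hJ1 hJ2 ⟨h3, h4⟩
    · intro h
      exact ⟨⟨a, ⟨p, hp, h, ha⟩, le_rfl⟩, ⟨a, ⟨p, hp, h, ha⟩, le_rfl⟩⟩
  have hgen : ∀ L' : SList I, (∀ p ∈ L', p ∈ L) →
      Crest.Agent.R114.cut E ((L'.filter fun p => decide (p.2 ∈ J)).map Prod.fst).sum =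
      Crest.Agent.R114.cut (E ∩ H) ((L'.filter fun p => decide (p.2 ∈ univ)).map Prod.fst).sum := by
    intro L' hL'
    induction L' with
    | nil => simp [cut_zero]
    | cons p L' ih =>
      have ih' := ih fun q hq => hL' q (List.mem_cons_of_mem _ hq)
      have h5 : ∀ a, p.1 a ≠ 0 → (a ∈ H ↔ p.2 ∈ J) := key p (hL' p (by simp))
      rw [List.filter_cons, List.filter_cons]
      have h6 : decide (p.2 ∈ (univ : Set ℕ)) = true := by simp
      rw [if_pos h6, List.map_cons, List.sum_cons, cut_add, ← ih']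
      by_cases h7 : p.2 ∈ J
      · rw [if_pos (by simpa using h7), List.map_cons, List.sum_cons, cut_add]
        congr 1
        ext a
        rw [cut_apply, cut_apply]
        by_cases h8 : p.1 a = 0
        · simp [h8]
        · have := (h5 a h8).2 h7
          by_cases h9 : a ∈ E <;> simp [h9, this]
      · rw [if_neg (by simpa using h7)]
        have : Crest.Agent.R114.cut (E ∩ H) p.1 = 0 := by
          ext a
          rw [cut_apply]
          by_cases h8 : p.1 a = 0
          · simp [h8]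
          · have h9 : a ∉ H := fun h => h7 ((h5 a h8).1 h)
            rw [if_neg (fun h => h9 h.2)]; rfl
        rw [this, zero_add]
  unfold piece
  convert hgen L fun p hp => hp

end NBlemmas

end Crest.Agent.R114
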