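import Crest.Agent.R114.VDefs
import Mathlib
import Crest.Agent.R130.AtomlessMap
import Crest.Agent.R114.SepQuot

-- ▼ part R114/VT1
section

/-!
Row 114, S0153, T1: functionals with norms tending to infinity that tend to zero on a dense set
give a separable infinite-dimensional quotient.
-/

set_option autoImplicit false

open Filter Topology

namespace Crest.Agent.R114.V

universe u
variable {𝕜 : Type} [RCLike 𝕜] {X : Type u} [NormedAddCommGroup X] [NormedSpace 𝕜 X]

namespace T1aux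

/-- points at which the functionals tend to zero -/
def DD (f : ℕ → X →L[𝕜] 𝕜) : Submodule 𝕜 X where
  carrier := {x : X | Tendsto (fun n => f n x) atTop (𝓝 0)}
  add_mem' := by
    intro a b ha hb
    have := Tendsto.add (f := fun n => f n a) (g := fun n => f n b) ha hb
    simpa using this
  zero_mem' := by simp
  smul_mem' := by
    intro c x hx
    have := Tendsto.const_mul (f := fun n => f n x) c hx
    simpa using this

theorem mem_DD {f : ℕ → X →L[𝕜] 𝕜} {x : X} :
    x ∈ DD f ↔ Tendsto (fun n => f n x) atTop (𝓝 0) := Iff.rfl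

/-- a functional of large norm is large at some point of the dense subspace in the unit ball -/
theorem exists_large {f : ℕ → X →L[𝕜] 𝕜} (hD : Dense (DD f : Set X)) (g : X →L[𝕜] 𝕜) {r : ℝ}
    (hr : 0 ≤ r) (hg : r < ‖g‖) : ∃ y ∈ DD f, ‖y‖ ≤ 1 ∧ r < ‖g y‖ := by
  obtain ⟨x, hx1, hx2⟩ := g.exists_lt_apply_of_lt_opNorm hg
  have hopen : IsOpen {y : X | ‖y‖ < 1 ∧ r < ‖g y‖} :=
    (isOpen_lt continuous_norm continuous_const).inter
      (isOpen_lt continuous_const (continuous_norm.comp g.continuous))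
  obtain ⟨y, hy, hyD⟩ := hD.exists_mem_open hopen ⟨x, hx1, hx2⟩
  exact ⟨y, hy, hyD.1.le, hyD.2⟩

theorem exists_proj {f : ℕ → X →L[𝕜] 𝕜} (hf : Tendsto (fun n => ‖f n‖) atTop atTop)
    (hD : Dense (DD f : Set X)) (F : Finset ℕ) :
    ∃ P : X →L[𝕜] X, (∀ x ∈ DD f, P x ∈ DD f) ∧ (∀ n ∈ F, ∀ x, f n (P x) = 0) ∧
      Tendsto (fun m => ‖(f m).comp P‖) atTop atTop := by
  classical
  induction F using Finset.induction_on with
  | empty =>
    refine ⟨ContinuousLinearMap.id 𝕜 X, fun x hx => hx, by simp, ?_⟩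
    simpa using hf
  | insert n F hn ih =>
    obtain ⟨P, hP1, hP2, hP3⟩ := ih
    by_cases h0 : (f n).comp P = 0
    · refine ⟨P, hP1, ?_, hP3⟩
      intro m hm x
      rcases Finset.mem_insert.mp hm with rfl | hm
      · have := DFunLike.congr_fun h0 x
        simpa using this
      · exact hP2 m hm x
    · obtain ⟨y, hyD, _, hy⟩ := exists_large hD ((f n).comp P) le_rfl (norm_pos_iff.mpr h0)
      have hy0 : f n (P y) ≠ 0 := norm_pos_iff.mp hy
      set v : X := (f n (P y))⁻¹ • P y with hv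
      have hvD : v ∈ DD f := (DD f).smul_mem _ (hP1 y hyD)
      have hv1 : f n v = 1 := by
        rw [hv, map_smul, smul_eq_mul, inv_mul_cancel₀ hy0]
      refine ⟨P - ((f n).comp P).smulRight v, ?_, ?_, ?_⟩
      · intro x hx
        have : (P - ((f n).comp P).smulRight v) x = P x - (f n (P x)) • v := by simp
        rw [this]
        exact (DD f).sub_mem (hP1 x hx) ((DD f).smul_mem _ hvD)
      · intro m hm x
        have : (P - ((f n).comp P).smulRight v) x = P x - (f n (P x)) • v := by simp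
        rw [this, map_sub, map_smul, smul_eq_mul]
        rcases Finset.mem_insert.mp hm with rfl | hm
        · rw [hv1, mul_one, sub_self]
        · have h1 : f m v = 0 := by rw [hv, map_smul, hP2 m hm, smul_zero]
          rw [hP2 m hm, h1, mul_zero, sub_zero]
      · have hlim : Tendsto (fun m => ‖f m v‖ * ‖(f n).comp P‖) atTop (𝓝 0) := by
          have h1 : Tendsto (fun m => ‖f m v‖) atTop (𝓝 0) := by
            have := (mem_DD.mp hvD).norm
            simpa using this
          have := h1.mul_const ‖(f n).comp P‖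
          simpa using this
        have hlow : ∀ m, ‖(f m).comp P‖ + -(‖f m v‖ * ‖(f n).comp P‖) ≤
            ‖(f m).comp (P - ((f n).comp P).smulRight v)‖ := by
          intro m
          have h1 : (f m).comp P = (f m).comp (P - ((f n).comp P).smulRight v) +
              (f m v) • ((f n).comp P) := by
            ext x
            simp [mul_comm]
          have h2 : ‖(f m).comp P‖ ≤ ‖(f m).comp (P - ((f n).comp P).smulRight v)‖ +
              ‖f m v‖ * ‖(f n).comp P‖ := by
            calc ‖(f m).comp P‖ = ‖(f m).comp (P - ((f n).comp P).smulRight v) +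
                  (f m v) • ((f n).comp P)‖ := by rw [← h1]
              _ ≤ _ := norm_add_le _ _
              _ = _ := by rw [norm_smul]
          linarith
        have hneg : Tendsto (fun m => -(‖f m v‖ * ‖(f n).comp P‖)) atTop (𝓝 0) := by
          simpa using hlim.neg
        exact tendsto_atTop_mono hlow (hP3.atTop_add hneg)

/-- the selection step -/
theorem exists_step {f : ℕ → X →L[𝕜] 𝕜} (hf : Tendsto (fun n => ‖f n‖) atTop atTop)
    (hD : Dense (DD f : Set X)) (s : Finset (ℕ × X × ℝ))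
    (hs : ∀ p ∈ s, p.2.1 ∈ DD f ∧ 0 < p.2.2) :
    ∃ q : ℕ × X × ℝ, (q.2.1 ∈ DD f ∧ f q.1 q.2.1 = 1 ∧ ‖q.2.1‖ ≤ q.2.2 ∧ 0 < q.2.2 ∧ q.2.2 ≤ 1) ∧
      ∀ p ∈ s, f p.1 q.2.1 = 0 ∧ ‖f q.1 p.2.1‖ ≤ q.2.2 ∧ q.2.2 ≤ p.2.2 / 8 := by
  classical
  -- the size
  obtain ⟨ε, hε0, hε1, hεs⟩ : ∃ ε : ℝ, 0 < ε ∧ ε ≤ 1 ∧ ∀ p ∈ s, ε ≤ p.2.2 / 8 := by
    clear hf hD
    induction s using Finset.induction_on with
    | empty => exact ⟨1, one_pos, le_rfl, by simp⟩
    | insert a s ha ih =>
      obtain ⟨ε, h0, h1, h2⟩ := ih (fun p hp => hs p (Finset.mem_insert_of_mem hp))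
      have ha0 := (hs a (Finset.mem_insert_self a s)).2
      refine ⟨min ε (a.2.2 / 8), lt_min h0 (by positivity), (min_le_left _ _).trans h1, ?_⟩
      intro p hp
      rcases Finset.mem_insert.mp hp with rfl | hp
      · exact min_le_right _ _
      · exact (min_le_left _ _).trans (h2 p hp)
  obtain ⟨P, hP1, hP2, hP3⟩ := exists_proj hf hD (s.image fun p => p.1)
  have hK : 0 < ‖P‖ + 1 := by positivity
  have hev1 : ∀ᶠ m in atTop, (‖P‖ + 1) / ε < ‖(f m).comp P‖ := hP3.eventually_gt_atTop _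
  have hev2 : ∀ᶠ m in atTop, ∀ p ∈ s, ‖f m p.2.1‖ ≤ ε := by
    rw [Filter.eventually_all_finset]
    intro p hp
    have h1 : Tendsto (fun m => ‖f m p.2.1‖) atTop (𝓝 0) := by
      have := (mem_DD.mp (hs p hp).1).norm
      simpa using this
    exact (h1.eventually_lt_const hε0).mono fun m hm => hm.le
  obtain ⟨m, hm1, hm2⟩ := (hev1.and hev2).exists
  obtain ⟨y, hyD, hy1, hy2⟩ := exists_large hD ((f m).comp P) (by positivity) hm1
  have hy2' : (‖P‖ + 1) / ε < ‖f m (P y)‖ := hy2
  have hpos : 0 < ‖f m (P y)‖ := lt_trans (by positivity) hy2'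
  have hy0 : f m (P y) ≠ 0 := norm_pos_iff.mp hpos
  refine ⟨(m, (f m (P y))⁻¹ • P y, ε), ⟨?_, ?_, ?_, hε0, hε1⟩, ?_⟩
  · exact (DD f).smul_mem _ (hP1 y hyD)
  · simp only [map_smul, smul_eq_mul]
    exact inv_mul_cancel₀ hy0
  · simp only
    rw [norm_smul, norm_inv]
    have h1 : ‖P y‖ ≤ ‖P‖ + 1 := by
      calc ‖P y‖ ≤ ‖P‖ * ‖y‖ := P.le_opNorm y
        _ ≤ ‖P‖ * 1 := mul_le_mul_of_nonneg_left hy1 (norm_nonneg _)
        _ ≤ ‖P‖ + 1 := by linarith
    have h2 : ‖P‖ + 1 ≤ ε * ‖f m (P y)‖ := by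
      have := (div_lt_iff₀ hε0).mp hy2'
      linarith
    rw [inv_mul_le_iff₀ hpos]
    linarith
  · intro p hp
    refine ⟨?_, hm2 p hp, hεs p hp⟩
    simp only [map_smul]
    rw [hP2 p.1 (Finset.mem_image_of_mem _ hp), smul_zero]

end T1aux

open T1aux

theorem T1 [CompleteSpace X] (f : ℕ → X →L[𝕜] 𝕜)
    (hf : Tendsto (fun n => ‖f n‖) atTop atTop)
    (hD : Dense {x : X | Tendsto (fun n => f n x) atTop (𝓝 0)}) : SQ 𝕜 X := by
  classical
  have hD' : Dense (DD f : Set X) := hD
  obtain ⟨s, hs1, hs2⟩ := exists_seq_of_forall_finset_exists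
    (fun q : ℕ × X × ℝ => q.2.1 ∈ DD f ∧ f q.1 q.2.1 = 1 ∧ ‖q.2.1‖ ≤ q.2.2 ∧ 0 < q.2.2 ∧
      q.2.2 ≤ 1)
    (fun p q : ℕ × X × ℝ => f p.1 q.2.1 = 0 ∧ ‖f q.1 p.2.1‖ ≤ q.2.2 ∧ q.2.2 ≤ p.2.2 / 8)
    (fun s hs => exists_step hf hD' s fun p hp => ⟨(hs p hp).1, (hs p hp).2.2.2.1⟩)
  set N : ℕ → ℕ := fun k => (s k).1 with hN
  set x : ℕ → X := fun k => (s k).2.1 with hx
  have hxD : ∀ k, x k ∈ DD f := fun k => (hs1 k).1
  have hx1 : ∀ k, f (N k) (x k) = 1 := fun k => (hs1 k).2.1
  have hε : ∀ k, (s k).2.2 ≤ (1 / 8) ^ k := by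
    intro k
    induction k with
    | zero => simpa using (hs1 0).2.2.2.2
    | succ k ih =>
      have := (hs2 k (k + 1) (Nat.lt_succ_self k)).2.2
      rw [pow_succ]
      linarith
  have hxn : ∀ k, ‖x k‖ ≤ (1 / 8) ^ k := fun k => (hs1 k).2.2.1.trans (hε k)
  have hzero : ∀ j k, j < k → f (N j) (x k) = 0 := fun j k h => (hs2 j k h).1
  have hsmall : ∀ j k, j < k → ‖f (N k) (x j)‖ ≤ (1 / 8) ^ k := fun j k h =>
    (hs2 j k h).2.1.trans (hε k)
  -- the subspace
  set M : Submodule 𝕜 X := ⨅ k, LinearMap.ker (f (N k) : X →ₗ[𝕜] 𝕜) with hM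
  have hMmem : ∀ y, y ∈ M ↔ ∀ k, f (N k) y = 0 := by
    intro y
    simp [hM, Submodule.mem_iInf]
  have hMc : IsClosed (M : Set X) := by
    have : (M : Set X) = ⋂ k, {y | f (N k) y = 0} := by
      ext y
      simp [hMmem]
    rw [this]
    exact isClosed_iInter fun k => isClosed_eq (f (N k)).continuous continuous_const
  refine ⟨M, hMc, ?_, ?_⟩
  · -- separability
    -- decomposition of elements of `D`
    have hdec : ∀ d ∈ DD f, ∃ z ∈ closure (Submodule.span 𝕜 (Set.range x) : Set X), d - z ∈ M := by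
      intro d hd
      -- boundedness
      obtain ⟨B, hB⟩ : ∃ B : ℝ, ∀ n, ‖f n d‖ ≤ B := by
        have h1 : Tendsto (fun n => ‖f n d‖) atTop (𝓝 0) := by
          simpa using (mem_DD.mp hd).norm
        obtain ⟨B, hB⟩ := h1.bddAbove_range
        exact ⟨B, fun n => hB ⟨n, rfl⟩⟩
      have hB0 : 0 ≤ B := (norm_nonneg _).trans (hB 0)
      -- coefficients
      let a : ℕ → 𝕜 := fun k => Nat.strongRecOn (motive := fun _ => 𝕜) k fun k rec =>
        f (N k) d - ∑ j : Fin k, rec j.1 j.2 * f (N k) (x j.1)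
      have ha : ∀ k, a k = f (N k) d - ∑ j ∈ Finset.range k, a j * f (N k) (x j) := by
        intro k
        have h1 : a k = f (N k) d - ∑ j : Fin k, a j.1 * f (N k) (x j.1) := by
          simp only [a]
          rw [Nat.strongRecOn_eq]
        rw [h1, Finset.sum_range]
      have hab : ∀ k, ‖a k‖ ≤ 2 * B := by
        intro k
        induction k using Nat.strong_induction_on with
        | _ k ih =>
          rw [ha k]
          have h1 : ‖∑ j ∈ Finset.range k, a j * f (N k) (x j)‖ ≤ k * (2 * B * (1 / 8) ^ k) := by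
            refine (norm_sum_le _ _).trans ?_
            refine (Finset.sum_le_card_nsmul _ _ (2 * B * (1 / 8) ^ k) fun j hj => ?_).trans
              (le_of_eq ?_)
            · rw [norm_mul]
              have hj' := Finset.mem_range.mp hj
              exact mul_le_mul (ih j hj') (hsmall j k hj') (norm_nonneg _) (by positivity)
            · rw [Finset.card_range, nsmul_eq_mul]
          have h2 : (k : ℝ) * (2 * B * (1 / 8) ^ k) ≤ B := by
            have h3 : (k : ℝ) * (1 / 8) ^ k ≤ 1 / 2 := by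
              have h4 : (k : ℝ) * 2 ≤ 8 ^ k := by
                have h5 : k * 2 ≤ 8 ^ k := by
                  clear ih h1
                  induction k with
                  | zero => simp
                  | succ k ih =>
                    have h6 : 1 ≤ 8 ^ k := Nat.one_le_pow _ _ (by norm_num)
                    rw [pow_succ]; omega
                exact_mod_cast h5
              rw [one_div, inv_pow, ← div_eq_mul_inv, div_le_iff₀ (by positivity)]
              linarith
            calc (k : ℝ) * (2 * B * (1 / 8) ^ k) = 2 * B * ((k : ℝ) * (1 / 8) ^ k) := by ring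
              _ ≤ 2 * B * (1 / 2) := mul_le_mul_of_nonneg_left h3 (by positivity)
              _ = B := by ring
          calc ‖f (N k) d - ∑ j ∈ Finset.range k, a j * f (N k) (x j)‖
              ≤ ‖f (N k) d‖ + ‖∑ j ∈ Finset.range k, a j * f (N k) (x j)‖ := norm_sub_le _ _
            _ ≤ B + B := add_le_add (hB _) (h1.trans h2)
            _ = 2 * B := by ring
      have hsum : Summable fun k => a k • x k := by
        refine Summable.of_norm_bounded (g := fun k => 2 * B * (1 / 8) ^ k)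
          ((summable_geometric_of_lt_one (by norm_num) (by norm_num)).mul_left _) fun k => ?_
        rw [norm_smul]
        exact mul_le_mul (hab k) (hxn k) (norm_nonneg _) (by positivity)
      refine ⟨∑' k, a k • x k, ?_, ?_⟩
      · have hlim := hsum.hasSum.tendsto_sum_nat
        refine mem_closure_of_tendsto hlim (Eventually.of_forall fun n => ?_)
        exact Submodule.sum_mem _ fun k _ => Submodule.smul_mem _ _
          (Submodule.subset_span ⟨k, rfl⟩)
      · rw [hMmem]
        intro k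
        rw [map_sub, (f (N k)).map_tsum hsum]
        have h1 : ∑' j, f (N k) (a j • x j) =
            ∑ j ∈ Finset.range (k + 1), f (N k) (a j • x j) := by
          refine tsum_eq_sum fun j hj => ?_
          have hjk : k < j := by
            by_contra h
            exact hj (Finset.mem_range.mpr (by omega))
          rw [map_smul, hzero k j hjk, smul_zero]
        rw [h1, Finset.sum_range_succ, map_smul, hx1 k, smul_eq_mul, mul_one, ha k]
        simp only [map_smul, smul_eq_mul]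
        ring
    -- density
    have hcount : Dense (Submodule.span 𝕜 (Set.range fun k => M.mkQ (x k)) : Set (X ⧸ M)) := by
      have hcont : Continuous (M.mkQ : X → X ⧸ M) := continuous_quot_mk
      have hsurj : Function.Surjective (M.mkQ : X → X ⧸ M) := M.mkQ_surjective
      have h1 : Dense ((M.mkQ : X → X ⧸ M) '' (DD f : Set X)) := hsurj.denseRange.dense_image hcont hD'
      have h2 : (M.mkQ : X → X ⧸ M) '' (DD f : Set X) ⊆
          closure (Submodule.span 𝕜 (Set.range fun k => M.mkQ (x k)) : Set (X ⧸ M)) := by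
        rintro _ ⟨d, hd, rfl⟩
        obtain ⟨z, hz, hdz⟩ := hdec d hd
        have h3 : M.mkQ d = M.mkQ z := by
          rw [← sub_eq_zero, ← map_sub]
          exact (Submodule.Quotient.mk_eq_zero M).mpr hdz
        rw [h3]
        have h4 : M.mkQ z ∈ closure ((M.mkQ : X → X ⧸ M) ''
            (Submodule.span 𝕜 (Set.range x) : Set X)) :=
          image_closure_subset_closure_image hcont ⟨z, hz, rfl⟩
        refine closure_mono ?_ h4
        rintro _ ⟨w, hw, rfl⟩
        have h5 : M.mkQ w ∈ Submodule.map M.mkQ (Submodule.span 𝕜 (Set.range x)) :=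
          Submodule.mem_map_of_mem hw
        rw [Submodule.map_span, ← Set.range_comp] at h5
        exact h5
      intro q
      have h6 : closure ((M.mkQ : X → X ⧸ M) '' (DD f : Set X)) ⊆
          closure (Submodule.span 𝕜 (Set.range fun k => M.mkQ (x k)) : Set (X ⧸ M)) :=
        closure_minimal h2 isClosed_closure
      exact h6 (h1 q)
    have hsep : TopologicalSpace.IsSeparable
        (Submodule.span 𝕜 (Set.range fun k => M.mkQ (x k)) : Set (X ⧸ M)) :=
      (Set.countable_range _).isSeparable.span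
    have : TopologicalSpace.IsSeparable (Set.univ : Set (X ⧸ M)) := by
      rw [← hcount.closure_eq]
      exact hsep.closure
    exact TopologicalSpace.isSeparable_univ_iff.mp this
  · -- infinite dimension
    intro hfin
    have hli : LinearIndependent 𝕜 (fun k => M.mkQ (x k)) := by
      rw [linearIndependent_iff']
      intro t g hg
      by_contra hcon
      push Not at hcon
      obtain ⟨i, hit, hi0⟩ := hcon
      have hne : (t.filter fun i => g i ≠ 0).Nonempty :=
        ⟨i, Finset.mem_filter.mpr ⟨hit, hi0⟩⟩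
      set k := (t.filter fun i => g i ≠ 0).min' hne with hk
      have hkm := Finset.min'_mem _ hne
      rw [← hk, Finset.mem_filter] at hkm
      have hmem : ∑ i ∈ t, g i • x i ∈ M := by
        rw [← Submodule.Quotient.mk_eq_zero M]
        have : M.mkQ (∑ i ∈ t, g i • x i) = 0 := by
          rw [map_sum]
          simp only [map_smul]
          exact hg
        exact this
      have h1 := (hMmem _).mp hmem k
      rw [map_sum] at h1
      rw [Finset.sum_eq_single k] at h1
      · rw [map_smul, hx1 k, smul_eq_mul, mul_one] at h1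
        exact hkm.2 h1
      · intro j hj hjk
        by_cases hgj : g j = 0
        · rw [hgj, zero_smul, map_zero]
        · have hle : k ≤ j := Finset.min'_le _ _ (Finset.mem_filter.mpr ⟨hj, hgj⟩)
          have hlt : k < j := lt_of_le_of_ne hle (Ne.symm hjk)
          rw [map_smul, hzero k j hlt, smul_zero]
      · intro h
        exact absurd hkm.1 h
    exact not_finite_iff_infinite.mpr inferInstance hli.finite

end Crest.Agent.R114.V
end

-- ▼ part R114/VT2
section

/-!
Row 114, statement S0153, step T2: unit vectors of Dvoretzky--Rogers type in an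
infinite-dimensional normed space (and functionals on it).
-/

set_option autoImplicit false

open Filter Topology Crest.AnalysisR

namespace Crest.Agent.R114.V

universe u

variable {𝕜 : Type} [RCLike 𝕜] {X : Type u} [NormedAddCommGroup X] [NormedSpace 𝕜 X]

/-- the numerical inequality used in the determinant argument. -/
theorem T2_numeric {N k : ℕ} (hk : N < 4 * k)
    (h : ∀ t : ℝ, 0 < t → (1 + t) ^ k ≤ (1 + t / 4) ^ N) (hN : 0 < N) : False := by
  have hN' : (1 : ℝ) ≤ N := by exact_mod_cast hN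
  set t : ℝ := 2 / (N : ℝ) ^ 2 with ht
  have ht0 : 0 < t := by positivity
  have h1 := h t ht0
  have h2 : 1 + (k : ℝ) * t ≤ (1 + t) ^ k := one_add_mul_le_pow (by linarith) k
  have h3 : (1 + t / 4) ^ N ≤ Real.exp (N * (t / 4)) := by
    have := Real.add_one_le_exp (t / 4)
    calc (1 + t / 4) ^ N ≤ (Real.exp (t / 4)) ^ N := by
          apply pow_le_pow_left₀ (by positivity); linarith
      _ = Real.exp (N * (t / 4)) := by rw [← Real.exp_nat_mul]
  have hx : (N : ℝ) * (t / 4) = 1 / (2 * N) := by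
    rw [ht]; field_simp; norm_num
  have hx1 : |(N : ℝ) * (t / 4)| ≤ 1 := by
    rw [hx, abs_of_pos (by positivity), div_le_one (by positivity)]
    linarith
  have h4 := Real.abs_exp_sub_one_sub_id_le hx1
  have h5 := (abs_le.mp h4).2
  have hk' : (N : ℝ) + 1 ≤ 4 * k := by exact_mod_cast hk
  have h6 : (k : ℝ) * t ≤ N * (t / 4) + (N * (t / 4)) ^ 2 := by linarith
  have h7 : (N : ℝ) * (t / 4) + t / 4 ≤ k * t := by nlinarith
  have h8 : t / 4 ≤ (N * (t / 4)) ^ 2 := by linarith
  rw [hx, ht] at h8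
  have h9 : (2 / (N : ℝ) ^ 2 / 4) = 1 / (2 * (N : ℝ) ^ 2) := by field_simp; norm_num
  have h10 : (1 / (2 * (N : ℝ))) ^ 2 = 1 / (4 * (N : ℝ) ^ 2) := by
    field_simp; norm_num
  rw [h9, h10] at h8
  rw [div_le_div_iff₀ (by positivity) (by positivity)] at h8
  nlinarith [sq_nonneg (N : ℝ)]

theorem T2_step {F : Type u} [NormedAddCommGroup F] [NormedSpace 𝕜 F] {N : ℕ}
    (φ : F →L[𝕜] EuclideanSpace 𝕜 (Fin N)) (T : EuclideanSpace 𝕜 (Fin N) →L[𝕜] F)
    (hT : ‖T‖ ≤ 1) (hpos : 0 < ‖(φ.comp T).det‖)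
    (hmax : ∀ S : EuclideanSpace 𝕜 (Fin N) →L[𝕜] F, ‖S‖ ≤ 1 →
      ‖(φ.comp S).det‖ ≤ ‖(φ.comp T).det‖)
    {j : ℕ} (hj : 4 * j < 3 * N) (v : Fin j → EuclideanSpace 𝕜 (Fin N)) (hv : Orthonormal 𝕜 v) :
    ∃ e : EuclideanSpace 𝕜 (Fin N), ‖e‖ = 1 ∧ (∀ i, inner 𝕜 (v i) e = 0) ∧ 1 / 4 ≤ ‖T e‖ := by
  by_contra hcon
  push Not at hcon
  set W : Submodule 𝕜 (EuclideanSpace 𝕜 (Fin N)) := (Submodule.span 𝕜 (Set.range v))ᗮ with hW
  have hWmem : ∀ e, e ∈ W ↔ ∀ i, inner 𝕜 (v i) e = 0 := by
    intro e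
    rw [hW, Submodule.mem_orthogonal]
    constructor
    · intro h i
      exact h _ (Submodule.subset_span ⟨i, rfl⟩)
    · intro h u hu
      induction hu using Submodule.span_induction with
      | mem x hx => obtain ⟨i, rfl⟩ := hx; exact h i
      | zero => simp
      | add x y _ _ hx hy => rw [inner_add_left, hx, hy, add_zero]
      | smul a x _ hx => rw [inner_smul_left, hx, mul_zero]
  have hsmall : ∀ e ∈ W, ‖T e‖ ≤ ‖e‖ / 4 := by
    intro e he
    by_cases he0 : e = 0
    · simp [he0]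
    have hne : ‖e‖ ≠ 0 := by simpa using he0
    have h1 : ‖((‖e‖ : 𝕜)⁻¹ • e)‖ = 1 := by
      rw [norm_smul, norm_inv, RCLike.norm_ofReal, abs_of_nonneg (norm_nonneg _),
        inv_mul_cancel₀ hne]
    have h2 := hcon _ h1 (fun i => by
      rw [inner_smul_right, (hWmem e).1 he i, mul_zero])
    rw [map_smul, norm_smul, norm_inv, RCLike.norm_ofReal, abs_of_nonneg (norm_nonneg _)] at h2
    rw [inv_mul_lt_iff₀ (by positivity)] at h2
    linarith
  set P : EuclideanSpace 𝕜 (Fin N) →L[𝕜] EuclideanSpace 𝕜 (Fin N) := W.starProjection with hP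
  have hPn : ∀ x, ‖P x‖ ≤ ‖x‖ := by
    intro x
    have := P.le_opNorm x
    have h2 : ‖P‖ ≤ 1 := W.starProjection_norm_le
    nlinarith [norm_nonneg x]
  have hPm : ∀ x, P x ∈ W := fun x => Submodule.starProjection_apply_mem W x
  -- orthonormal basis extending `v`
  have hjN : j ≤ N := by omega
  obtain ⟨b, hb⟩ : ∃ b : OrthonormalBasis (Fin N) 𝕜 (EuclideanSpace 𝕜 (Fin N)),
      ∀ (i : Fin N) (hi : (i : ℕ) < j), b i = v ⟨i, hi⟩ := by
    set v' : Fin N → EuclideanSpace 𝕜 (Fin N) := fun i => if h : (i : ℕ) < j then v ⟨i, h⟩ else 0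
      with hv'
    have hcard : Module.finrank 𝕜 (EuclideanSpace 𝕜 (Fin N)) = Fintype.card (Fin N) := by
      simp
    have hon : Orthonormal 𝕜 (Set.domRestrict {i : Fin N | (i : ℕ) < j} v') := by
      have : Set.domRestrict {i : Fin N | (i : ℕ) < j} v' =
          v ∘ (fun i : {i : Fin N | (i : ℕ) < j} => (⟨(i : Fin N), i.2⟩ : Fin j)) := by
        funext i
        have : ((i : Fin N) : ℕ) < j := i.2
        simp [Set.domRestrict, hv', this]
      rw [this]
      refine hv.comp _ ?_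
      intro a b hab
      simp only [Fin.mk.injEq] at hab
      exact Subtype.ext (Fin.ext hab)
    obtain ⟨b, hb⟩ := Orthonormal.exists_orthonormalBasis_extension_of_card_eq hcard hon
    refine ⟨b, fun i hi => ?_⟩
    rw [hb i hi, hv']
    simp [hi]
  have hPb : ∀ i : Fin N, P (b i) = if (i : ℕ) < j then 0 else b i := by
    intro i
    split_ifs with hi
    · rw [hP, Submodule.starProjection_apply_eq_zero_iff, hW, Submodule.mem_orthogonal]
      intro u hu
      rw [Submodule.mem_orthogonal'] at hu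
      rw [hb i hi]
      exact hu _ (Submodule.subset_span ⟨_, rfl⟩)
    · rw [hP, Submodule.starProjection_eq_self_iff, hWmem]
      intro l
      have hl : (l : ℕ) < N := lt_of_lt_of_le l.2 hjN
      have := hb ⟨l, hl⟩ l.2
      simp only [Fin.eta] at this
      rw [← this]
      rw [b.orthonormal.2]
      intro hcon
      apply hi
      rw [← hcon]
      exact l.2
  have key : ∀ t : ℝ, 0 < t → (1 + t) ^ (N - j) ≤ (1 + t / 4) ^ N := by
    intro t ht
    set U : EuclideanSpace 𝕜 (Fin N) →L[𝕜] EuclideanSpace 𝕜 (Fin N) :=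
      ContinuousLinearMap.id 𝕜 _ + (t : 𝕜) • P with hU
    have hUdet : LinearMap.det (U : EuclideanSpace 𝕜 (Fin N) →ₗ[𝕜] EuclideanSpace 𝕜 (Fin N)) =
        ((1 + t : ℝ) : 𝕜) ^ (N - j) := by
      rw [← LinearMap.det_toMatrix b.toBasis]
      have hM : LinearMap.toMatrix b.toBasis b.toBasis
          (U : EuclideanSpace 𝕜 (Fin N) →ₗ[𝕜] EuclideanSpace 𝕜 (Fin N)) =
          Matrix.diagonal (fun i : Fin N => if (i : ℕ) < j then (1 : 𝕜) else ((1 + t : ℝ) : 𝕜)) := by
        ext i l
        rw [LinearMap.toMatrix_apply]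
        have hUb : U (b l) = (if (l : ℕ) < j then (1 : 𝕜) else ((1 + t : ℝ) : 𝕜)) • b l := by
          simp only [hU, add_apply, ContinuousLinearMap.id_apply, smul_apply, hPb]
          split_ifs with h
          · simp
          · simp [add_smul]
        simp only [OrthonormalBasis.coe_toBasis, ContinuousLinearMap.coe_coe, hUb, map_smul,
          Finsupp.smul_apply, smul_eq_mul]
        rw [← b.coe_toBasis, Module.Basis.repr_self, Matrix.diagonal_apply, Finsupp.single_apply]
        by_cases hil : i = l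
        · subst hil; simp
        · have : ¬ l = i := fun h => hil h.symm
          simp [hil, this]
      rw [hM, Matrix.det_diagonal, Finset.prod_ite]
      simp only [Finset.prod_const_one, Finset.prod_const, one_mul]
      congr 1
      have : (Finset.univ.filter (fun i : Fin N => ¬ (i : ℕ) < j)).card = N - j := by
        have h1 : (Finset.univ.filter (fun i : Fin N => ¬ (i : ℕ) < j)).card =
          ((Finset.univ.filter (fun i : Fin N => ¬ (i : ℕ) < j)).map Fin.valEmbedding).card := by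
          rw [Finset.card_map]
        rw [h1]
        have h2 : (Finset.univ.filter (fun i : Fin N => ¬ (i : ℕ) < j)).map Fin.valEmbedding =
          Finset.Ico j N := by
          ext x
          simp only [Finset.mem_map, Finset.mem_filter, Finset.mem_univ, true_and,
            Fin.valEmbedding_apply, Finset.mem_Ico]
          constructor
          · rintro ⟨a, ha, rfl⟩
            exact ⟨by omega, a.2⟩
          · rintro ⟨h1, h2⟩
            exact ⟨⟨x, h2⟩, by simpa using h1, rfl⟩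
        rw [h2, Nat.card_Ico]
      exact this
    set r : ℝ := 1 + t / 4 with hr
    have hr0 : 0 < r := by positivity
    set S : EuclideanSpace 𝕜 (Fin N) →L[𝕜] F := ((r : 𝕜)⁻¹) • (T.comp U) with hS
    have hSn : ‖S‖ ≤ 1 := by
      refine ContinuousLinearMap.opNorm_le_bound _ zero_le_one ?_
      intro x
      have hTx : ‖T (U x)‖ ≤ r * ‖x‖ := by
        have : U x = x + (t : 𝕜) • P x := by simp [hU]
        rw [this, map_add, map_smul]
        calc ‖T x + (t : 𝕜) • T (P x)‖ ≤ ‖T x‖ + ‖(t : 𝕜) • T (P x)‖ := norm_add_le _ _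
          _ ≤ ‖x‖ + t * (‖P x‖ / 4) := by
              rw [norm_smul, RCLike.norm_ofReal, abs_of_pos ht]
              have h1 : ‖T x‖ ≤ ‖x‖ := by
                have := T.le_opNorm x
                nlinarith [norm_nonneg x]
              have h2 := hsmall _ (hPm x)
              have h3 : t * ‖T (P x)‖ ≤ t * (‖P x‖ / 4) := by gcongr
              linarith
          _ ≤ ‖x‖ + t * (‖x‖ / 4) := by
              have := hPn x
              gcongr
          _ = r * ‖x‖ := by rw [hr]; ring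
      simp only [hS, smul_apply, ContinuousLinearMap.comp_apply, one_mul]
      rw [norm_smul, norm_inv, RCLike.norm_ofReal, abs_of_pos hr0,
        inv_mul_le_iff₀ hr0]
      exact hTx
    have h1 := hmax S hSn
    have h2 : (φ.comp S).det = ((r : 𝕜)⁻¹) ^ N * ((φ.comp T).det * ((1 + t : ℝ) : 𝕜) ^ (N - j)) := by
      have e1 : ((φ.comp S : EuclideanSpace 𝕜 (Fin N) →L[𝕜] EuclideanSpace 𝕜 (Fin N)) :
          EuclideanSpace 𝕜 (Fin N) →ₗ[𝕜] EuclideanSpace 𝕜 (Fin N)) =
          ((r : 𝕜)⁻¹) • (((φ.comp T : EuclideanSpace 𝕜 (Fin N) →L[𝕜] EuclideanSpace 𝕜 (Fin N)) :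
          EuclideanSpace 𝕜 (Fin N) →ₗ[𝕜] EuclideanSpace 𝕜 (Fin N)).comp
          (U : EuclideanSpace 𝕜 (Fin N) →ₗ[𝕜] EuclideanSpace 𝕜 (Fin N))) := by
        ext x
        simp [hS]
      unfold ContinuousLinearMap.det
      rw [e1, LinearMap.det_smul, LinearMap.det_comp, hUdet]
      simp
    rw [h2, norm_mul, norm_mul, norm_pow, norm_pow, norm_inv, RCLike.norm_ofReal,
      RCLike.norm_ofReal, abs_of_pos hr0, abs_of_pos (by positivity : (0:ℝ) < 1 + t)] at h1
    have h3 : r⁻¹ ^ N * (1 + t) ^ (N - j) ≤ 1 := by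
      have h4 : (r⁻¹ ^ N * (1 + t) ^ (N - j)) * ‖(φ.comp T).det‖ ≤ 1 * ‖(φ.comp T).det‖ := by
        rw [one_mul]
        calc _ = r⁻¹ ^ N * (‖(φ.comp T).det‖ * (1 + t) ^ (N - j)) := by ring
          _ ≤ _ := h1
      exact le_of_mul_le_mul_right h4 hpos
    rw [inv_pow, inv_mul_le_iff₀ (by positivity), mul_one] at h3
    exact h3
  exact T2_numeric (N := N) (k := N - j) (by omega) key (by omega)

/-- a determinant maximizer. -/
theorem T2_exists_max {F : Type u} [NormedAddCommGroup F] [NormedSpace 𝕜 F]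
    [FiniteDimensional 𝕜 F] {N : ℕ} (φ : F ≃L[𝕜] EuclideanSpace 𝕜 (Fin N)) :
    ∃ T : EuclideanSpace 𝕜 (Fin N) →L[𝕜] F, ‖T‖ ≤ 1 ∧
      0 < ‖((φ : F →L[𝕜] EuclideanSpace 𝕜 (Fin N)).comp T).det‖ ∧
      ∀ S : EuclideanSpace 𝕜 (Fin N) →L[𝕜] F, ‖S‖ ≤ 1 →
        ‖((φ : F →L[𝕜] EuclideanSpace 𝕜 (Fin N)).comp S).det‖ ≤
          ‖((φ : F →L[𝕜] EuclideanSpace 𝕜 (Fin N)).comp T).det‖ := by
  set D : (EuclideanSpace 𝕜 (Fin N) →L[𝕜] F) → ℝ := fun S =>
    ‖((φ : F →L[𝕜] EuclideanSpace 𝕜 (Fin N)).comp S).det‖ with hD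
  have hcont : Continuous D := by
    refine (ContinuousLinearMap.continuous_det.comp ?_).norm
    exact continuous_const.clm_comp continuous_id
  have : ProperSpace (EuclideanSpace 𝕜 (Fin N) →L[𝕜] F) := FiniteDimensional.proper 𝕜 _
  have hcomp : IsCompact (Metric.closedBall (0 : EuclideanSpace 𝕜 (Fin N) →L[𝕜] F) 1) :=
    isCompact_closedBall _ _
  obtain ⟨T, hT, hmax⟩ := hcomp.exists_isMaxOn ⟨0, by simp⟩ hcont.continuousOn
  have hmax' : ∀ S : EuclideanSpace 𝕜 (Fin N) →L[𝕜] F, ‖S‖ ≤ 1 → D S ≤ D T := by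
    intro S hS
    exact hmax (by simpa using hS)
  refine ⟨T, by simpa using hT, ?_, hmax'⟩
  -- positivity
  set r : ℝ := 1 + ‖(φ.symm : EuclideanSpace 𝕜 (Fin N) →L[𝕜] F)‖ with hr
  have hr0 : 0 < r := by positivity
  set S : EuclideanSpace 𝕜 (Fin N) →L[𝕜] F :=
    ((r : 𝕜)⁻¹) • (φ.symm : EuclideanSpace 𝕜 (Fin N) →L[𝕜] F) with hS
  have hSn : ‖S‖ ≤ 1 := by
    rw [hS, norm_smul, norm_inv, RCLike.norm_ofReal, abs_of_pos hr0, inv_mul_le_iff₀ hr0, mul_one,
      hr]
    linarith
  refine lt_of_lt_of_le ?_ (hmax' S hSn)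
  have e1 : (((φ : F →L[𝕜] EuclideanSpace 𝕜 (Fin N)).comp S :
        EuclideanSpace 𝕜 (Fin N) →L[𝕜] EuclideanSpace 𝕜 (Fin N)) :
      EuclideanSpace 𝕜 (Fin N) →ₗ[𝕜] EuclideanSpace 𝕜 (Fin N)) =
      ((r : 𝕜)⁻¹) • (LinearMap.id : EuclideanSpace 𝕜 (Fin N) →ₗ[𝕜] EuclideanSpace 𝕜 (Fin N)) := by
    ext x
    simp [hS]
  simp only [hD]
  unfold ContinuousLinearMap.det
  rw [e1, LinearMap.det_smul, LinearMap.det_id, mul_one, norm_pos_iff]
  apply pow_ne_zero
  apply inv_ne_zero
  exact_mod_cast hr0.ne'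

/-- The Dvoretzky--Rogers system in a finite-dimensional space. -/
theorem T2_system {F : Type u} [NormedAddCommGroup F] [NormedSpace 𝕜 F]
    [FiniteDimensional 𝕜 F] {N : ℕ} (hN : Module.finrank 𝕜 F = N) :
    ∃ T : EuclideanSpace 𝕜 (Fin N) →L[𝕜] F, ‖T‖ ≤ 1 ∧
      ∀ j : ℕ, 4 * j ≤ 3 * N → ∃ v : Fin j → EuclideanSpace 𝕜 (Fin N), Orthonormal 𝕜 v ∧
        ∀ i, 1 / 4 ≤ ‖T (v i)‖ := by
  have hfr : Module.finrank 𝕜 F = Module.finrank 𝕜 (EuclideanSpace 𝕜 (Fin N)) := by
    simp [hN]
  set φ : F ≃L[𝕜] EuclideanSpace 𝕜 (Fin N) := ContinuousLinearEquiv.ofFinrankEq hfr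
  obtain ⟨T, hT, hpos, hmax⟩ := T2_exists_max φ
  refine ⟨T, hT, ?_⟩
  intro j
  induction j with
  | zero =>
    intro _
    exact ⟨Fin.elim0, ⟨fun i => i.elim0, fun i => i.elim0⟩, fun i => i.elim0⟩
  | succ j ih =>
    intro hj
    obtain ⟨v, hv, hvT⟩ := ih (by omega)
    obtain ⟨e, he1, he2, he3⟩ := T2_step (φ : F →L[𝕜] EuclideanSpace 𝕜 (Fin N)) T hT hpos hmax
      (by omega) v hv
    refine ⟨Fin.snoc v e, ⟨?_, ?_⟩, ?_⟩
    · intro i
      refine Fin.lastCases ?_ (fun i => ?_) i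
      · simpa using he1
      · simpa using hv.1 i
    · intro a b
      refine Fin.lastCases ?_ (fun a => ?_) a
      · refine Fin.lastCases ?_ (fun b => ?_) b
        · intro h; exact absurd rfl h
        · intro _
          simp only [Fin.snoc_last, Fin.snoc_castSucc]
          exact inner_eq_zero_symm.1 (he2 b)
      · refine Fin.lastCases ?_ (fun b => ?_) b
        · intro _
          simp only [Fin.snoc_last, Fin.snoc_castSucc]
          exact he2 a
        · intro h
          simp only [Fin.snoc_castSucc]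
          exact hv.2 (fun hab => h (by rw [hab]))
    · intro i
      refine Fin.lastCases ?_ (fun i => ?_) i
      · simpa using he3
      · simpa using hvT i

theorem T2 {E : Type u} [NormedAddCommGroup E] [NormedSpace 𝕜 E] (hE : ¬ FiniteDimensional 𝕜 E)
    {ε : ℝ} (hε : 0 < ε) : ∃ (m : ℕ) (y : Fin m → E), 0 < m ∧ (∀ i, ‖y i‖ = 1) ∧
      ∀ c : Fin m → 𝕜, (∀ i, ‖c i‖ ≤ 1) → ‖∑ i, c i • y i‖ ≤ ε * m := by
  obtain ⟨M, hM⟩ := exists_nat_ge (16 / ε ^ 2)
  have hM' : 16 / ε ^ 2 ≤ ((3 * (M + 1) : ℕ) : ℝ) := by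
    push_cast
    have : (0 : ℝ) ≤ M := Nat.cast_nonneg M
    linarith
  have hrank : ((4 * (M + 1) : ℕ) : Cardinal) ≤ Module.rank 𝕜 E := by
    refine le_trans (Cardinal.natCast_lt_aleph0).le ?_
    by_contra h
    exact hE (Module.rank_lt_aleph0_iff.1 (not_le.1 h))
  obtain ⟨w, hw⟩ := exists_linearIndependent_of_le_rank hrank
  set F : Submodule 𝕜 E := Submodule.span 𝕜 (Set.range w) with hF
  have : FiniteDimensional 𝕜 F := FiniteDimensional.span_of_finite 𝕜 (Set.finite_range w)
  have hFr : Module.finrank 𝕜 F = 4 * (M + 1) := by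
    rw [hF, finrank_span_eq_card hw, Fintype.card_fin]
  obtain ⟨T, hT, hsys⟩ := T2_system hFr
  obtain ⟨m, hm⟩ : ∃ m : ℕ, m = 3 * (M + 1) := ⟨_, rfl⟩
  rw [← hm] at hM'
  obtain ⟨v, hv, hvT⟩ := hsys m (by omega)
  have hvT0 : ∀ i, 0 < ‖T (v i)‖ := fun i => lt_of_lt_of_le (by norm_num) (hvT i)
  refine ⟨m, fun i => ((((‖T (v i)‖ : ℝ) : 𝕜)⁻¹ • T (v i) : F) : E), by omega, ?_, ?_⟩
  · intro i
    beta_reduce
    rw [← Submodule.coe_norm, norm_smul, norm_inv, RCLike.norm_ofReal,
      abs_of_pos (hvT0 i), inv_mul_cancel₀ (hvT0 i).ne']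
  · intro c hc
    set a : Fin m → 𝕜 := fun i => c i * ((‖T (v i)‖ : ℝ) : 𝕜)⁻¹ with ha
    have ha4 : ∀ i, ‖a i‖ ≤ 4 := by
      intro i
      rw [ha]
      simp only [norm_mul, norm_inv, RCLike.norm_ofReal]
      rw [abs_of_pos (hvT0 i)]
      have h1 : (‖T (v i)‖)⁻¹ ≤ 4 := by
        rw [inv_le_comm₀ (hvT0 i) (by norm_num)]
        have := hvT i
        linarith
      calc ‖c i‖ * ‖T (v i)‖⁻¹ ≤ 1 * 4 := by
            apply mul_le_mul (hc i) h1 (by positivity) zero_le_one
        _ = 4 := by norm_num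
    have hsum : (∑ i, c i • ((((‖T (v i)‖ : ℝ) : 𝕜)⁻¹ • T (v i) : F) : E)) =
        ((T (∑ i, a i • v i) : F) : E) := by
      rw [map_sum, AddSubmonoidClass.coe_finsetSum]
      refine Finset.sum_congr rfl fun i _ => ?_
      rw [map_smul]
      simp only [Submodule.coe_smul, ha, smul_smul]
    rw [hsum, ← Submodule.coe_norm]
    have h1 : ‖T (∑ i, a i • v i)‖ ≤ ‖∑ i, a i • v i‖ := by
      have := T.le_opNorm (∑ i, a i • v i)
      nlinarith [norm_nonneg (∑ i, a i • v i)]
    have h2 : ‖∑ i, a i • v i‖ ^ 2 ≤ 16 * m := by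
      have h3 : ‖∑ i, a i • v i‖ ^ 2 = ∑ i, ‖a i‖ ^ 2 := by
        rw [@norm_sq_eq_re_inner 𝕜, hv.inner_sum]
        rw [map_sum]
        refine Finset.sum_congr rfl fun i _ => ?_
        rw [RCLike.conj_mul]
        norm_cast
      rw [h3]
      calc ∑ i, ‖a i‖ ^ 2 ≤ ∑ i : Fin m, (16 : ℝ) := by
            refine Finset.sum_le_sum fun i _ => ?_
            have := ha4 i
            have h0 := norm_nonneg (a i)
            nlinarith
        _ = 16 * m := by simp [mul_comm]
    have hm0 : (0 : ℝ) < m := by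
      have : 0 < m := by omega
      exact_mod_cast this
    have h3 : 16 * (m : ℝ) ≤ (ε * m) ^ 2 := by
      have h5 : 16 ≤ (m : ℝ) * ε ^ 2 := by
        rw [div_le_iff₀ (by positivity)] at hM'
        exact hM'
      nlinarith
    have h4 : ‖∑ i, a i • v i‖ ≤ ε * m := by
      apply le_of_sq_le_sq _ (by positivity)
      linarith
    linarith

theorem T2' (hX : ¬ FiniteDimensional 𝕜 X) {ε : ℝ} (hε : 0 < ε) :
    ∃ (m : ℕ) (h : Fin m → (X →L[𝕜] 𝕜)), 0 < m ∧ (∀ i, ‖h i‖ = 1) ∧
      ∀ x : X, ∑ i, ‖h i x‖ ≤ ε * m * ‖x‖ := by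
  have hE : ¬ FiniteDimensional 𝕜 (X →L[𝕜] 𝕜) := by
    intro hfin
    apply hX
    let L : X →ₗ[𝕜] ((X →L[𝕜] 𝕜) →L[𝕜] 𝕜) :=
      (NormedSpace.inclusionInDoubleDualLi (E := X) 𝕜).toLinearMap
    have hinj : Function.Injective L :=
      (NormedSpace.inclusionInDoubleDualLi (E := X) 𝕜).injective
    have hfin' : FiniteDimensional 𝕜 ((X →L[𝕜] 𝕜) →L[𝕜] 𝕜) := inferInstance
    exact @FiniteDimensional.of_injective 𝕜 X _ _ _ ((X →L[𝕜] 𝕜) →L[𝕜] 𝕜) _ _ L hinj hfin'
  obtain ⟨m, h, hm, h1, h2⟩ := T2 hE hε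
  refine ⟨m, h, hm, h1, fun x => ?_⟩
  set c : Fin m → 𝕜 := fun i => if h i x = 0 then 0 else (starRingEnd 𝕜 (h i x)) / ((‖h i x‖ : ℝ) : 𝕜)
    with hc
  have hc1 : ∀ i, ‖c i‖ ≤ 1 := by
    intro i
    rw [hc]
    beta_reduce
    split_ifs with h0
    · simp
    · rw [norm_div, RCLike.norm_conj, RCLike.norm_ofReal, abs_of_nonneg (norm_nonneg _),
        div_self (by simpa using h0)]
  have hc2 : ∀ i, c i * h i x = ((‖h i x‖ : ℝ) : 𝕜) := by
    intro i
    rw [hc]
    beta_reduce
    split_ifs with h0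
    · simp [h0]
    · have hne : ((‖h i x‖ : ℝ) : 𝕜) ≠ 0 := by
        simpa using h0
      rw [div_mul_eq_mul_div, RCLike.conj_mul, sq, mul_div_assoc, div_self hne, mul_one]
  have h3 := h2 c hc1
  have h4 : (∑ i, c i • h i) x = ((∑ i, ‖h i x‖ : ℝ) : 𝕜) := by
    rw [sum_apply]
    simp only [smul_apply, smul_eq_mul, hc2]
    push_cast
    rfl
  have h5 := (∑ i, c i • h i).le_opNorm x
  rw [h4, RCLike.norm_ofReal, abs_of_nonneg (Finset.sum_nonneg fun i _ => norm_nonneg _)] at h5
  exact h5.trans (mul_le_mul_of_nonneg_right h3 (norm_nonneg _))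

end Crest.Agent.R114.V
end

-- ▼ part R114/VT3a
section

/-!
Row 114, S0153, T3: total measures, iterated total measures on lists, swap lemma, selection.
-/

set_option autoImplicit false

open Filter Topology MeasureTheory
open scoped ENNReal
open Crest.AnalysisR

namespace Crest.Agent.R114.V

/-- the real line with the discrete sigma-algebra -/
def TR : Type := ℝ

instance : MeasurableSpace TR := ⊤
instance : Inhabited TR := ⟨(0 : ℝ)⟩
instance : MeasurableSpace (List TR) := ⊤

theorem measurableSet_LTR (s : Set (List TR)) : MeasurableSet s := trivial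

theorem exists_total (hc : ContinuumRVM) :
    ∃ m : Measure TR, IsProbabilityMeasure m ∧ ∀ x, m {x} = 0 := by
  obtain ⟨m, h1, h2, h3⟩ := hc
  have h0 : m ∅ = 0 := by
    have := h3 Empty (fun i => i.elim) (by simpa using Cardinal.continuum_pos) (fun i => i.elim)
    simpa using this
  have hN : Cardinal.mk ℕ < Cardinal.continuum := by
    rw [Cardinal.mk_nat]; exact Cardinal.aleph0_lt_continuum
  let M : Measure TR := Measure.ofMeasurable (fun s _ => m s) h0 (fun f _ hd => h3 ℕ f hN hd)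
  have hM : ∀ s : Set TR, M s = m s := fun s => Measure.ofMeasurable_apply s trivial
  refine ⟨M, ⟨?_⟩, fun x => ?_⟩
  · rw [hM]; exact h1
  · rw [hM]; exact h2 x

/-- iterated total measures on lists -/
noncomputable def LM (m : Measure TR) : ℕ → Measure (List TR)
  | 0 => Measure.dirac []
  | q + 1 => m.bind (fun t => (LM m q).map (fun l => t :: l))

variable {m : Measure TR}

theorem ae_LM_succ (q : ℕ) (P : List TR → Prop) :
    (∀ᵐ l ∂LM m (q + 1), P l) ↔ ∀ᵐ t ∂m, ∀ᵐ l ∂LM m q, P (t :: l) := by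
  rw [ae_iff, LM, Measure.bind_apply (measurableSet_LTR _) (Measurable.aemeasurable measurable_from_top),
    lintegral_eq_zero_iff measurable_from_top]
  apply Filter.eventually_congr
  filter_upwards with t
  rw [Measure.map_apply measurable_from_top (measurableSet_LTR _)]
  rfl

theorem isProb_LM [IsProbabilityMeasure m] (q : ℕ) : IsProbabilityMeasure (LM m q) := by
  induction q with
  | zero => unfold LM; infer_instance
  | succ q ih =>
    constructor
    rw [LM, Measure.bind_apply MeasurableSet.univ (Measurable.aemeasurable measurable_from_top)]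
    have : ∀ t : TR, ((LM m q).map (fun l => t :: l)) Set.univ = 1 := by
      intro t
      rw [Measure.map_apply measurable_from_top MeasurableSet.univ]
      simp
    simp only [this]
    simp

/-- the `i`-th entry of a list, with a default -/
noncomputable def seq (l : List TR) (i : ℕ) : TR := l.getD i default

theorem seq_append_left (s l : List TR) {i : ℕ} (hi : i < s.length) : seq (s ++ l) i = seq s i := by
  unfold seq
  rw [List.getD_append _ _ _ _ hi]

theorem seq_at (s l : List TR) (t : TR) : seq (s ++ t :: l) s.length = t := by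
  unfold seq
  simp

theorem seq_change (s l : List TR) (t t' : TR) {i : ℕ} (hi : i ≠ s.length) :
    seq (s ++ t :: l) i = seq (s ++ t' :: l) i := by
  unfold seq
  rw [List.getD_eq_getElem?_getD, List.getD_eq_getElem?_getD]
  congr 1
  rcases lt_or_gt_of_ne hi with h | h
  · rw [List.getElem?_append_left h, List.getElem?_append_left h]
  · rw [List.getElem?_append_right h.le, List.getElem?_append_right h.le]
    have : ∃ k, i - s.length = k + 1 := ⟨i - s.length - 1, by omega⟩
    obtain ⟨k, hk⟩ := this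
    rw [hk]
    simp

/-- Abstract relation: `Bad t x` is a jointly measurable family of null sets. -/
structure NullFam (m : Measure TR) (X : Type*) (Good : TR → X → Prop) : Prop where
  swap : ∀ (M : Measure (List TR)) [IsProbabilityMeasure M] (x : List TR → X),
    ∀ᵐ t ∂m, ∀ᵐ l ∂M, Good t (x l)

variable {X : Type*} {Good : TR → X → Prop}

theorem ae_of_prefix [IsProbabilityMeasure m] (hN : NullFam m X Good) (j : ℕ)
    (x : (ℕ → TR) → X) (hx : ∀ θ θ' : ℕ → TR, (∀ i, i ≠ j → θ i = θ' i) → x θ = x θ') :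
    ∀ (q : ℕ) (s : List TR), s.length ≤ j →
      ∀ᵐ l ∂LM m q, j < (s ++ l).length → Good (seq (s ++ l) j) (x (seq (s ++ l))) := by
  intro q
  induction q with
  | zero =>
    intro s hs
    simp only [LM]
    rw [ae_dirac_iff (measurableSet_LTR _)]
    intro h
    simp at h
    omega
  | succ q ih =>
    intro s hs
    rw [ae_LM_succ]
    rcases hs.lt_or_eq with h | h
    · filter_upwards with t
      have := ih (s ++ [t]) (by simpa using h)
      simpa using this
    · haveI := isProb_LM (m := m) q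
      have h1 := hN.swap (LM m q) (fun l => x (seq (s ++ default :: l)))
      filter_upwards [h1] with t ht
      filter_upwards [ht] with l hl _
      rw [← h, seq_at]
      have : x (seq (s ++ t :: l)) = x (seq (s ++ default :: l)) := by
        apply hx
        intro i hi
        exact seq_change s l t default (by rw [h]; exact hi)
      rw [this]
      exact hl

/-- **Selection**: infinitely many points in general position. -/
theorem exists_sequence [IsProbabilityMeasure m] (hN : NullFam m X Good) {ι : Type} [Countable ι]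
    (supp : ι → Finset ℕ) (x : ι → (ℕ → TR) → X)
    (hx : ∀ a, ∀ θ θ' : ℕ → TR, (∀ i ∈ supp a, θ i = θ' i) → x a θ = x a θ') :
    ∃ θ : ℕ → TR, ∀ a j, j ∉ supp a → Good (θ j) (x a θ) := by
  classical
  set Q : List TR → Prop := fun l => ∀ (a : ι) (j : ℕ), j ∉ supp a → j < l.length →
    Good (seq l j) (x a (seq l)) with hQ
  set G : List TR → Prop := fun s => ∀ q, ∀ᵐ l ∂LM m q, Q (s ++ l) with hG
  have hG0 : G [] := by
    intro q
    simp only [hQ]
    rw [ae_all_iff]
    intro a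
    rw [ae_all_iff]
    intro j
    by_cases hj : j ∈ supp a
    · filter_upwards with l h
      exact absurd hj h
    · have h1 := ae_of_prefix hN j (x a) (by
        intro θ θ' h
        apply hx
        intro i hi
        exact h i (by rintro rfl; exact hj hi)) q [] (by simp)
      filter_upwards [h1] with l hl _ hlt
      exact hl (by simpa using hlt)
  have hGQ : ∀ s, G s → Q s := by
    intro s hs
    have := hs 0
    simp only [LM] at this
    rw [ae_dirac_iff (measurableSet_LTR _)] at this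
    simpa using this
  have hGs : ∀ s, G s → ∃ t, G (s ++ [t]) := by
    intro s hs
    have h1 : ∀ᵐ t ∂m, ∀ q, ∀ᵐ l ∂LM m q, Q (s ++ t :: l) := by
      rw [ae_all_iff]
      intro q
      have := hs (q + 1)
      rwa [ae_LM_succ] at this
    obtain ⟨t, ht⟩ := h1.exists
    refine ⟨t, fun q => ?_⟩
    have := ht q
    simpa using this
  choose! nxt hnxt using hGs
  let L : ℕ → List TR := fun n => Nat.rec [] (fun _ s => s ++ [nxt s]) n
  have hL0 : L 0 = [] := rfl
  have hLs : ∀ n, L (n + 1) = L n ++ [nxt (L n)] := fun n => rfl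
  have hLG : ∀ n, G (L n) := by
    intro n
    induction n with
    | zero => exact hG0
    | succ n ih => rw [hLs]; exact hnxt _ ih
  have hLlen : ∀ n, (L n).length = n := by
    intro n
    induction n with
    | zero => rfl
    | succ n ih => rw [hLs, List.length_append, ih]; rfl
  set θ : ℕ → TR := fun n => nxt (L n) with hθ
  have hseq : ∀ n i, i < n → seq (L n) i = θ i := by
    intro n
    induction n with
    | zero => intro i hi; omega
    | succ n ih =>
      intro i hi
      rw [hLs]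
      rcases Nat.lt_succ_iff_lt_or_eq.mp hi with h | h
      · rw [seq_append_left _ _ (by rw [hLlen]; exact h)]
        exact ih i h
      · subst h
        have := seq_at (L i) [] (nxt (L i))
        rw [hLlen] at this
        exact this
  refine ⟨θ, fun a j hj => ?_⟩
  obtain ⟨n, hn⟩ : ∃ n, j < n ∧ ∀ i ∈ supp a, i < n := by
    refine ⟨max (j + 1) ((supp a).sup id + 1), by omega, fun i hi => ?_⟩
    have : i ≤ (supp a).sup id := Finset.le_sup (f := id) hi
    omega
  have h1 := hGQ _ (hLG n) a j hj (by rw [hLlen]; exact hn.1)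
  rw [hseq n j hn.1] at h1
  have h2 : x a (seq (L n)) = x a θ := by
    apply hx
    intro i hi
    exact hseq n i (hn.2 i hi)
  rwa [h2] at h1

end Crest.Agent.R114.V
private theorem rz_0a28289d0c : type_of% @_root_.Crest.Agent.R114.V.LM.eq_def := @_root_.Crest.Agent.R114.V.LM.eq_def -- L42
private theorem rz_4a22355f2c : type_of% @_root_.Crest.Agent.R114.V.LM.eq_1 := @_root_.Crest.Agent.R114.V.LM.eq_1 -- L42
end

-- ▼ part R114/VT3b
section

/-!
Row 114, S0153, T3: the random functionals.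
-/

set_option autoImplicit false

open Filter Topology MeasureTheory
open scoped ENNReal
open Crest.AnalysisR

namespace Crest.Agent.R114.V

universe u
variable {𝕜 : Type} [RCLike 𝕜] {X : Type u} [NormedAddCommGroup X] [NormedSpace 𝕜 X]

/-- a functional of norm one vanishing on a non-dense subspace -/
theorem exists_vanishing (D : Submodule 𝕜 X) (hD : ¬ Dense (D : Set X)) :
    ∃ u : X →L[𝕜] 𝕜, ‖u‖ = 1 ∧ ∀ x ∈ D, u x = 0 := by
  obtain ⟨x₀, hx₀⟩ : ∃ x, x ∉ D.topologicalClosure := by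
    by_contra h
    push Not at h
    apply hD
    intro x
    exact h x
  have : IsClosed (D.topologicalClosure : Set X) := D.isClosed_topologicalClosure
  have hne : (D.topologicalClosure.mkQ x₀) ≠ 0 := by
    intro h
    exact hx₀ ((Submodule.Quotient.mk_eq_zero _).mp h)
  obtain ⟨g, hg1, hg2⟩ := exists_dual_vector 𝕜 (D.topologicalClosure.mkQ x₀)
    (norm_ne_zero_iff.mpr hne)
  set w : X →L[𝕜] 𝕜 := g.comp D.topologicalClosure.mkQL with hw
  have hw0 : w ≠ 0 := by
    intro h
    have h1 : w x₀ = 0 := by rw [h]; rfl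
    have h2 : w x₀ = g (D.topologicalClosure.mkQ x₀) := rfl
    rw [h2, hg2] at h1
    have : ‖D.topologicalClosure.mkQ x₀‖ = 0 := by exact_mod_cast h1
    exact hne (norm_eq_zero.mp this)
  refine ⟨((‖w‖ : 𝕜)⁻¹) • w, ?_, ?_⟩
  · rw [norm_smul, norm_inv, RCLike.norm_ofReal, abs_norm, inv_mul_cancel₀ (norm_ne_zero_iff.mpr hw0)]
  · intro x hx
    have h1 : D.topologicalClosure.mkQ x = 0 :=
      (Submodule.Quotient.mk_eq_zero _).mpr (D.le_topologicalClosure hx)
    have h2 : w x = g (D.topologicalClosure.mkQ x) := rfl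
    rw [smul_apply, h2, h1, map_zero, smul_zero]

theorem exists_norming (φ : X →L[𝕜] 𝕜) : ∃ x : X, ‖x‖ ≤ 1 ∧ ‖φ‖ ≤ 2 * ‖φ x‖ := by
  by_cases h : φ = 0
  · exact ⟨0, by simp, by simp [h]⟩
  · have hpos : 0 < ‖φ‖ := norm_pos_iff.mpr h
    by_contra hcon
    push Not at hcon
    have : ‖φ‖ ≤ ‖φ‖ / 2 := by
      apply φ.opNorm_le_bound (by positivity)
      intro x
      by_cases hx : x = 0
      · rw [hx]; simp
      · have hxn : ‖x‖ ≠ 0 := norm_ne_zero_iff.mpr hx
        have h1 : ‖((‖x‖ : 𝕜)⁻¹) • x‖ = 1 := by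
          rw [norm_smul, norm_inv, RCLike.norm_ofReal, abs_norm, inv_mul_cancel₀ hxn]
        have h2 := hcon _ h1.le
        rw [map_smul, norm_smul, norm_inv, RCLike.norm_ofReal, abs_norm] at h2
        have h3 : 0 < ‖x‖ := norm_pos_iff.mpr hx
        have h4 : 2 * ‖φ x‖ < ‖φ‖ * ‖x‖ := by
          have := mul_lt_mul_of_pos_right h2 h3
          have e : 2 * (‖x‖⁻¹ * ‖φ x‖) * ‖x‖ = 2 * ‖φ x‖ := by field_simp
          rwa [e] at this
        linarith
    linarith

theorem exists_uniform (μ : Measure ℝ) [IsProbabilityMeasure μ] [NullSingletonClass μ] {M : ℕ}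
    (hM : 0 < M) : ∃ θ : ℝ → Fin M, Measurable θ ∧
      ∀ g : Fin M → ℝ≥0∞, ∫⁻ t, g (θ t) ∂μ = (M : ℝ≥0∞)⁻¹ * ∑ i, g i := by
  have : Nonempty (Fin M) := ⟨⟨0, hM⟩⟩
  have hM0 : (M : ℝ≥0∞) ≠ 0 := by exact_mod_cast hM.ne'
  have hMt : (M : ℝ≥0∞) ≠ ⊤ := ENNReal.natCast_ne_top M
  obtain ⟨θ, hθ, hmap⟩ := Crest.Agent.R130.exists_map_eq (X := ℝ) (Y := Fin M) μ
    ((M : ℝ≥0∞)⁻¹ • Measure.count) (by
      rw [Measure.smul_apply, Measure.count_apply MeasurableSet.univ, measure_univ]
      simp [ENNReal.inv_mul_cancel hM0 hMt])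
  refine ⟨θ, hθ, fun g => ?_⟩
  have h1 : ∫⁻ t, g (θ t) ∂μ = ∫⁻ i, g i ∂(μ.map θ) := by
    rw [lintegral_map (measurable_of_countable g) hθ]
  rw [h1, hmap, lintegral_smul_measure, lintegral_count, tsum_fintype, smul_eq_mul]

/-- the identity map, forgetting the sigma-algebra -/
def toR : TR → ℝ := fun t => t

theorem measurable_toR : Measurable toR := measurable_from_top

/-- T3, given T1 and T2'. -/
theorem T3_of [CompleteSpace X] (hc : ContinuumRVM)
    (hT1 : ∀ f : ℕ → X →L[𝕜] 𝕜, Tendsto (fun n => ‖f n‖) atTop atTop →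
      Dense {x : X | Tendsto (fun n => f n x) atTop (𝓝 0)} → SQ 𝕜 X)
    (hT2 : ∀ ε : ℝ, 0 < ε → ∃ (m : ℕ) (h : Fin m → (X →L[𝕜] 𝕜)), 0 < m ∧ (∀ i, ‖h i‖ = 1) ∧
      ∀ x : X, ∑ i, ‖h i x‖ ≤ ε * m * ‖x‖) :
    SQ 𝕜 X ∨ ∃ u : ℕ → (X →L[𝕜] 𝕜), (∀ i, ‖u i‖ = 1) ∧
      ∀ (A : Finset ℕ) (a : ℕ → 𝕜), ∃ x : X, ‖x‖ ≤ 1 ∧ (∀ j ∉ A, u j x = 0) ∧
        ‖∑ i ∈ A, a i • u i‖ ≤ 4 * ‖∑ i ∈ A, a i * u i x‖ := by
  classical
  obtain ⟨m, hm, hm0⟩ := exists_total hc
  set μ : Measure ℝ := m.map toR with hμ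
  have hmeas : Measurable toR := measurable_toR
  have : IsProbabilityMeasure μ := Measure.isProbabilityMeasure_map hmeas.aemeasurable
  have : NullSingletonClass μ := by
    constructor
    intro x
    rw [hμ, Measure.map_apply hmeas (measurableSet_singleton x)]
    exact hm0 x
  -- choose the families
  choose M h hM hn hsum using fun n : ℕ => hT2 ((4:ℝ)⁻¹ ^ n) (by positivity)
  choose θ hθ hint using fun n : ℕ => exists_uniform μ (hM n)
  set f : ℕ → ℝ → (X →L[𝕜] 𝕜) := fun n t => ((2:𝕜) ^ n) • h n (θ n t) with hf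
  have hfn : ∀ n t, ‖f n t‖ = 2 ^ n := by
    intro n t
    simp only [hf]
    rw [norm_smul, hn, mul_one, norm_pow, RCLike.norm_ofNat]
  -- the sum
  set S : ℝ → X → ℝ≥0∞ := fun t x => ∑' n, ‖f n t x‖ₑ with hS
  have hSm : ∀ x, ∀ᵐ t ∂μ, S t x < ⊤ := by
    intro x
    have hmn : ∀ n, Measurable (fun t => ‖f n t x‖ₑ) := by
      intro n
      have : Measurable (fun i : Fin (M n) => ‖(((2:𝕜) ^ n) • h n i) x‖ₑ) := measurable_of_countable _
      exact this.comp (hθ n)
    have h1 : ∫⁻ t, S t x ∂μ < ⊤ := by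
      simp only [hS]
      rw [lintegral_tsum (fun n => (hmn n).aemeasurable)]
      have h2 : ∀ n, ∫⁻ t, ‖f n t x‖ₑ ∂μ ≤ ENNReal.ofReal ((2:ℝ)⁻¹ ^ n * ‖x‖) := by
        intro n
        have h3 := hint n (fun i => ‖(((2:𝕜) ^ n) • h n i) x‖ₑ)
        simp only [hf]
        rw [h3]
        have h4 : ∑ i, ‖(((2:𝕜) ^ n) • h n i) x‖ₑ = ENNReal.ofReal (2 ^ n * ∑ i, ‖h n i x‖) := by
          rw [Finset.mul_sum, ENNReal.ofReal_sum_of_nonneg (fun i _ => by positivity)]
          apply Finset.sum_congr rfl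
          intro i _
          rw [smul_apply, enorm_smul, ENNReal.ofReal_mul (by positivity), ← ofReal_norm, ← ofReal_norm,
            norm_pow, RCLike.norm_ofNat]
        rw [h4]
        have h5 : (M n : ℝ≥0∞)⁻¹ = ENNReal.ofReal ((M n : ℝ)⁻¹) := by
          rw [ENNReal.ofReal_inv_of_pos (by exact_mod_cast hM n), ENNReal.ofReal_natCast]
        rw [h5, ← ENNReal.ofReal_mul (by positivity)]
        apply ENNReal.ofReal_le_ofReal
        have h6 := hsum n x
        have hMp : (0:ℝ) < M n := by exact_mod_cast hM n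
        calc (M n : ℝ)⁻¹ * (2 ^ n * ∑ i, ‖h n i x‖)
            ≤ (M n : ℝ)⁻¹ * (2 ^ n * ((4:ℝ)⁻¹ ^ n * M n * ‖x‖)) := by gcongr
          _ = (2 * 4⁻¹) ^ n * ‖x‖ * ((M n : ℝ)⁻¹ * M n) := by rw [mul_pow]; ring
          _ = (2:ℝ)⁻¹ ^ n * ‖x‖ := by
              rw [inv_mul_cancel₀ hMp.ne', mul_one]; norm_num
      refine lt_of_le_of_lt (ENNReal.tsum_le_tsum h2) ?_
      have hs : Summable (fun n : ℕ => (2:ℝ)⁻¹ ^ n * ‖x‖) :=
        (summable_geometric_of_lt_one (by norm_num) (by norm_num)).mul_right _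
      rw [← ENNReal.ofReal_tsum_of_nonneg (fun n => by positivity) hs]
      exact ENNReal.ofReal_lt_top
    exact ae_lt_top (Measurable.tsum hmn) h1.ne
  -- the null family
  have hNF : NullFam m X (fun t x => S (toR t) x < ⊤) := by
    constructor
    intro M' _ x
    have hjm : Measurable (fun p : ℝ × List TR => S p.1 (x p.2)) := by
      simp only [hS]
      apply Measurable.tsum
      intro n
      have h1 : Measurable (fun p : Fin (M n) × List TR => ‖(((2:𝕜) ^ n) • h n p.1) (x p.2)‖ₑ) := by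
        apply measurable_from_prod_countable_right
        intro i
        exact measurable_from_top
      exact h1.comp ((hθ n).comp measurable_fst |>.prodMk measurable_snd)
    have h2 : MeasurableSet {p : ℝ × List TR | ¬ S p.1 (x p.2) < ⊤} :=
      (measurableSet_lt hjm measurable_const).compl
    have h3 : (M'.prod μ) {p : List TR × ℝ | ¬ S p.2 (x p.1) < ⊤} = 0 := by
      have h2' : MeasurableSet {p : List TR × ℝ | ¬ S p.2 (x p.1) < ⊤} :=
        measurable_swap h2
      rw [Measure.measure_prod_null h2']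
      filter_upwards with l
      exact hSm (x l)
    have h4 : (μ.prod M') {p : ℝ × List TR | ¬ S p.1 (x p.2) < ⊤} = 0 := by
      rw [← Measure.prod_swap, Measure.map_apply measurable_swap h2]
      exact h3
    have h5 : ∀ᵐ t ∂μ, ∀ᵐ l ∂M', S t (x l) < ⊤ :=
      Measure.ae_ae_of_ae_prod (p := fun p => S p.1 (x p.2) < ⊤) h4
    exact ae_of_ae_map hmeas.aemeasurable h5
  -- the subspaces
  have hSadd : ∀ t x y, S t (x + y) ≤ S t x + S t y := by
    intro t x y
    simp only [hS]
    rw [← ENNReal.tsum_add]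
    apply ENNReal.tsum_le_tsum
    intro n
    rw [map_add]
    exact enorm_add_le _ _
  have hSsmul : ∀ t (c : 𝕜) x, S t (c • x) = ‖c‖ₑ * S t x := by
    intro t c x
    simp only [hS]
    rw [← ENNReal.tsum_mul_left]
    congr 1
    funext n
    rw [map_smul, enorm_smul]
  let D : ℝ → Submodule 𝕜 X := fun t =>
    { carrier := {x | S t x < ⊤}
      add_mem' := fun {x y} hx hy => lt_of_le_of_lt (hSadd t x y) (ENNReal.add_lt_top.mpr ⟨hx, hy⟩)
      zero_mem' := by simp [hS]
      smul_mem' := fun c x hx => by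
        show S t (c • x) < ⊤
        rw [hSsmul]
        exact ENNReal.mul_lt_top enorm_lt_top hx }
  by_cases hdense : ∃ t, Dense (D t : Set X)
  · left
    obtain ⟨t, ht⟩ := hdense
    apply hT1 (fun n => f n t)
    · simp only [hfn]
      exact tendsto_pow_atTop_atTop_of_one_lt (by norm_num)
    · refine ht.mono ?_
      intro x hx
      have hx' : ∑' n, ‖f n t x‖ₑ ≠ ⊤ := ne_of_lt hx
      have h1 := ENNReal.tendsto_atTop_zero_of_tsum_ne_top hx'
      show Tendsto (fun n => f n t x) atTop (𝓝 0)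
      rw [tendsto_zero_iff_norm_tendsto_zero]
      have h2 : Tendsto (fun n => (‖f n t x‖ₑ).toReal) atTop (𝓝 0) := by
        have := (ENNReal.tendsto_toReal ENNReal.zero_ne_top).comp h1
        simpa only [Function.comp_def, ENNReal.toReal_zero] using this
      simpa only [toReal_enorm] using h2
  · right
    push Not at hdense
    choose u₀ hu₀ hu₀D using fun t => exists_vanishing (D t) (hdense t)
    set u₁ : TR → (X →L[𝕜] 𝕜) := fun t => u₀ (toR t) with hu₁d
    have hu₁ : ∀ t, ‖u₁ t‖ = 1 := fun t => hu₀ _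
    choose nv hnv1 hnv2 using fun φ : X →L[𝕜] 𝕜 => exists_norming φ
    let ι := Σ A : Finset ℕ, (A → ℕ)
    let φ : ι → (ℕ → TR) → (X →L[𝕜] 𝕜) := fun a ϑ =>
      ∑ i : a.1, (TopologicalSpace.denseSeq 𝕜 (a.2 i)) • u₁ (ϑ i)
    obtain ⟨ϑ, hϑ⟩ := exists_sequence hNF (ι := ι) (fun a => a.1) (fun a ϑ => nv (φ a ϑ)) (by
      intro a ϑ ϑ' hh
      have : φ a ϑ = φ a ϑ' := by
        apply Finset.sum_congr rfl
        intro i _
        rw [hh i i.2]
      simp only [this])
    refine ⟨fun i => u₁ (ϑ i), fun i => hu₁ _, fun A a => ?_⟩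
    set N := ‖∑ i ∈ A, a i • u₁ (ϑ i)‖ with hN
    by_cases hN0 : N = 0
    · exact ⟨0, by simp, by simp, by simp [hN0]⟩
    have hNpos : 0 < N := lt_of_le_of_ne (norm_nonneg _) (Ne.symm hN0)
    set δ : ℝ := N / (8 * (A.card + 1)) with hδ
    have hδpos : 0 < δ := by positivity
    have hch : ∀ i : A, ∃ k : ℕ, ‖TopologicalSpace.denseSeq 𝕜 k - a i‖ < δ := by
      intro i
      obtain ⟨k, hk⟩ := (TopologicalSpace.denseRange_denseSeq 𝕜).exists_dist_lt (a i) hδpos
      exact ⟨k, by rw [← dist_eq_norm, dist_comm]; exact hk⟩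
    choose k hk using hch
    set b : ι := ⟨A, k⟩ with hb
    have hφb : φ b ϑ = ∑ i : A, (TopologicalSpace.denseSeq 𝕜 (k i)) • u₁ (ϑ i) := rfl
    have hdiff : ‖(∑ i ∈ A, a i • u₁ (ϑ i)) - φ b ϑ‖ ≤ N / 8 := by
      rw [hφb, ← Finset.sum_coe_sort A (fun i => a i • u₁ (ϑ i)), ← Finset.sum_sub_distrib]
      calc ‖∑ i : A, (a i • u₁ (ϑ i) - TopologicalSpace.denseSeq 𝕜 (k i) • u₁ (ϑ i))‖
          ≤ ∑ i : A, ‖a i • u₁ (ϑ i) - TopologicalSpace.denseSeq 𝕜 (k i) • u₁ (ϑ i)‖ :=
            norm_sum_le _ _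
        _ ≤ ∑ i : A, δ := by
            apply Finset.sum_le_sum
            intro i _
            have e : a i • u₁ (ϑ i) - TopologicalSpace.denseSeq 𝕜 (k i) • u₁ (ϑ i) =
                (a i - TopologicalSpace.denseSeq 𝕜 (k i)) • u₁ (ϑ i) := by
              ext y
              simp [sub_mul]
            rw [e, norm_smul, hu₁, mul_one, norm_sub_rev]
            exact (hk i).le
        _ = A.card * δ := by simp
        _ ≤ N / 8 := by
            rw [hδ]
            have : (A.card : ℝ) * (N / (8 * (A.card + 1))) = N / 8 * (A.card / (A.card + 1)) := by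
              field_simp
            rw [this]
            have h2 : (A.card : ℝ) / (A.card + 1) ≤ 1 := by
              rw [div_le_one (by positivity)]; linarith
            nlinarith
    have hxn := hnv1 (φ b ϑ)
    refine ⟨nv (φ b ϑ), hxn, ?_, ?_⟩
    · intro j hj
      have h1 := hϑ b j hj
      exact hu₀D _ _ h1
    · have h1 : N ≤ ‖φ b ϑ‖ + N / 8 := by
        calc N = ‖φ b ϑ + ((∑ i ∈ A, a i • u₁ (ϑ i)) - φ b ϑ)‖ := by rw [hN]; congr 1; abel
          _ ≤ ‖φ b ϑ‖ + ‖(∑ i ∈ A, a i • u₁ (ϑ i)) - φ b ϑ‖ := norm_add_le _ _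
          _ ≤ _ := by gcongr
      have h2 := hnv2 (φ b ϑ)
      have h3 : ‖φ b ϑ (nv (φ b ϑ))‖ ≤ ‖∑ i ∈ A, a i * u₁ (ϑ i) (nv (φ b ϑ))‖ + N / 8 := by
        have e : ∑ i ∈ A, a i * u₁ (ϑ i) (nv (φ b ϑ)) = (∑ i ∈ A, a i • u₁ (ϑ i)) (nv (φ b ϑ)) := by
          simp
        rw [e]
        calc ‖φ b ϑ (nv (φ b ϑ))‖
            = ‖(∑ i ∈ A, a i • u₁ (ϑ i)) (nv (φ b ϑ)) -
              ((∑ i ∈ A, a i • u₁ (ϑ i)) - φ b ϑ) (nv (φ b ϑ))‖ := by
              rw [sub_apply]; congr 1; ring
          _ ≤ ‖(∑ i ∈ A, a i • u₁ (ϑ i)) (nv (φ b ϑ))‖ +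
              ‖((∑ i ∈ A, a i • u₁ (ϑ i)) - φ b ϑ) (nv (φ b ϑ))‖ := norm_sub_le _ _
          _ ≤ ‖(∑ i ∈ A, a i • u₁ (ϑ i)) (nv (φ b ϑ))‖ + N / 8 := by
              gcongr
              calc _ ≤ ‖(∑ i ∈ A, a i • u₁ (ϑ i)) - φ b ϑ‖ * ‖nv (φ b ϑ)‖ :=
                    ContinuousLinearMap.le_opNorm _ _
                _ ≤ N / 8 * 1 := by gcongr
                _ = N / 8 := mul_one _
      linarith

end Crest.Agent.R114.V
end

-- ▼ part R114/VT4

/-!
Row 114, S0153, step T4': from a 4-suppression-unconditional normalised sequence of functionals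
with norming vectors supported on the same set we get a separable infinite-dimensional quotient
or a sequence in the dual ball with a lower `ℓ₁`-estimate.
-/

set_option autoImplicit false

open Filter Topology

namespace Crest.Agent.R114.VT4

variable {𝕜 : Type*} [RCLike 𝕜] {X : Type*} [NormedAddCommGroup X] [NormedSpace 𝕜 X]

/-- The suppression property (output of T3). -/
def PropS (u : ℕ → X →L[𝕜] 𝕜) : Prop :=
  ∀ (A : Finset ℕ) (a : ℕ → 𝕜), ∃ x : X, ‖x‖ ≤ 1 ∧ (∀ j ∉ A, u j x = 0) ∧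
    ‖∑ i ∈ A, a i • u i‖ ≤ 4 * ‖∑ i ∈ A, a i * u i x‖

theorem PropS.suppress {u : ℕ → X →L[𝕜] 𝕜} (hs : PropS u) {B A : Finset ℕ} (h : B ⊆ A)
    (a : ℕ → 𝕜) : ‖∑ i ∈ B, a i • u i‖ ≤ 4 * ‖∑ i ∈ A, a i • u i‖ := by
  obtain ⟨x, hx, h0, h1⟩ := hs B a
  refine h1.trans ?_
  have h2 : ∑ i ∈ B, a i * u i x = (∑ i ∈ A, a i • u i) x := by
    rw [sum_apply, ← Finset.sum_subset h]
    · rfl
    · intro i _ hi
      simp [h0 i hi]
  rw [h2]
  have h3 := (∑ i ∈ A, a i • u i).le_opNorm x
  have h4 : 0 ≤ ‖∑ i ∈ A, a i • u i‖ := norm_nonneg _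
  have h5 : ‖∑ i ∈ A, a i • u i‖ * ‖x‖ ≤ ‖∑ i ∈ A, a i • u i‖ * 1 :=
    mul_le_mul_of_nonneg_left hx h4
  linarith

theorem sum_abs_le_of_subsets {ι : Type*} (F : Finset ι) (r : ι → ℝ) (C : ℝ)
    (h : ∀ P ⊆ F, |∑ k ∈ P, r k| ≤ C) : ∑ k ∈ F, |r k| ≤ 2 * C := by
  classical
  have h1 : ∑ k ∈ F, |r k| = ∑ k ∈ F with 0 ≤ r k, r k - ∑ k ∈ F with ¬ 0 ≤ r k, r k := by
    rw [← Finset.sum_filter_add_sum_filter_not F (fun k => 0 ≤ r k) (fun k => |r k|),
      sub_eq_add_neg, ← Finset.sum_neg_distrib]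
    congr 1
    · refine Finset.sum_congr rfl fun k hk => ?_
      exact abs_of_nonneg (Finset.mem_filter.mp hk).2
    · refine Finset.sum_congr rfl fun k hk => ?_
      exact abs_of_neg (not_le.mp (Finset.mem_filter.mp hk).2)
  rw [h1]
  have h2 := (abs_le.mp (h _ (Finset.filter_subset (fun k => 0 ≤ r k) F))).2
  have h3 := (abs_le.mp (h _ (Finset.filter_subset (fun k => ¬ 0 ≤ r k) F))).1
  linarith

theorem sum_norm_le_of_subsets {ι : Type*} (F : Finset ι) (z : ι → 𝕜) (C : ℝ)
    (h : ∀ P ⊆ F, ‖∑ k ∈ P, z k‖ ≤ C) : ∑ k ∈ F, ‖z k‖ ≤ 4 * C := by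
  have h1 : ∑ k ∈ F, |RCLike.re (z k)| ≤ 2 * C := by
    refine sum_abs_le_of_subsets F _ C fun P hP => ?_
    rw [← map_sum]
    exact (RCLike.abs_re_le_norm _).trans (h P hP)
  have h2 : ∑ k ∈ F, |RCLike.im (z k)| ≤ 2 * C := by
    refine sum_abs_le_of_subsets F _ C fun P hP => ?_
    rw [← map_sum]
    exact (RCLike.abs_im_le_norm _).trans (h P hP)
  have h3 : ∀ w : 𝕜, ‖w‖ ≤ |RCLike.re w| + |RCLike.im w| := by
    intro w
    have h4 : w = (RCLike.re w : 𝕜) + (RCLike.im w : 𝕜) * RCLike.I := (RCLike.re_add_im w).symm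
    calc ‖w‖ = ‖(RCLike.re w : 𝕜) + (RCLike.im w : 𝕜) * RCLike.I‖ := by rw [← h4]
      _ ≤ ‖(RCLike.re w : 𝕜)‖ + ‖(RCLike.im w : 𝕜) * RCLike.I‖ := norm_add_le _ _
      _ ≤ |RCLike.re w| + |RCLike.im w| := by
        rw [norm_mul, RCLike.norm_ofReal, RCLike.norm_ofReal]
        have h5 : ‖(RCLike.I : 𝕜)‖ ≤ 1 := by
          by_cases h : (RCLike.I : 𝕜) = 0
          · rw [h, norm_zero]; exact zero_le_one
          · exact (RCLike.norm_I_of_ne_zero h).le
        have h6 := mul_le_mul_of_nonneg_left h5 (abs_nonneg (RCLike.im w))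
        linarith
  calc ∑ k ∈ F, ‖z k‖ ≤ ∑ k ∈ F, (|RCLike.re (z k)| + |RCLike.im (z k)|) :=
        Finset.sum_le_sum fun k _ => h3 _
    _ = ∑ k ∈ F, |RCLike.re (z k)| + ∑ k ∈ F, |RCLike.im (z k)| := Finset.sum_add_distrib
    _ ≤ 4 * C := by linarith

/-- Lower `ℓ₁`-estimate for disjoint blocks `w k = ∑ i ∈ A k, a k i • u i` that are all large at
one vector `y`. -/
theorem PropS.lower {u : ℕ → X →L[𝕜] 𝕜} (hs : PropS u) (A : ℕ → Finset ℕ)
    (hA : ∀ k l, k ≠ l → Disjoint (A k) (A l)) (a : ℕ → ℕ → 𝕜) (y : X) {δ : ℝ}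
    (hy : ∀ k, δ ≤ ‖∑ i ∈ A k, a k i * u i y‖) (F : Finset ℕ) (c : ℕ → 𝕜) :
    δ * ∑ k ∈ F, ‖c k‖ ≤ 16 * ‖∑ k ∈ F, c k • ∑ i ∈ A k, a k i • u i‖ * ‖y‖ := by
  classical
  -- block index of `i`
  obtain ⟨κ, hκ⟩ : ∃ κ : ℕ → ℕ, ∀ k, ∀ i ∈ A k, κ i = k := by
    refine ⟨fun i => if h : ∃ k, i ∈ A k then h.choose else 0, fun k i hi => ?_⟩
    have h : ∃ k, i ∈ A k := ⟨k, hi⟩
    simp only [h, dif_pos]
    by_contra hne
    exact (Finset.disjoint_left.mp (hA _ _ hne)) h.choose_spec hi
  let β : ℕ → 𝕜 := fun i => c (κ i) * a (κ i) i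
  have hsum : ∀ P : Finset ℕ, ∑ k ∈ P, c k • ∑ i ∈ A k, a k i • u i
      = ∑ i ∈ P.biUnion A, β i • u i := by
    intro P
    rw [Finset.sum_biUnion]
    · refine Finset.sum_congr rfl fun k _ => ?_
      rw [Finset.smul_sum]
      refine Finset.sum_congr rfl fun i hi => ?_
      simp only [β, hκ k i hi, mul_smul]
    · intro k _ l _ hkl
      exact hA k l hkl
  have hsup : ∀ P ⊆ F, ‖∑ k ∈ P, c k * ∑ i ∈ A k, a k i * u i y‖
      ≤ 4 * ‖∑ k ∈ F, c k • ∑ i ∈ A k, a k i • u i‖ * ‖y‖ := by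
    intro P hP
    have h1 : ∑ k ∈ P, c k * ∑ i ∈ A k, a k i * u i y
        = (∑ k ∈ P, c k • ∑ i ∈ A k, a k i • u i) y := by
      simp only [sum_apply, smul_apply, smul_eq_mul]
    rw [h1]
    refine ((∑ k ∈ P, c k • ∑ i ∈ A k, a k i • u i).le_opNorm y).trans ?_
    refine mul_le_mul_of_nonneg_right ?_ (norm_nonneg _)
    rw [hsum P, hsum F]
    exact hs.suppress (Finset.biUnion_subset_biUnion_of_subset_left A hP) β
  have h2 := sum_norm_le_of_subsets F (fun k => c k * ∑ i ∈ A k, a k i * u i y) _ hsup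
  calc δ * ∑ k ∈ F, ‖c k‖ = ∑ k ∈ F, ‖c k‖ * δ := by
        rw [Finset.mul_sum]; exact Finset.sum_congr rfl fun k _ => mul_comm _ _
    _ ≤ ∑ k ∈ F, ‖c k * ∑ i ∈ A k, a k i * u i y‖ := by
        refine Finset.sum_le_sum fun k _ => ?_
        rw [norm_mul]
        exact mul_le_mul_of_nonneg_left (hy k) (norm_nonneg _)
    _ ≤ 4 * (4 * ‖∑ k ∈ F, c k • ∑ i ∈ A k, a k i • u i‖ * ‖y‖) := h2
    _ = 16 * ‖∑ k ∈ F, c k • ∑ i ∈ A k, a k i • u i‖ * ‖y‖ := by ring

/-- biorthogonal vectors -/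
theorem PropS.exists_biorth {u : ℕ → X →L[𝕜] 𝕜} (hs : PropS u) (hu : ∀ i, ‖u i‖ = 1) :
    ∃ e : ℕ → X, ∀ i j, u i (e j) = if i = j then 1 else 0 := by
  have h : ∀ j, ∃ e : X, ∀ i, u i e = if i = j then 1 else 0 := by
    intro j
    obtain ⟨x, _, h0, h1⟩ := hs {j} (fun _ => 1)
    have hne : u j x ≠ 0 := by
      intro h2
      simp [h2, hu] at h1
      linarith
    refine ⟨(u j x)⁻¹ • x, fun i => ?_⟩
    by_cases hij : i = j
    · subst hij
      simp [hne]
    · have : u i x = 0 := h0 i (by simpa using hij)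
      simp [this, hij]
  choose e he using h
  exact ⟨e, fun i j => he j i⟩

/-- T4': separable quotient or a sequence in the dual ball with a lower `ℓ₁`-estimate. -/
theorem T4' [CompleteSpace X] (u : ℕ → X →L[𝕜] 𝕜) (hu : ∀ i, ‖u i‖ = 1)
    (hs : ∀ (A : Finset ℕ) (a : ℕ → 𝕜), ∃ x : X, ‖x‖ ≤ 1 ∧ (∀ j ∉ A, u j x = 0) ∧
        ‖∑ i ∈ A, a i • u i‖ ≤ 4 * ‖∑ i ∈ A, a i * u i x‖) :
    SepQuot 𝕜 X ∨ ∃ (g : ℕ → (X →L[𝕜] 𝕜)) (ρ : ℝ), 0 < ρ ∧ (∀ k, ‖g k‖ ≤ 1) ∧
      ∀ (F : Finset ℕ) (c : ℕ → 𝕜), ρ * ∑ k ∈ F, ‖c k‖ ≤ ‖∑ k ∈ F, c k • g k‖ := by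
  classical
  have hS : PropS u := hs
  obtain ⟨e, he⟩ := hS.exists_biorth hu
  -- the common kernel
  let M : Submodule 𝕜 X := ⨅ i, LinearMap.ker (u i).toLinearMap
  have hMmem : ∀ z : X, z ∈ M ↔ ∀ i, u i z = 0 := by
    intro z; simp [M, Submodule.mem_iInf]
  have hMclosed : IsClosed (M : Set X) := by
    have : (M : Set X) = ⋂ i, {z : X | u i z = 0} := by
      ext z; simp [hMmem]
    rw [this]
    exact isClosed_iInter (fun i => isClosed_eq (u i).continuous continuous_const)
  have : IsClosed (M : Set X) := hMclosed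
  let s : X → ℕ → X := fun x n => ∑ i ∈ Finset.range n, u i x • e i
  have hus : ∀ x n j, u j (s x n) = if j < n then u j x else 0 := by
    intro x n j
    simp only [s, map_sum, map_smul, smul_eq_mul, he, mul_ite, mul_one, mul_zero]
    rw [Finset.sum_ite_eq (Finset.range n) j]
    simp [Finset.mem_range]
  by_cases hC : ∀ x : X, CauchySeq (fun n => M.mkQ (s x n))
  · left
    refine ⟨M, hMclosed, ?_, ?_⟩
    · -- separable
      rw [← TopologicalSpace.isSeparable_univ_iff]
      have h1 : TopologicalSpace.IsSeparable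
          (Submodule.span 𝕜 (Set.range (fun n => M.mkQ (e n))) : Set (X ⧸ M)) :=
        (Set.countable_range _).isSeparable.span
      refine h1.closure.mono ?_
      intro z _
      obtain ⟨x, rfl⟩ := M.mkQ_surjective z
      obtain ⟨z', hz'⟩ := cauchySeq_tendsto_of_complete (hC x)
      obtain ⟨x', rfl⟩ := M.mkQ_surjective z'
      have hcont : ∀ j, Continuous (fun z : X ⧸ M => M.liftQ (u j).toLinearMap
          (fun m hm => by simpa using (hMmem m).mp hm j) z) := by
        intro j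
        exact M.isQuotientMap_mkQ.continuous_iff.mpr (u j).continuous
      have heq : ∀ j, u j x' = u j x := by
        intro j
        have h2 := (hcont j).continuousAt.tendsto.comp hz'
        have h3 : Tendsto (fun n => u j (s x n)) atTop (𝓝 (u j x')) := h2
        have h4 : Tendsto (fun n => u j (s x n)) atTop (𝓝 (u j x)) := by
          refine tendsto_const_nhds.congr' ?_
          filter_upwards [eventually_gt_atTop j] with n hn
          rw [hus, if_pos hn]
        exact tendsto_nhds_unique h3 h4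
      have hxx : M.mkQ x' = M.mkQ x := by
        rw [Submodule.mkQ_apply, Submodule.mkQ_apply, Submodule.Quotient.eq, hMmem]
        intro j
        rw [map_sub, heq, sub_self]
      rw [← hxx]
      refine mem_closure_of_tendsto hz' (Eventually.of_forall fun n => ?_)
      simp only [s, map_sum, map_smul]
      exact Submodule.sum_mem _ fun j _ => Submodule.smul_mem _ _ (Submodule.subset_span ⟨j, rfl⟩)
    · -- infinite dimensional
      intro hfd
      have hli : LinearIndependent 𝕜 (fun j => M.mkQ (e j)) := by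
        rw [linearIndependent_iff']
        intro t g hg i hi
        have hmem : ∑ j ∈ t, g j • e j ∈ M := by
          have h1 : M.mkQ (∑ j ∈ t, g j • e j) = 0 := by
            rw [map_sum]; simpa [map_smul] using hg
          rwa [Submodule.mkQ_apply, Submodule.Quotient.mk_eq_zero] at h1
        have h2 := (hMmem _).mp hmem i
        simp only [map_sum, map_smul, smul_eq_mul, he, mul_ite, mul_one, mul_zero] at h2
        rw [Finset.sum_ite_eq t i] at h2
        simpa [hi] using h2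
      have := hli.finite_of_isNoetherian
      exact not_finite ℕ
  · right
    push Not at hC
    obtain ⟨y, hy⟩ := hC
    rw [Metric.cauchySeq_iff'] at hy
    push Not at hy
    obtain ⟨δ, hδ, hy⟩ := hy
    choose nx hnx hnd using hy
    have hlt : ∀ N, N < nx N := by
      intro N
      rcases lt_or_eq_of_le (hnx N) with h | h
      · exact h
      · exfalso
        have := hnd N
        rw [← h, dist_self] at this
        linarith
    let N : ℕ → ℕ := fun k => nx^[k] 0
    have hN : ∀ k, N (k + 1) = nx (N k) := fun k => Function.iterate_succ_apply' nx k 0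
    have hNmono : StrictMono N := strictMono_nat_of_lt_succ fun k => by
      rw [hN]; exact hlt _
    let A : ℕ → Finset ℕ := fun k => Finset.Ico (N k) (N (k + 1))
    have hAlt : ∀ k l, k < l → Disjoint (A k) (A l) := by
      intro k l hkl
      rw [Finset.disjoint_left]
      intro i hi hi'
      have h1 := (Finset.mem_Ico.mp hi).2
      have h2 := (Finset.mem_Ico.mp hi').1
      have h3 : N (k + 1) ≤ N l := hNmono.monotone hkl
      omega
    have hA : ∀ k l, k ≠ l → Disjoint (A k) (A l) := by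
      intro k l hkl
      rcases lt_or_gt_of_ne hkl with h | h
      · exact hAlt k l h
      · exact (hAlt l k h).symm
    -- norming functionals on the quotient
    have hblock : ∀ k, ∃ a : ℕ → 𝕜, ‖∑ i ∈ A k, a i • u i‖ ≤ 4 ∧
        δ ≤ ‖∑ i ∈ A k, a i * u i y‖ := by
      intro k
      set φ : X := ∑ i ∈ A k, u i y • e i with hφ
      have h1 : δ ≤ ‖M.mkQ φ‖ := by
        have h2 := hnd (N k)
        rw [dist_eq_norm, ← map_sub] at h2
        have h3 : s y (nx (N k)) - s y (N k) = φ := by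
          simp only [s, hφ, A, hN]
          rw [Finset.sum_Ico_eq_sub _ (hlt _).le]
        rwa [h3] at h2
      have hne : M.mkQ φ ≠ 0 := by
        intro h0
        rw [h0, norm_zero] at h1
        linarith
      obtain ⟨ψ, hψ1, hψ2⟩ := exists_dual_vector 𝕜 (M.mkQ φ) (norm_ne_zero_iff.mpr hne)
      refine ⟨fun i => ψ (M.mkQ (e i)), ?_, ?_⟩
      · obtain ⟨x, hx, h0, h4⟩ := hS (A k) (fun i => ψ (M.mkQ (e i)))
        refine h4.trans ?_
        have h5 : ∑ i ∈ A k, ψ (M.mkQ (e i)) * u i x = ψ (M.mkQ x) := by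
          have h6 : M.mkQ x = M.mkQ (∑ i ∈ A k, u i x • e i) := by
            rw [Submodule.mkQ_apply, Submodule.mkQ_apply, Submodule.Quotient.eq, hMmem]
            intro j
            rw [map_sub, map_sum]
            simp only [map_smul, smul_eq_mul, he, mul_ite, mul_one, mul_zero]
            rw [Finset.sum_ite_eq (A k) j]
            by_cases hj : j ∈ A k
            · simp [hj]
            · simp [hj, h0 j hj]
          rw [h6, map_sum, map_sum]
          refine Finset.sum_congr rfl fun i _ => ?_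
          simp only [map_smul, smul_eq_mul]
          ring
        rw [h5]
        have h7 : ‖ψ (M.mkQ x)‖ ≤ 1 := by
          refine (ψ.le_opNorm _).trans ?_
          rw [hψ1, one_mul]
          exact (Submodule.Quotient.norm_mk_le M x).trans hx
        linarith
      · have h5 : ∑ i ∈ A k, ψ (M.mkQ (e i)) * u i y = ψ (M.mkQ φ) := by
          rw [hφ, map_sum, map_sum]
          refine Finset.sum_congr rfl fun i _ => ?_
          simp only [map_smul, smul_eq_mul]
          ring
        rw [h5, hψ2]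
        simpa using h1
    choose a ha1 ha2 using hblock
    have hypos : 0 < ‖y‖ := by
      rw [norm_pos_iff]
      rintro rfl
      have := ha2 0
      simp at this
      linarith
    refine ⟨fun k => (4 : 𝕜)⁻¹ • ∑ i ∈ A k, a k i • u i, δ / (64 * ‖y‖), by positivity, ?_, ?_⟩
    · intro k
      rw [norm_smul, norm_inv]
      have : ‖(4 : 𝕜)‖ = 4 := by
        rw [show (4 : 𝕜) = ((4 : ℕ) : 𝕜) by norm_num, RCLike.norm_natCast]; norm_num
      rw [this]
      have := ha1 k
      linarith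
    · intro F c
      have h1 := hS.lower A hA a y ha2 F c
      have h2 : ∑ k ∈ F, c k • (4 : 𝕜)⁻¹ • ∑ i ∈ A k, a k i • u i
          = (4 : 𝕜)⁻¹ • ∑ k ∈ F, c k • ∑ i ∈ A k, a k i • u i := by
        rw [Finset.smul_sum]
        refine Finset.sum_congr rfl fun k _ => ?_
        rw [smul_comm]
      rw [h2, norm_smul, norm_inv]
      have h4 : ‖(4 : 𝕜)‖ = 4 := by
        rw [show (4 : 𝕜) = ((4 : ℕ) : 𝕜) by norm_num, RCLike.norm_natCast]; norm_num
      rw [h4, div_mul_eq_mul_div, div_le_iff₀ (by positivity)]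
      calc δ * ∑ k ∈ F, ‖c k‖ ≤ 16 * ‖∑ k ∈ F, c k • ∑ i ∈ A k, a k i • u i‖ * ‖y‖ := h1
        _ = 4⁻¹ * ‖∑ k ∈ F, c k • ∑ i ∈ A k, a k i • u i‖ * (64 * ‖y‖) := by ring

end Crest.Agent.R114.VT4
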