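import Crest.Agent.R114.Incid
import Crest.Agent.R114.MAvg
import Crest.Agent.R114.GSeqC
import Mathlib
import Crest.Agent.R114.CodeSeq
import Crest.Agent.R114.Defs
import Crest.Agent.R114.FrameT
import Crest.Agent.R114.VSpace
import Crest.Agent.R114.Trec

-- ▼ part R114/YSeq
section

/-! # Row 114, S0152 (S3): the sequence of normalized averages. -/

set_option autoImplicit false

open Set Filter

namespace Crest.Agent.R114

variable {I : Type} [LinearOrder I] {c : Coding I} {𝕜 : Type} [RCLike 𝕜]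

namespace YSeqAux

/-- support of an element of the span of `u a, …, u (b-1)` -/
lemma support_span {u : ℕ → I →₀ 𝕜} {S : Set ℕ} {f : I →₀ 𝕜}
    (hf : f ∈ Submodule.span 𝕜 (u '' S)) : ∀ x ∈ f.support, ∃ m ∈ S, x ∈ (u m).support := by
  classical
  induction hf using Submodule.span_induction with
  | mem g hg =>
    obtain ⟨m, hm, rfl⟩ := hg
    exact fun x hx => ⟨m, hm, hx⟩
  | zero => intro x hx; simp at hx
  | add g h _ _ ihg ihh =>
    intro x hx
    rcases Finset.mem_union.1 (Finsupp.support_add hx) with h1 | h1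
    · exact ihg x h1
    · exact ihh x h1
  | smul z g _ ih => exact fun x hx => ih x (Finsupp.support_smul hx)

lemma slt_of_span {u : ℕ → I →₀ 𝕜} (hu : IsBlockSeq u) {a b a' b' : ℕ} (hba : b ≤ a')
    {f g : I →₀ 𝕜} (hf : f ∈ Submodule.span 𝕜 (u '' Ico a b))
    (hg : g ∈ Submodule.span 𝕜 (u '' Ico a' b')) : SLt f.support g.support := by
  intro x hx y hy
  obtain ⟨m, hm, hxm⟩ := support_span hf x hx
  obtain ⟨m', hm', hym⟩ := support_span hg y hy
  exact hu.slt m m' (lt_of_lt_of_le hm.2 (hba.trans hm'.1)) x hxm y hym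

lemma nrm_zero : nrm c (0 : I →₀ 𝕜) = 0 := (nrm_eq_zero_iff (c := c) 0).2 rfl

lemma nrm_sum_le {ι : Type*} (s : Finset ι) (f : ι → I →₀ 𝕜) :
    nrm c (∑ i ∈ s, f i) ≤ ∑ i ∈ s, nrm c (f i) := by
  classical
  induction s using Finset.induction_on with
  | empty => simp [nrm_zero]
  | insert i s hi ih =>
    rw [Finset.sum_insert hi, Finset.sum_insert hi]
    exact (nrm_add_le _ _).trans (add_le_add le_rfl ih)

lemma mem_blk {u : ℕ → I →₀ 𝕜} {a b : ℕ} {f : C00 c 𝕜}
    (hf : f ∈ MAvg.Blk 𝕜 (fun i => C00.of c (u i)) a b) :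
    (show I →₀ 𝕜 from f) ∈ Submodule.span 𝕜 (u '' Ico a b) := hf

/-- one step of the construction -/
theorem step (c : Coding I) {u : ℕ → I →₀ 𝕜} (hu : IsBlockSeq u) (w P N0 : ℕ) :
    ∃ (y : I →₀ 𝕜) (K1 : ℕ), y ∈ Submodule.span 𝕜 (u '' Ico N0 K1) ∧ nrm c y = 1 ∧
      (∀ i b, i ≤ w → IsW (NB c) i b → ‖act b y‖ ≤ 4 / mq i) ∧
      ∀ E : Set I, E.OrdConnected → ∃ v ∈ Submodule.span 𝕜 (u '' Ico N0 K1), nrm c v ≤ 2 ∧
        ∀ b, NB c b → ‖act (cut E b) y - act b v‖ ≤ 4 / (P + 1) := by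
  classical
  obtain ⟨N, hN⟩ : ∃ N, N = max (nq w) (P + 1) := ⟨_, rfl⟩
  have hNw : nq w ≤ N := hN ▸ le_max_left _ _
  have hNP : P + 1 ≤ N := hN ▸ le_max_right _ _
  have hN0 : 0 < N := by omega
  have hNR : (0 : ℝ) < N := by exact_mod_cast hN0
  obtain ⟨k, h, hk, hk0, hmem, hle, hge⟩ := MAvg.exists_average (𝕜 := 𝕜) (E := C00 c 𝕜)
    (u := fun i => C00.of c (u i)) (K := 2 * mq N) (nn := nq N)
    (fun i hi => hu.ne_zero i ((nrm_eq_zero_iff (c := c) (u i)).1 hi))
    (by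
      intro k f N' hN' hk hf
      refine lower_estimate (c := c) (𝕜 := 𝕜) N N' hN' f ?_
      intro i i' hii' _
      exact slt_of_span hu (hk (Nat.succ_le_of_lt hii')) (mem_blk (hf i)) (mem_blk (hf i')))
    N (4 * N + 6) N0 hN0 (pow_le_nq le_rfl) (two_mq_lt N) (by positivity)
  have hmem' : ∀ i, (h i : I →₀ 𝕜) ∈ Submodule.span 𝕜 (u '' Ico (k i) (k (i + 1))) :=
    fun i => mem_blk (hmem i)
  set S : I →₀ 𝕜 := ∑ i ∈ Finset.range N, (show I →₀ 𝕜 from h i) with hS
  have hge' : (N : ℝ) ≤ nrm c S := hge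
  have hle' : ∀ i, nrm c (show I →₀ 𝕜 from h i) ≤ 2 := hle
  have hSpos : 0 < nrm c S := lt_of_lt_of_le hNR hge'
  set r : 𝕜 := (((nrm c S)⁻¹ : ℝ) : 𝕜) with hr
  have hrn : ‖r‖ = (nrm c S)⁻¹ := by
    rw [hr, RCLike.norm_ofReal, abs_of_pos (inv_pos.2 hSpos)]
  set h' : ℕ → I →₀ 𝕜 := fun i => r • (show I →₀ 𝕜 from h i) with hh'
  have hM : ∀ i < N, nrm c (h' i) ≤ 2 / N := by
    intro i _
    rw [hh']
    simp only
    rw [nrm_smul, hrn, inv_mul_eq_div]
    exact div_le_div₀ (by norm_num) (hle' i) hNR hge'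
  have hkm : ∀ i < N, Ico (k i) (k (i + 1)) ⊆ Ico N0 (k N) := by
    intro i hi
    exact Ico_subset_Ico (hk0.trans (hk (Nat.zero_le _))) (hk hi)
  have hm' : ∀ i < N, h' i ∈ Submodule.span 𝕜 (u '' Ico N0 (k N)) := by
    intro i hi
    exact Submodule.smul_mem _ _ (Submodule.span_mono (image_mono (hkm i hi)) (hmem' i))
  have hy : r • S = ∑ i ∈ Finset.range N, h' i := by
    rw [hS, Finset.smul_sum]
  have hs : ∀ i i', i < i' → i' < N → SLt (h' i).support (h' i').support := by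
    intro i i' hii' _
    have h1 : SLt (show I →₀ 𝕜 from h i).support (show I →₀ 𝕜 from h i').support :=
      slt_of_span hu (hk (Nat.succ_le_of_lt hii')) (hmem' i) (hmem' i')
    exact fun a ha b hb => h1 a (Finsupp.support_smul ha) b (Finsupp.support_smul hb)
  refine ⟨r • S, k N, ?_, ?_, ?_, ?_⟩
  · rw [hy]
    exact Submodule.sum_mem _ fun i hi => hm' i (Finset.mem_range.1 hi)
  · rw [nrm_smul, hrn, inv_mul_cancel₀ hSpos.ne']
  · intro i b hi hb
    rw [hy]
    refine (act_average (c := c) (j := i) (N := N)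
      ((nq_strictMono.monotone hi).trans hNw) hb h' hs hM).trans (le_of_eq ?_)
    field_simp
    norm_num
  · intro E hE
    obtain ⟨T, hT, hT2⟩ := average_cut (c := c) N hN0 h' hs hM hE
    refine ⟨∑ i ∈ T, h' i, ?_, ?_, ?_⟩
    · exact Submodule.sum_mem _ fun i hi => hm' i (Finset.mem_range.1 (hT hi))
    · calc nrm c (∑ i ∈ T, h' i) ≤ ∑ i ∈ T, nrm c (h' i) := nrm_sum_le _ _
        _ ≤ ∑ i ∈ Finset.range N, nrm c (h' i) :=
            Finset.sum_le_sum_of_subset_of_nonneg hT fun _ _ _ => nrm_nonneg _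
        _ ≤ ∑ i ∈ Finset.range N, (2 / N : ℝ) :=
            Finset.sum_le_sum fun i hi => hM i (Finset.mem_range.1 hi)
        _ = 2 := by
            rw [Finset.sum_const, Finset.card_range, nsmul_eq_mul]
            field_simp
    · intro b hb
      rw [hy]
      refine (hT2 b hb).trans ?_
      have h1 : ((P : ℝ) + 1) ≤ N := by exact_mod_cast hNP
      have h2 : 2 * (2 / (N : ℝ)) = 4 / N := by ring
      rw [h2]
      exact div_le_div_of_nonneg_left (by norm_num) (by positivity) h1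

lemma exists_large (x : ℝ) (k w : ℕ) : ∃ w', w < w' ∧ x ≤ (1 / 2 : ℝ) ^ k * mq (w' + 1) := by
  obtain ⟨n, hn⟩ := pow_unbounded_of_one_lt (x * 2 ^ k) (by norm_num : (1 : ℝ) < 16)
  refine ⟨w + n + 1, by omega, ?_⟩
  have h1 : (16 : ℝ) ^ n ≤ mq (w + n + 1 + 1) := by
    unfold mq
    push_cast
    exact pow_le_pow_right₀ (by norm_num) (by omega)
  have h2 : x * 2 ^ k ≤ mq (w + n + 1 + 1) := hn.le.trans h1
  have h3 : (0 : ℝ) < 2 ^ k := by positivity
  rw [one_div, inv_pow, inv_mul_eq_div, le_div_iff₀ h3]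
  exact h2

end YSeqAux

open YSeqAux in
theorem exists_YData (c : Coding I) (u : ℕ → I →₀ 𝕜) (hu : IsBlockSeq u) :
    ∃ (y : ℕ → I →₀ 𝕜) (w : ℕ → ℕ), YData c u y w := by
  classical
  choose Y K1 hY1 hY2 hY3 hY4 using fun w P N0 => step c hu w P N0
  choose W hW1 hW2 using fun (x : ℝ) (k w : ℕ) => exists_large x k w
  -- the states `(w k, K k)`
  let σ : ℕ → ℕ × ℕ := fun n => Nat.rec (0, 0)
    (fun k s => (W (2 * l1 (Y s.1 k s.2)) k s.1, max (K1 s.1 k s.2) (k + 1))) n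
  have hσ : ∀ k, σ (k + 1) = (W (2 * l1 (Y (σ k).1 k (σ k).2)) k (σ k).1,
    max (K1 (σ k).1 k (σ k).2) (k + 1)) := fun k => rfl
  let y : ℕ → I →₀ 𝕜 := fun k => Y (σ k).1 k (σ k).2
  let w : ℕ → ℕ := fun k => (σ k).1
  have hK : ∀ k, k ≤ (σ k).2 := by
    intro k
    cases k with
    | zero => exact Nat.zero_le _
    | succ k => rw [hσ]; exact le_max_right _ _
  have hK1 : ∀ k, K1 (σ k).1 k (σ k).2 ≤ (σ (k + 1)).2 := by
    intro k; rw [hσ]; exact le_max_left _ _
  -- nonzero vector in the block, so the block is nonempty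
  have hlt : ∀ k, (σ k).2 ≤ (σ (k + 1)).2 := by
    intro k
    by_contra hcon
    have h1 : K1 (σ k).1 k (σ k).2 ≤ (σ k).2 := (hK1 k).trans (not_le.1 hcon).le
    have h2 := hY1 (σ k).1 k (σ k).2
    rw [Ico_eq_empty (not_lt.2 h1), image_empty, Submodule.span_empty, Submodule.mem_bot] at h2
    have h3 := hY2 (σ k).1 k (σ k).2
    rw [h2, nrm_zero] at h3
    exact zero_ne_one h3
  have hmono : Monotone fun k => (σ k).2 := monotone_nat_of_le_succ hlt
  refine ⟨y, w, ?_, ⟨?_, ?_⟩, ?_, ?_, ?_, ?_, ?_⟩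
  · refine strictMono_nat_of_lt_succ fun k => ?_
    show (σ k).1 < (σ (k + 1)).1
    rw [hσ]
    exact hW1 _ _ _
  · intro k h0
    have h3 : nrm c (y k) = 1 := hY2 (σ k).1 k (σ k).2
    rw [h0, nrm_zero] at h3
    exact zero_ne_one h3
  · intro k k' hkk'
    exact slt_of_span hu ((hK1 k).trans (hmono (Nat.succ_le_of_lt hkk')))
      (hY1 (σ k).1 k (σ k).2) (hY1 (σ k').1 k' (σ k').2)
  · intro k
    refine Submodule.span_mono (image_mono ?_) (hY1 (σ k).1 k (σ k).2)
    exact fun m hm => (hK k).trans hm.1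
  · exact fun k => hY2 (σ k).1 k (σ k).2
  · intro k i b hi hb
    exact hY3 (σ k).1 k (σ k).2 i b hi hb
  · intro k
    show 2 * l1 (Y (σ k).1 k (σ k).2) ≤ (1 / 2 : ℝ) ^ k * mq ((σ (k + 1)).1 + 1)
    rw [hσ]
    exact hW2 _ _ _
  · intro k E hE
    obtain ⟨v, hv1, hv2, hv3⟩ := hY4 (σ k).1 k (σ k).2 E hE
    refine ⟨v, Submodule.span_mono (image_mono ?_) hv1, hv2, hv3⟩
    exact fun m hm => (hK k).trans hm.1

end Crest.Agent.R114
end

-- ▼ part R114/GSeq
section

/-! # Row 114, S0152 (S7): the rapidly increasing sequence. -/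

set_option autoImplicit false

open Set Filter

namespace Crest.Agent.R114

variable {I : Type} [LinearOrder I] {c : Coding I} {𝕜 : Type} [RCLike 𝕜]

namespace GSeq

/-- the normalized sum of the `y k`, `k ∈ A` -/
noncomputable def Gv (c : Coding I) (y : ℕ → I →₀ 𝕜) (A : Finset ℕ) : I →₀ 𝕜 :=
  ((nrm c (∑ k ∈ A, y k) : ℝ) : 𝕜)⁻¹ • ∑ k ∈ A, y k

omit [LinearOrder I] in
lemma tailSpan_anti (u : ℕ → I →₀ 𝕜) {a b : ℕ} (h : a ≤ b) : tailSpan u b ≤ tailSpan u a :=
  Submodule.span_mono (Set.image_mono (Ici_subset_Ici.2 h))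

lemma norm_act_Gv (y : ℕ → I →₀ 𝕜) {A : Finset ℕ} {κ : ℝ} (hκ : 0 < κ) (hA : A.Nonempty)
    (hn : κ * A.card ≤ nrm c (∑ k ∈ A, y k)) (b : I →₀ ℚ) {M : ℝ}
    (h : ∑ k ∈ A, ‖act b (y k)‖ ≤ M * A.card) : ‖act b (Gv c y A)‖ ≤ M / κ := by
  have hc : (0 : ℝ) < A.card := by exact_mod_cast hA.card_pos
  have hpos : 0 < nrm c (∑ k ∈ A, y k) := lt_of_lt_of_le (by positivity) hn
  unfold Gv
  rw [act_smul, norm_mul, norm_inv, RCLike.norm_ofReal, abs_of_pos hpos, act_sum]
  have h1 : ‖∑ k ∈ A, act b (y k)‖ ≤ M * A.card := (norm_sum_le _ _).trans h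
  have hM : 0 ≤ M * A.card := (norm_nonneg _).trans h1
  rw [inv_mul_le_iff₀ hpos]
  calc ‖∑ k ∈ A, act b (y k)‖ ≤ M * A.card := h1
    _ = κ * A.card * (M / κ) := by field_simp
    _ ≤ nrm c (∑ k ∈ A, y k) * (M / κ) := by
      refine mul_le_mul_of_nonneg_right hn ?_
      have : 0 ≤ M := nonneg_of_mul_nonneg_left hM hc
      positivity

lemma nrm_Gv (y : ℕ → I →₀ 𝕜) {A : Finset ℕ} {κ : ℝ} (hκ : 0 < κ) (hA : A.Nonempty)
    (hn : κ * A.card ≤ nrm c (∑ k ∈ A, y k)) : nrm c (Gv c y A) = 1 := by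
  have hc : (0 : ℝ) < A.card := by exact_mod_cast hA.card_pos
  have hpos : 0 < nrm c (∑ k ∈ A, y k) := lt_of_lt_of_le (by positivity) hn
  unfold Gv
  rw [nrm_smul, norm_inv, RCLike.norm_ofReal, abs_of_pos hpos, inv_mul_cancel₀ hpos.ne']

lemma mq_pos (j : ℕ) : (0 : ℝ) < mq j := by unfold mq; positivity

lemma lt_mq (j : ℕ) : j < mq j := by
  unfold mq
  calc j < j + 1 := Nat.lt_succ_self j
    _ < 16 ^ (j + 1) := Nat.lt_pow_self (by norm_num)

/-- one step -/
theorem step {u y : ℕ → I →₀ 𝕜} {w : ℕ → ℕ} (hy : YData c u y w) {κ : ℝ} (hκ : 0 < κ)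
    (hG : GoodSets c y w κ) :
    ∃ w0 : ℕ, ∀ p W K : ℕ, w0 + p ≤ W → ∃ (A : Finset ℕ) (W' : ℕ),
      A.Nonempty ∧ (∀ k ∈ A, K ≤ k ∧ p ≤ k) ∧ W < W' ∧ nrm c (Gv c y A) = 1 ∧
      (∀ i b, i ≤ W → IsW (NB c) i b → ‖act b (Gv c y A)‖ ≤ (4 / κ) / mq i) ∧
      (∀ (L : SList I) (E : Set I) (J : Set ℕ), IsSpecial c (NB c) L → E.OrdConnected →
        J.OrdConnected → J ⊆ Ioc W W' →
        ‖act (piece L E J) (Gv c y A)‖ * (W + 1) ≤ (1 / 2 : ℝ) ^ p) ∧
      2 * l1 (Gv c y A) ≤ (1 / 2 : ℝ) ^ p * mq (W' + 1) := by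
  obtain ⟨w0, hw0⟩ : ∃ w0 : ℕ, 1 / κ < (4 : ℝ) ^ w0 := pow_unbounded_of_one_lt _ (by norm_num)
  refine ⟨w0, fun p W K hW => ?_⟩
  have hW1 : (0 : ℝ) < (W : ℝ) + 1 := by positivity
  set θ : ℝ := κ * (1 / 2) ^ p / (4 * (W + 1)) with hθ
  have hθ0 : 0 < θ := by positivity
  obtain ⟨K0, hK0⟩ : ∃ K0 : ℕ, (1 / 2 : ℝ) ^ K0 < θ :=
    exists_pow_lt_of_lt_one hθ0 (by norm_num)
  obtain ⟨A, hA, hAK, hn, hwin⟩ := hG θ hθ0 (max (max K p) (max W K0))
  have hAk : ∀ k ∈ A, K ≤ k ∧ p ≤ k ∧ W ≤ k ∧ K0 ≤ k := by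
    intro k hk
    have := hAK k hk
    simp only [max_le_iff] at this
    exact ⟨this.1.1, this.1.2, this.2.1, this.2.2⟩
  have hwk : ∀ k ∈ A, W ≤ w k := fun k hk => (hAk k hk).2.2.1.trans (hy.w_mono.id_le k)
  -- the choice of `W'`
  obtain ⟨W', hWW', hl1⟩ : ∃ W' : ℕ, W < W' ∧
      2 * l1 (Gv c y A) ≤ (1 / 2 : ℝ) ^ p * mq (W' + 1) := by
    obtain ⟨n, hn⟩ := exists_nat_gt (2 * l1 (Gv c y A) / (1 / 2 : ℝ) ^ p)
    refine ⟨max (W + 1) n, lt_of_lt_of_le (Nat.lt_succ_self W) (le_max_left _ _), ?_⟩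
    have h1 : (n : ℝ) ≤ mq (max (W + 1) n + 1) := by
      have : n ≤ mq (max (W + 1) n + 1) :=
        ((le_max_right (W + 1) n).trans (Nat.le_succ _)).trans (lt_mq _).le
      exact_mod_cast this
    have h2 := (hn.trans_le h1).le
    rw [div_le_iff₀ (by positivity)] at h2
    linarith
  refine ⟨A, W', hA, fun k hk => ⟨(hAk k hk).1, (hAk k hk).2.1⟩, hWW', nrm_Gv y hκ hA hn, ?_,
    ?_, hl1⟩
  · intro i b hi hb
    have h1 : ∑ k ∈ A, ‖act b (y k)‖ ≤ (4 / mq i) * A.card := by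
      calc ∑ k ∈ A, ‖act b (y k)‖ ≤ ∑ _k ∈ A, (4 / mq i : ℝ) :=
            Finset.sum_le_sum fun k hk => hy.small k i b (hi.trans (hwk k hk)) hb
        _ = _ := by rw [Finset.sum_const, nsmul_eq_mul, mul_comm]
    refine (norm_act_Gv y hκ hA hn b h1).trans (le_of_eq ?_)
    rw [div_right_comm]
  · intro L E J hL hE hJ hJW
    have key : ∑ k ∈ A, ‖act (piece L E J) (y k)‖ ≤
        (8 / mq (W + 1) + θ + (1 / 2 : ℝ) ^ K0) * A.card := by
      have h1 : ∀ k ∈ A, ‖act (piece L E J) (y k)‖ ≤ (8 / mq (W + 1) : ℝ) +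
          ‖act (piece L E (J ∩ Ioc (w k) (w (k + 1)))) (y k)‖ + (1 / 2 : ℝ) ^ K0 := by
        intro k hk
        rw [piece_split L E J (hy.w_mono (Nat.lt_succ_self k)).le, act_add_left, act_add_left]
        refine (norm_add₃_le).trans (add_le_add (add_le_add ?_ le_rfl) ?_)
        · refine act_piece_small (a := w k) hL hE ?_ (fun i b hi hb => hy.small k i b hi hb)
          intro i hi
          exact ⟨(hJW hi.1).1, hi.2⟩
        · have h2 := act_piece_large (J := J ∩ Ioi (w (k + 1))) hL hE inter_subset_right (y k)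
          refine h2.trans ?_
          have h3 := hy.large k
          have h4 : (2 : ℝ) / mq (w (k + 1) + 1) * l1 (y k) ≤ (1 / 2 : ℝ) ^ k := by
            rw [div_mul_eq_mul_div, div_le_iff₀ (mq_pos _)]
            exact h3
          exact h4.trans (pow_le_pow_of_le_one (by norm_num) (by norm_num) (hAk k hk).2.2.2)
      calc ∑ k ∈ A, ‖act (piece L E J) (y k)‖ ≤ ∑ k ∈ A, ((8 / mq (W + 1) : ℝ) +
          ‖act (piece L E (J ∩ Ioc (w k) (w (k + 1)))) (y k)‖ + (1 / 2 : ℝ) ^ K0) :=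
            Finset.sum_le_sum h1
        _ = (8 / mq (W + 1) : ℝ) * A.card +
            ∑ k ∈ A, ‖act (piece L E (J ∩ Ioc (w k) (w (k + 1)))) (y k)‖ +
            (1 / 2 : ℝ) ^ K0 * A.card := by
          rw [Finset.sum_add_distrib, Finset.sum_add_distrib, Finset.sum_const,
            Finset.sum_const, nsmul_eq_mul, nsmul_eq_mul, mul_comm, mul_comm (A.card : ℝ)]
        _ ≤ (8 / mq (W + 1) : ℝ) * A.card + θ * A.card + (1 / 2 : ℝ) ^ K0 * A.card := by
          have := hwin L E J hL hE hJ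
          linarith
        _ = _ := by ring
    have h5 := norm_act_Gv y hκ hA hn _ key
    have h6 : (8 / mq (W + 1) : ℝ) ≤ θ := by
      rw [div_le_iff₀ (mq_pos _), hθ, div_mul_eq_mul_div, le_div_iff₀ (by positivity)]
      have e1 : (mq (W + 1) : ℝ) = 256 * 16 ^ W := by
        unfold mq; push_cast; ring
      have e2 : ((W : ℝ) + 1) ≤ 2 ^ W := by
        have : W + 1 ≤ 2 ^ W := Nat.lt_two_pow_self
        exact_mod_cast this
      have e3 : (1 / 2 : ℝ) ^ p * 2 ^ W ≥ 2 ^ w0 := by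
        have : (2 : ℝ) ^ (w0 + p) ≤ 2 ^ W := pow_le_pow_right₀ (by norm_num) hW
        calc (2 : ℝ) ^ w0 = (1 / 2 : ℝ) ^ p * 2 ^ (w0 + p) := by
              rw [pow_add, mul_comm ((2 : ℝ) ^ w0), ← mul_assoc, ← mul_pow]; norm_num
          _ ≤ _ := mul_le_mul_of_nonneg_left this (by positivity)
      have e4 : (1 : ℝ) ≤ κ * 4 ^ w0 := by
        rw [div_lt_iff₀ hκ] at hw0; linarith
      have e5 : (16 : ℝ) ^ W = 2 ^ W * (2 ^ W * 4 ^ W) := by
        rw [← mul_pow, ← mul_pow]; norm_num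
      have e6 : (4 : ℝ) ^ w0 ≤ 4 ^ W := pow_le_pow_right₀ (by norm_num) (by omega)
      have e7 : (1 : ℝ) ≤ 2 ^ w0 := one_le_pow₀ (by norm_num)
      rw [e1, e5]
      have e8 : κ * (1 / 2) ^ p * (256 * (2 ^ W * (2 ^ W * 4 ^ W))) =
          256 * (κ * 4 ^ W) * ((1 / 2) ^ p * 2 ^ W) * 2 ^ W := by ring
      rw [e8]
      have e9 : (1 : ℝ) ≤ κ * 4 ^ W := e4.trans (mul_le_mul_of_nonneg_left e6 hκ.le)
      have e10 : (1 : ℝ) ≤ (κ * 4 ^ W) * ((1 / 2) ^ p * 2 ^ W) :=
        one_le_mul_of_one_le_of_one_le e9 (e7.trans e3)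
      have e11 : (0 : ℝ) < 2 ^ W := by positivity
      nlinarith
    have h7 : (8 / mq (W + 1) + θ + (1 / 2 : ℝ) ^ K0) / κ ≤ 3 * θ / κ := by
      refine div_le_div_of_nonneg_right ?_ hκ.le
      linarith
    calc ‖act (piece L E J) (Gv c y A)‖ * (W + 1) ≤ 3 * θ / κ * (W + 1) :=
          mul_le_mul_of_nonneg_right (h5.trans h7) hW1.le
      _ = 3 / 4 * (1 / 2 : ℝ) ^ p := by
        rw [hθ]; field_simp
      _ ≤ _ := by
        have : (0 : ℝ) < (1 / 2) ^ p := by positivity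
        linarith

end GSeq

theorem exists_GData {u y : ℕ → I →₀ 𝕜} {w : ℕ → ℕ} (hu : IsBlockSeq u) (hy : YData c u y w)
    (hNK : NK c u) : ∃ (C : ℝ) (G : ℕ → I →₀ 𝕜) (w' : ℕ → ℕ), 1 ≤ C ∧ GData c u C G w' := by
  obtain ⟨κ, hκ, hG⟩ := exists_goodSets hu hy hNK
  obtain ⟨w0', hstep'⟩ := GSeq.step hy hκ hG
  obtain ⟨w0, hw0⟩ : ∃ w0 : ℕ, w0 = w0' + 2 := ⟨_, rfl⟩
  have hstep := fun (p W K : ℕ) (h : w0 + p ≤ W) => hstep' (p + 2) W K (by omega)
  choose! A W' h using hstep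
  let st : ℕ → ℕ × ℕ := fun p => Nat.rec (w0, 0)
    (fun p s => (W' p s.1 s.2, (A p s.1 s.2).sup id + 1)) p
  have st0 : st 0 = (w0, 0) := rfl
  have stS : ∀ p, st (p + 1) = (W' p (st p).1 (st p).2, (A p (st p).1 (st p).2).sup id + 1) :=
    fun p => rfl
  have hW : ∀ p, w0 + p ≤ (st p).1 := by
    intro p
    induction p with
    | zero => simp [st0]
    | succ p ih =>
      have := (h p (st p).1 (st p).2 ih).2.2.1
      rw [stS]
      simp only
      omega
  have hp := fun p => h p (st p).1 (st p).2 (hW p)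
  have hmono : StrictMono fun p => (st p).1 := strictMono_nat_of_lt_succ fun p => by
    rw [stS]; exact (hp p).2.2.1
  have hltK : ∀ p, ∀ k ∈ A p (st p).1 (st p).2, k < (st (p + 1)).2 := by
    intro p k hk
    rw [stS]
    exact Nat.lt_succ_of_le (Finset.le_sup (f := id) hk)
  have hKmono : Monotone fun p => (st p).2 := monotone_nat_of_le_succ fun p => by
    obtain ⟨k, hk⟩ := (hp p).1
    exact ((hp p).2.1 k hk).1.trans (hltK p k hk).le
  let G : ℕ → I →₀ 𝕜 := fun p => GSeq.Gv c y (A p (st p).1 (st p).2)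
  have hsupp : ∀ p, ∀ a ∈ (G p).support, ∃ k ∈ A p (st p).1 (st p).2, a ∈ (y k).support := by
    classical
    intro p a ha
    have h1 := Finsupp.support_smul ha
    have h2 := Finsupp.support_finsetSum h1
    rw [Finset.mem_biUnion] at h2
    exact h2
  refine ⟨max 1 (4 / κ), G, fun p => (st p).1, le_max_left _ _, hmono, ⟨?_, ?_⟩, ?_, ?_, ?_, ?_, ?_⟩
  · intro p h0
    have := (hp p).2.2.2.1
    rw [show GSeq.Gv c y (A p (st p).1 (st p).2) = G p from rfl, h0] at this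
    rw [(nrm_eq_zero_iff (c := c) (0 : I →₀ 𝕜)).2 rfl] at this
    exact zero_ne_one this
  · intro p p' hpp a ha b hb
    obtain ⟨k, hk, hak⟩ := hsupp p a ha
    obtain ⟨k', hk', hbk⟩ := hsupp p' b hb
    have h1 : k < (st (p + 1)).2 := hltK p k hk
    have h2 : (st (p + 1)).2 ≤ (st p').2 := hKmono hpp
    have h3 : (st p').2 ≤ k' := ((hp p').2.1 k' hk').1
    exact hy.block.slt k k' (by omega) a hak b hbk
  · intro p
    refine Submodule.smul_mem _ _ (Submodule.sum_mem _ fun k hk => ?_)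
    exact GSeq.tailSpan_anti u ((Nat.le_add_right p 2).trans ((hp p).2.1 k hk).2) (hy.mem k)
  · intro p
    exact (hp p).2.2.2.1
  · intro p i b hi hb
    refine ((hp p).2.2.2.2.1 i b hi hb).trans ?_
    exact div_le_div_of_nonneg_right (le_max_right _ _) (GSeq.mq_pos i).le
  · intro p L E J hL hE hJ hJW
    refine (hp p).2.2.2.2.2.1 L E J hL hE hJ ?_
    have : (st (p + 1)).1 = W' p (st p).1 (st p).2 := by rw [stS]
    simpa [this] using hJW
  · intro p
    have := (hp p).2.2.2.2.2.2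
    rw [stS]
    exact this

end Crest.Agent.R114
end

-- ▼ part R114/MRis
section

/-!
S8: abstract upper estimate for sums of a rapidly increasing sequence `(G_p)`. The norming
functionals `b` enter only through the sequences `s p = b (G p)`.
-/

set_option autoImplicit false

namespace Crest.Agent.R114.MRis

open Finset

variable {𝕜 : Type*} [RCLike 𝕜]

/-- the sequence `t` is, off at most `N` cut points, of the form `(1/m) s_{idx p} p` with at most
`N` sequences `s_a` of the class `SS` -/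
def TypeA (SS : Set (ℕ → 𝕜)) (C : ℝ) (m : ℝ) (N : ℕ) (t : ℕ → 𝕜) : Prop :=
  (∀ p, ‖t p‖ ≤ C) ∧ ∃ (D : Finset ℕ) (S : ℕ → (ℕ → 𝕜)) (idx : ℕ → ℕ),
    D.card ≤ N ∧ (∀ a, a < N → S a ∈ SS) ∧
      ∀ p, p ∉ D → (idx p < N ∧ ‖t p - ((m⁻¹ : ℝ) : 𝕜) * S (idx p) p‖ ≤ 0) ∨ t p = 0

/-- structure of the class `SS` relative to the level `j` -/
def Struct (SS : Set (ℕ → 𝕜)) (C ρ : ℝ) (δ : ℕ → ℝ) (m : ℕ → ℝ) (n : ℕ → ℕ) (j : ℕ) : Prop :=
  ∀ s ∈ SS, ∃ (T : ℕ → ℕ → 𝕜) (r : ℕ → 𝕜),
    (∀ p, s p = ∑ i ∈ range j, T i p + r p) ∧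
    (∀ i, i < j → TypeA SS C (m i) (n i) (T i)) ∧
    (∀ p, ‖r p‖ ≤ C) ∧
    ∃ p0 : ℕ, ∀ p, p ≠ p0 → ‖r p‖ ≤ ρ + δ p

noncomputable def al (C ρ : ℝ) : ℕ → ℝ
  | 0 => C
  | d + 1 => al C ρ d / 15 + ρ

noncomputable def be (C : ℝ) (D : ℕ) : ℕ → ℝ
  | 0 => 0
  | d + 1 => D * (be C D d + C) + C + 1

lemma al_nonneg {C ρ : ℝ} (hC : 0 ≤ C) (hρ : 0 ≤ ρ) (d : ℕ) : 0 ≤ al C ρ d := by
  induction d with
  | zero => exact hC
  | succ d ih => unfold al; positivity

lemma be_nonneg {C : ℝ} (hC : 0 ≤ C) (D d : ℕ) : 0 ≤ be C D d := by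
  induction d with
  | zero => exact le_rfl
  | succ d ih => unfold be; positivity

lemma typeA_bound {SS : Set (ℕ → 𝕜)} {C m α β : ℝ} {N : ℕ} {t : ℕ → 𝕜}
    (ht : TypeA SS C m N t) (hm : 0 < m) (hm1 : 1 ≤ m) (hC : 0 ≤ C) (hβ : 0 ≤ β)
    (hα : 0 ≤ α)
    (ih : ∀ s ∈ SS, ∀ A : Finset ℕ, ‖∑ p ∈ A, s p‖ ≤ α * A.card + β) (A : Finset ℕ) :
    ‖∑ p ∈ A, t p‖ ≤ α / m * A.card + N * (β + C) := by
  classical
  obtain ⟨htC, D, S, idx, hD, hS, ht⟩ := ht
  -- the good set
  let Gd : Finset ℕ := A.filter fun p => p ∉ D ∧ idx p < N ∧ t p = ((m⁻¹ : ℝ) : 𝕜) * S (idx p) p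
  have hsplit : ∑ p ∈ A, t p = ∑ p ∈ Gd, t p + ∑ p ∈ A \ Gd, t p := by
    rw [add_comm, Finset.sum_sdiff (Finset.filter_subset _ _)]
  have hbad : ‖∑ p ∈ A \ Gd, t p‖ ≤ N * C := by
    calc ‖∑ p ∈ A \ Gd, t p‖ ≤ ∑ p ∈ A \ Gd, ‖t p‖ := norm_sum_le _ _
      _ ≤ ∑ p ∈ A \ Gd, (if p ∈ D then C else 0) := by
        refine Finset.sum_le_sum fun p hp => ?_
        rw [Finset.mem_sdiff] at hp
        split_ifs with hpD
        · exact htC p
        · rcases ht p hpD with h | h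
          · exfalso
            apply hp.2
            rw [Finset.mem_filter]
            exact ⟨hp.1, hpD, h.1, sub_eq_zero.mp (norm_le_zero_iff.mp h.2)⟩
          · rw [h, norm_zero]
      _ = ∑ p ∈ (A \ Gd).filter (fun p => p ∈ D), C := by rw [Finset.sum_filter]
      _ = ((A \ Gd).filter (fun p => p ∈ D)).card * C := by rw [Finset.sum_const, nsmul_eq_mul]
      _ ≤ N * C := by
        gcongr
        refine (Finset.card_le_card ?_).trans hD
        intro p hp
        exact (Finset.mem_filter.mp hp).2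
  have hgood : ‖∑ p ∈ Gd, t p‖ ≤ α / m * A.card + N * β := by
    have h1 : ∑ p ∈ Gd, t p = ∑ a ∈ range N, ∑ p ∈ Gd.filter (fun p => idx p = a), t p := by
      rw [Finset.sum_fiberwise_of_maps_to]
      intro p hp
      rw [Finset.mem_range]
      exact (Finset.mem_filter.mp hp).2.2.1
    have h2 : ∀ a ∈ range N, ‖∑ p ∈ Gd.filter (fun p => idx p = a), t p‖ ≤
        m⁻¹ * (α * (Gd.filter (fun p => idx p = a)).card + β) := by
      intro a ha
      have e1 : ∑ p ∈ Gd.filter (fun p => idx p = a), t p =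
          ((m⁻¹ : ℝ) : 𝕜) * ∑ p ∈ Gd.filter (fun p => idx p = a), S a p := by
        rw [Finset.mul_sum]
        refine Finset.sum_congr rfl fun p hp => ?_
        rw [Finset.mem_filter] at hp
        obtain ⟨hp1, hp2⟩ := hp
        have := (Finset.mem_filter.mp hp1).2.2.2
        rw [this, hp2]
      rw [e1, norm_mul, RCLike.norm_ofReal, abs_of_pos (inv_pos.mpr hm)]
      exact mul_le_mul_of_nonneg_left (ih _ (hS a (Finset.mem_range.mp ha)) _)
        (inv_pos.mpr hm).le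
    have h3 : (∑ a ∈ range N, ((Gd.filter (fun p => idx p = a)).card : ℝ)) ≤ A.card := by
      have : ∑ a ∈ range N, (Gd.filter (fun p => idx p = a)).card = Gd.card := by
        rw [← Finset.card_eq_sum_card_fiberwise]
        intro p hp
        rw [Finset.mem_coe] at hp
        rw [Finset.mem_coe, Finset.mem_range]
        exact (Finset.mem_filter.mp hp).2.2.1
      have h4 : Gd.card ≤ A.card := Finset.card_le_card (Finset.filter_subset _ _)
      rw [← this] at h4
      exact_mod_cast h4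
    calc ‖∑ p ∈ Gd, t p‖
        ≤ ∑ a ∈ range N, ‖∑ p ∈ Gd.filter (fun p => idx p = a), t p‖ := by
          rw [h1]; exact norm_sum_le _ _
      _ ≤ ∑ a ∈ range N, m⁻¹ * (α * (Gd.filter (fun p => idx p = a)).card + β) :=
          Finset.sum_le_sum h2
      _ = m⁻¹ * (α * ∑ a ∈ range N, ((Gd.filter (fun p => idx p = a)).card : ℝ) + N * β) := by
          rw [← Finset.mul_sum, Finset.sum_add_distrib, Finset.mul_sum, Finset.sum_const,
            Finset.card_range, nsmul_eq_mul]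
      _ ≤ m⁻¹ * (α * A.card + N * β) := by gcongr
      _ = α / m * A.card + m⁻¹ * (N * β) := by rw [div_eq_mul_inv]; ring
      _ ≤ α / m * A.card + 1 * (N * β) := by
          gcongr
          exact inv_le_one_of_one_le₀ hm1
      _ = α / m * A.card + N * β := by rw [one_mul]
  calc ‖∑ p ∈ A, t p‖ ≤ ‖∑ p ∈ Gd, t p‖ + ‖∑ p ∈ A \ Gd, t p‖ := by
        rw [hsplit]; exact norm_add_le _ _
    _ ≤ (α / m * A.card + N * β) + N * C := add_le_add hgood hbad
    _ = α / m * A.card + N * (β + C) := by ring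

theorem iterate {SS : Set (ℕ → 𝕜)} {C ρ : ℝ} {δ : ℕ → ℝ} {m : ℕ → ℝ} {n : ℕ → ℕ} {j : ℕ}
    (hC : 0 ≤ C) (hρ : 0 ≤ ρ) (hδ0 : ∀ p, 0 ≤ δ p) (hδ : ∀ A : Finset ℕ, ∑ p ∈ A, δ p ≤ 1)
    (hm1 : ∀ i, 1 ≤ m i) (hm : ∑ i ∈ range j, (m i)⁻¹ ≤ 1 / 15)
    (hbd : ∀ s ∈ SS, ∀ p, ‖s p‖ ≤ C) (hst : Struct SS C ρ δ m n j) (d : ℕ) :
    ∀ s ∈ SS, ∀ A : Finset ℕ,
      ‖∑ p ∈ A, s p‖ ≤ al C ρ d * A.card + be C (∑ i ∈ range j, n i) d := by
  classical
  induction d with
  | zero =>
    intro s hs A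
    calc ‖∑ p ∈ A, s p‖ ≤ ∑ p ∈ A, ‖s p‖ := norm_sum_le _ _
      _ ≤ ∑ p ∈ A, C := Finset.sum_le_sum fun p _ => hbd s hs p
      _ = al C ρ 0 * A.card + be C (∑ i ∈ range j, n i) 0 := by
        rw [Finset.sum_const, nsmul_eq_mul]; simp [al, be, mul_comm]
  | succ d ih =>
    intro s hs A
    obtain ⟨T, r, hsum, hT, hrC, p0, hr⟩ := hst s hs
    set α := al C ρ d with hα
    set β := be C (∑ i ∈ range j, n i) d with hβ
    have hα0 : 0 ≤ α := al_nonneg hC hρ d
    have hβ0 : 0 ≤ β := be_nonneg hC _ d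
    have h1 : ‖∑ p ∈ A, r p‖ ≤ ρ * A.card + 1 + C := by
      calc ‖∑ p ∈ A, r p‖ ≤ ∑ p ∈ A, ‖r p‖ := norm_sum_le _ _
        _ ≤ ∑ p ∈ A, ((ρ + δ p) + (if p = p0 then C else 0)) := by
          refine Finset.sum_le_sum fun p _ => ?_
          split_ifs with hp
          · have := hrC p
            have := hδ0 p
            linarith
          · have := hr p hp
            linarith
        _ = ρ * A.card + ∑ p ∈ A, δ p + ∑ p ∈ A, (if p = p0 then C else 0) := by
          rw [Finset.sum_add_distrib, Finset.sum_add_distrib, Finset.sum_const, nsmul_eq_mul]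
          ring
        _ ≤ ρ * A.card + 1 + C := by
          refine add_le_add (add_le_add le_rfl (hδ A)) ?_
          rw [Finset.sum_ite_eq']
          split_ifs
          · exact le_rfl
          · exact hC
    have h2 : ∀ i ∈ range j, ‖∑ p ∈ A, T i p‖ ≤ α / m i * A.card + n i * (β + C) := by
      intro i hi
      exact typeA_bound (hT i (Finset.mem_range.mp hi)) (lt_of_lt_of_le one_pos (hm1 i)) (hm1 i)
        hC hβ0 hα0 ih A
    calc ‖∑ p ∈ A, s p‖ = ‖∑ i ∈ range j, ∑ p ∈ A, T i p + ∑ p ∈ A, r p‖ := by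
          rw [Finset.sum_comm, ← Finset.sum_add_distrib]
          congr 1
          exact Finset.sum_congr rfl fun p _ => hsum p
      _ ≤ ∑ i ∈ range j, ‖∑ p ∈ A, T i p‖ + ‖∑ p ∈ A, r p‖ :=
          (norm_add_le _ _).trans (add_le_add (norm_sum_le _ _) le_rfl)
      _ ≤ ∑ i ∈ range j, (α / m i * A.card + n i * (β + C)) + (ρ * A.card + 1 + C) :=
          add_le_add (Finset.sum_le_sum h2) h1
      _ = α * A.card * (∑ i ∈ range j, (m i)⁻¹) + (∑ i ∈ range j, (n i : ℝ)) * (β + C) +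
          (ρ * A.card + 1 + C) := by
          have e1 : ∑ i ∈ range j, α / m i * (A.card : ℝ) =
              α * A.card * (∑ i ∈ range j, (m i)⁻¹) := by
            rw [Finset.mul_sum]
            refine Finset.sum_congr rfl fun i _ => ?_
            rw [div_eq_mul_inv]; ring
          rw [Finset.sum_add_distrib, e1, ← Finset.sum_mul]
      _ ≤ α * A.card * (1 / 15) + (∑ i ∈ range j, (n i : ℝ)) * (β + C) +
          (ρ * A.card + 1 + C) := by gcongr
      _ = al C ρ (d + 1) * A.card + be C (∑ i ∈ range j, n i) (d + 1) := by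
          simp only [al, be, ← hα, ← hβ]
          push_cast
          ring

lemma al_le {C ρ : ℝ} (hρ : 0 ≤ ρ) (d : ℕ) : al C ρ d ≤ C / 15 ^ d + 2 * ρ := by
  induction d with
  | zero => simp only [al, pow_zero, div_one]; linarith
  | succ d ih =>
    simp only [al, pow_succ]
    have : C / (15 ^ d * 15) = C / 15 ^ d / 15 := by rw [div_div]
    rw [this]
    linarith

lemma be_le {C : ℝ} (hC : 0 ≤ C) (D d : ℕ) : be C D d ≤ (2 * C + 1) * (2 * (D + 1)) ^ d := by
  induction d with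
  | zero => simp only [be, pow_zero, mul_one]; linarith
  | succ d ih =>
    simp only [be, pow_succ]
    have h1 : (1 : ℝ) ≤ (2 * (D + 1)) ^ d := one_le_pow₀ (by
      have : (0 : ℝ) ≤ D := Nat.cast_nonneg D
      linarith)
    have hD : (0 : ℝ) ≤ D := Nat.cast_nonneg D
    set X : ℝ := (2 * ((D : ℝ) + 1)) ^ d with hX
    have h2 : (D : ℝ) * (be C D d + C) ≤ D * ((2 * C + 1) * X + C) := by gcongr
    nlinarith [mul_nonneg hC (by linarith : (0 : ℝ) ≤ X - 1),
      mul_nonneg hD (by linarith : (0 : ℝ) ≤ X - 1),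
      mul_nonneg (mul_nonneg hD hC) (by linarith : (0 : ℝ) ≤ X - 1), mul_nonneg hD hC]


end Crest.Agent.R114.MRis
private theorem rz_c3bfe8d099 : type_of% @_root_.Crest.Agent.R114.MRis.al.eq_def := @_root_.Crest.Agent.R114.MRis.al.eq_def -- L31
private theorem rz_cbaee08ae1 : type_of% @_root_.Crest.Agent.R114.MRis.al.eq_1 := @_root_.Crest.Agent.R114.MRis.al.eq_1 -- L31
private theorem rz_066be25578 : type_of% @_root_.Crest.Agent.R114.MRis.be.eq_def := @_root_.Crest.Agent.R114.MRis.be.eq_def -- L35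
private theorem rz_6c5ac45985 : type_of% @_root_.Crest.Agent.R114.MRis.be.eq_1 := @_root_.Crest.Agent.R114.MRis.be.eq_1 -- L35
end

-- ▼ part R114/RisNorm
section

/-! # Row 114, S0152 (S8): upper estimate for the rapidly increasing sequence. -/

set_option autoImplicit false

open Set Filter

namespace Crest.Agent.R114

variable {I : Type} [LinearOrder I] {c : Coding I} {𝕜 : Type} [RCLike 𝕜]

namespace Ris

open MRis

lemma IsW_smul {i : ℕ} {b : I →₀ ℚ} (hb : IsW (NB c) i b) {q : ℚ} (hq : |q| ≤ 1) :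
    IsW (NB c) i (q • b) := by
  obtain ⟨l, h1, h2, h3, rfl⟩ := hb
  refine ⟨l.map (q • ·), by simpa using h1, ?_, ?_, ?_⟩
  · intro x hx
    obtain ⟨y, hy, rfl⟩ := List.mem_map.1 hx
    exact (h2 y hy).smul hq
  · rw [List.pairwise_map]
    refine h3.imp ?_
    intro x y hxy a ha b hb
    exact hxy a (Finsupp.support_smul ha) b (Finsupp.support_smul hb)
  · rw [smul_comm, List.smul_sum]

lemma exists_common {b : I →₀ ℚ} {f : I →₀ 𝕜} (h : act b f ≠ 0) :
    ∃ a ∈ b.support, a ∈ f.support := by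
  by_contra hcon
  push Not at hcon
  exact h (act_eq_zero_of_disjoint hcon)

/-- the class of sequences -/
def SSc (c : Coding I) (G : ℕ → I →₀ 𝕜) (K : ℕ) : Set (ℕ → 𝕜) :=
  {s | ∃ b, NB c b ∧ s = fun p => act b (G (p + K))}

lemma norm_le_of_NB {u G : ℕ → I →₀ 𝕜} {w : ℕ → ℕ} {C : ℝ} (hC : 1 ≤ C) (hG : GData c u C G w)
    {b : I →₀ ℚ} (hb : NB c b) (p : ℕ) : ‖act b (G p)‖ ≤ C :=
  (norm_act_le hb _).trans (by rw [hG.nrm_eq]; exact hC)

lemma typeA_of_isW {u G : ℕ → I →₀ 𝕜} {w : ℕ → ℕ} {C : ℝ} (hC : 1 ≤ C) (hG : GData c u C G w)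
    (K : ℕ) {i : ℕ} {b : I →₀ ℚ} (hb : IsW (NB c) i b) :
    TypeA (SSc c G K) C (mq i) (nq i) (fun p => act b (G (p + K))) := by
  classical
  have hbNB : NB c b := (NB.closedFam c).wt i b hb
  refine ⟨fun p => norm_le_of_NB hC hG hbNB _, ?_⟩
  obtain ⟨l, h1, h2, h3, rfl⟩ := hb
  have hpw : ∀ (e a : Fin l.length), e < a → SuccF l[e] l[a] := by
    intro e a hea
    exact List.pairwise_iff_getElem.1 h3 e a e.2 a.2 hea
  -- the bad set
  let Dset : Set ℕ := {p | ∃ a a' : Fin l.length, a < a' ∧ act l[a] (G (p + K)) ≠ 0 ∧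
    act l[a'] (G (p + K)) ≠ 0}
  have hkey : ∀ p p' : ℕ, p < p' → ∀ (a' e : Fin l.length), act l[a'] (G (p + K)) ≠ 0 →
      act l[e] (G (p' + K)) ≠ 0 → a' ≤ e := by
    intro p p' hpp a' e ha' he
    by_contra hlt
    push Not at hlt
    obtain ⟨x, hx1, hx2⟩ := exists_common ha'
    obtain ⟨y, hy1, hy2⟩ := exists_common he
    have hxy := hG.block.slt (p + K) (p' + K) (by omega) x hx2 y hy2
    have hyx := hpw e a' hlt y hy1 x hx1
    exact lt_irrefl _ (hxy.trans hyx)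
  let first : ℕ → ℕ := fun p => if h : p ∈ Dset then (h.choose : Fin l.length) else 0
  have hfirst : ∀ p (h : p ∈ Dset), ∃ a a' : Fin l.length, first p = a ∧ a < a' ∧
      act l[a] (G (p + K)) ≠ 0 ∧ act l[a'] (G (p + K)) ≠ 0 := by
    intro p h
    obtain ⟨a', ha'⟩ := h.choose_spec
    exact ⟨h.choose, a', dif_pos h, ha'⟩
  have hinj : Set.InjOn first Dset := by
    have hlt : ∀ p ∈ Dset, ∀ p' ∈ Dset, p < p' → first p < first p' := by
      intro p hp p' hp' hpp
      obtain ⟨a, a', e1, e2, e3, e4⟩ := hfirst p hp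
      obtain ⟨a₂, a₂', f1, f2, f3, f4⟩ := hfirst p' hp'
      have := hkey p p' hpp a' a₂ e4 f3
      rw [e1, f1]
      exact_mod_cast lt_of_lt_of_le e2 this
    intro p hp p' hp' he
    rcases lt_trichotomy p p' with h | h | h
    · exact absurd he (hlt p hp p' hp' h).ne
    · exact h
    · exact absurd he.symm (hlt p' hp' p hp h).ne
  have hmaps : Set.MapsTo first Dset (Finset.range l.length : Set ℕ) := by
    intro p hp
    obtain ⟨a, a', e1, -⟩ := hfirst p hp
    rw [e1]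
    simp
  have hfin : Dset.Finite := Set.Finite.of_injOn hmaps hinj (Finset.finite_toSet _)
  have hcard : hfin.toFinset.card ≤ nq i := by
    refine le_trans ?_ h1
    rw [← Finset.card_range l.length]
    refine Finset.card_le_card_of_injOn first ?_ ?_
    · intro p hp
      exact hmaps (by simpa using hp)
    · intro p hp p' hp' he
      exact hinj (by simpa using hp) (by simpa using hp') he
  let idx : ℕ → ℕ := fun p => if h : ∃ a : Fin l.length, act l[a] (G (p + K)) ≠ 0 then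
    (h.choose : Fin l.length) else 0
  refine ⟨hfin.toFinset, fun a => if h : a < l.length then fun p => act l[a] (G (p + K)) else
    fun p => act 0 (G (p + K)), idx, hcard, ?_, ?_⟩
  · intro a _
    dsimp only
    split_ifs with h
    · exact ⟨l[a], h2 _ (List.getElem_mem h), rfl⟩
    · exact ⟨0, NB.zero c, rfl⟩
  · intro p hp
    have hp' : p ∉ Dset := by simpa using hp
    by_cases h : ∃ a : Fin l.length, act l[a] (G (p + K)) ≠ 0
    · left
      have hidx : idx p = (h.choose : Fin l.length) := dif_pos h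
      have hne := h.choose_spec
      set a₀ : Fin l.length := h.choose with ha₀
      refine ⟨by rw [hidx]; exact a₀.2.trans_le h1, ?_⟩
      have hz : ∀ a : Fin l.length, a ≠ a₀ → act l[a] (G (p + K)) = 0 := by
        intro a ha
        by_contra hane
        apply hp'
        rcases lt_or_gt_of_ne ha with h' | h'
        · exact ⟨a, a₀, h', hane, hne⟩
        · exact ⟨a₀, a, h', hne, hane⟩
      have hsum : act l.sum (G (p + K)) = act l[a₀] (G (p + K)) := by
        rw [act_list_sum_left, ← Fin.sum_univ_fun_getElem l (fun b => act b (G (p + K)))]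
        exact Finset.sum_eq_single a₀ (fun a _ ha => hz a ha) (by simp)
      beta_reduce
      rw [hidx, dif_pos a₀.2, act_smul_left, hsum]
      have : (((((mq i : ℚ))⁻¹ : ℚ)) : 𝕜) = ((((mq i : ℕ) : ℝ)⁻¹ : ℝ) : 𝕜) := by
        push_cast
        rfl
      rw [this]
      simp
    · right
      push Not at h
      beta_reduce
      have hz : ∑ a : Fin l.length, act l[a.1] (G (p + K)) = 0 :=
        Finset.sum_eq_zero fun a _ => h a
      rw [act_smul_left, act_list_sum_left,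
        ← Fin.sum_univ_fun_getElem l (fun b => act b (G (p + K))), hz, mul_zero]

/-- weak form of `GData.window` -/
lemma window_weak {u G : ℕ → I →₀ 𝕜} {w : ℕ → ℕ} {C : ℝ} (hG : GData c u C G w) (p : ℕ)
    (L : SList I) (E : Set I) (J : Set ℕ) (hL : IsSpecial c (NB c) L)
    (hE : E.OrdConnected) (hJ : J.OrdConnected) (hJw : J ⊆ Ioc (w p) (w (p + 1))) :
    ‖act (piece L E J) (G p)‖ * (w p + 1) ≤ (1 / 2 : ℝ) ^ p :=
  (hG.window p L E J hL hE hJ hJw).trans
    (pow_le_pow_of_le_one (by norm_num) (by norm_num) (Nat.le_add_right p 2))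

/-- weak form of `GData.large` -/
lemma large_weak {u G : ℕ → I →₀ 𝕜} {w : ℕ → ℕ} {C : ℝ} (hG : GData c u C G w) (p : ℕ) :
    2 * l1 (G p) ≤ (1 / 2 : ℝ) ^ p * mq (w (p + 1) + 1) :=
  (hG.large p).trans (mul_le_mul_of_nonneg_right
    (pow_le_pow_of_le_one (by norm_num) (by norm_num) (Nat.le_add_right p 2)) (by positivity))

/-- the case of a weighted functional of large index -/
lemma rest_of_isW {u G : ℕ → I →₀ 𝕜} {w : ℕ → ℕ} {C : ℝ} (hC : 1 ≤ C) (hG : GData c u C G w)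
    {j i : ℕ} (hij : j ≤ i) {b : I →₀ ℚ} (hb : IsW (NB c) i b) (P : ℕ)
    (hP : ¬ (w P < i ∧ i ≤ w (P + 1))) :
    ‖act b (G P)‖ ≤ 2 * C / mq j + 2 * (1 / 2 : ℝ) ^ P := by
  have hmono : ∀ {a b : ℕ}, a ≤ b → (mq a : ℝ) ≤ mq b := by
    intro a b hab
    unfold mq
    push_cast
    exact pow_le_pow_right₀ (by norm_num) (by omega)
  have hpos : ∀ a, (0 : ℝ) < mq a := by intro a; unfold mq; positivity
  have hhalf : (0 : ℝ) < (1 / 2 : ℝ) ^ P := by positivity
  rcases le_or_gt i (w P) with h | h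
  · have h1 := hG.small P i b h hb
    have h2 : C / mq i ≤ 2 * C / mq j := by
      rw [div_le_div_iff₀ (hpos i) (hpos j)]
      have := hmono hij
      nlinarith [hpos i, hpos j]
    linarith
  · have h' : w (P + 1) + 1 ≤ i := by
      by_contra hcon
      exact hP ⟨h, by omega⟩
    have h1 := large_weak hG P
    have h2 : ‖act b (G P)‖ ≤ (mq i : ℝ)⁻¹ * l1 (G P) := by
      refine norm_act_le_l1 (G P) fun a => ?_
      have := hb.abs_le a
      have h3 : (|b a| : ℝ) ≤ ((((mq i : ℚ))⁻¹ : ℚ) : ℝ) := by exact_mod_cast this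
      refine h3.trans (le_of_eq ?_)
      push_cast
      rfl
    have h3 : (mq i : ℝ)⁻¹ * l1 (G P) ≤ 2 * (1 / 2 : ℝ) ^ P := by
      rw [inv_mul_le_iff₀ (hpos i)]
      have h4 := hmono h'
      have h5 := l1_nonneg (G P)
      nlinarith [hpos i, mul_le_mul_of_nonneg_left h4 hhalf.le]
    have h4 : (0 : ℝ) ≤ 2 * C / mq j := by
      have := hpos j
      positivity
    linarith

lemma IsW_zero (c : Coding I) (i : ℕ) : IsW (NB c) i (0 : I →₀ ℚ) :=
  ⟨[], by simp, by simp, by simp, by simp⟩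

/-- flattening of a `Ψ`-functional -/
lemma psi_struct {n : ℕ} {ε : Fin n → ℚ} {L : Fin n → SList I} {E : Fin n → Set I}
    {J : Fin n → Set ℕ} (hε : ∀ u, |ε u| ≤ 1) (hL : ∀ u, IsSpecial c (NB c) (L u))
    (hE : ∀ u, (E u).OrdConnected)
    (hn : ∀ u, ∀ p ∈ L u, p.2 ∈ J u → n ≤ p.2)
    (hd : ∀ u v, u ≠ v → ∀ p ∈ L u, ∀ q ∈ L v, p.2 ∈ J u → q.2 ∈ J v → p.2 ≠ q.2) :
    ∃ (U : Finset ℕ) (y : ℕ → I →₀ ℚ), (∀ i ∈ U, IsW (NB c) i (y i)) ∧ (∀ i ∈ U, n ≤ i) ∧
      ∀ (J' : Set ℕ) [DecidablePred (· ∈ J')], ∑ i ∈ U.filter (· ∈ J'), y i =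
        ∑ u, ε u • piece (L u) (E u) (J u ∩ J') := by
  classical
  obtain ⟨T, x, hT, hdis, hpc⟩ := psi_flatten hL hd
  let y : ℕ → I →₀ ℚ := fun i => ∑ v, if i ∈ T v then ε v • Crest.Agent.R114.cut (E v) (x v i)
    else 0
  refine ⟨Finset.univ.biUnion T, y, ?_, ?_, ?_⟩
  · intro i hi
    obtain ⟨v, -, hv⟩ := Finset.mem_biUnion.1 hi
    have hy : y i = ε v • Crest.Agent.R114.cut (E v) (x v i) := by
      have h1 : ∀ w, w ≠ v → i ∉ T w := fun w hw hiw =>
        (Finset.disjoint_left.1 (hdis w v hw) hiw) hv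
      simp only [y]
      rw [Finset.sum_eq_single v (fun w _ hw => if_neg (h1 w hw)) (by simp), if_pos hv]
    rw [hy]
    exact IsW_smul (((hL v).wt _ (hT v i hv).1).cut (hE v)) (hε v)
  · intro i hi
    obtain ⟨v, -, hv⟩ := Finset.mem_biUnion.1 hi
    exact hn v _ (hT v i hv).1 (hT v i hv).2
  · intro J' _
    have h1 : ∀ v, piece (L v) (E v) (J v ∩ J') = ∑ i ∈ (T v).filter (· ∈ J'),
        Crest.Agent.R114.cut (E v) (x v i) := by
      intro v
      rw [hpc v (E v) (J v ∩ J') inter_subset_left]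
      refine Finset.sum_congr ?_ fun _ _ => rfl
      ext i
      simp only [Finset.mem_filter, mem_inter_iff]
      constructor
      · rintro ⟨h1, h2, h3⟩; exact ⟨h1, h3⟩
      · rintro ⟨h1, h2⟩; exact ⟨h1, (hT v i h1).2, h2⟩
    simp only [h1, Finset.smul_sum]
    simp only [y]
    rw [Finset.sum_comm]
    refine Finset.sum_congr rfl fun v _ => ?_
    rw [← Finset.sum_filter]
    refine Finset.sum_congr ?_ fun _ _ => rfl
    ext i
    simp only [Finset.mem_filter, Finset.mem_biUnion, Finset.mem_univ, true_and]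
    constructor
    · rintro ⟨⟨-, h2⟩, h3⟩; exact ⟨h3, h2⟩
    · rintro ⟨h1, h2⟩; exact ⟨⟨⟨v, h1⟩, h2⟩, h1⟩


/-- decomposition of the norming functionals relative to the level `j` -/
lemma struct_aux {u G : ℕ → I →₀ 𝕜} {w : ℕ → ℕ} {C : ℝ} (hC : 1 ≤ C) (hG : GData c u C G w)
    (j : ℕ) {b : I →₀ ℚ} (hb : NB c b) :
    ∃ (y : ℕ → I →₀ ℚ) (b' : I →₀ ℚ) (P0 : ℕ), (∀ i, IsW (NB c) i (y i)) ∧ NB c b' ∧
      (∀ f : I →₀ 𝕜, act b f = ∑ i ∈ Finset.range j, act (y i) f + act b' f) ∧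
      ∀ P, P ≠ P0 → ‖act b' (G P)‖ ≤ 2 * C / mq j + 2 * (1 / 2 : ℝ) ^ P := by
  classical
  have hpos : ∀ a, (0 : ℝ) < mq a := by intro a; unfold mq; positivity
  have hρ : (0 : ℝ) ≤ 2 * C / mq j := by
    have := hpos j
    positivity
  rcases hb.cases with ⟨a, q, hq, rfl⟩ | ⟨i, hi⟩ | hpsi
  · -- unit
    have hP0 : ∃ P0, ∀ P, P ≠ P0 → G P a = 0 := by
      by_cases h : ∃ P, G P a ≠ 0
      · obtain ⟨P, hP⟩ := h
        refine ⟨P, fun P' hP' => ?_⟩
        by_contra hne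
        rcases lt_or_gt_of_ne hP' with h | h
        · exact lt_irrefl a (hG.block.slt P' P h a (Finsupp.mem_support_iff.2 hne) a
            (Finsupp.mem_support_iff.2 hP))
        · exact lt_irrefl a (hG.block.slt P P' h a (Finsupp.mem_support_iff.2 hP) a
            (Finsupp.mem_support_iff.2 hne))
      · push Not at h
        exact ⟨0, fun P _ => h P⟩
    obtain ⟨P0, hP0⟩ := hP0
    refine ⟨fun _ => 0, Finsupp.single a q, P0, fun i => IsW_zero c i, hb, ?_, ?_⟩
    · intro f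
      simp [act_zero_left]
    · intro P hP
      rw [act_single_left, hP0 P hP, mul_zero, norm_zero]
      positivity
  · rcases lt_or_ge i j with hij | hij
    · refine ⟨fun i' => if i' = i then b else 0, 0, 0, ?_, NB.zero c, ?_, ?_⟩
      · intro i'
        dsimp only
        split_ifs with h
        · rw [h]; exact hi
        · exact IsW_zero c i'
      · intro f
        rw [act_zero_left, add_zero, Finset.sum_eq_single i]
        · beta_reduce
          rw [if_pos rfl]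
        · intro i' _ h
          beta_reduce
          rw [if_neg h, act_zero_left]
        · intro h
          exact absurd (Finset.mem_range.2 hij) h
      · intro P _
        rw [act_zero_left, norm_zero]
        positivity
    · have hP0 : ∃ P0, ∀ P, P ≠ P0 → ¬ (w P < i ∧ i ≤ w (P + 1)) := by
        by_cases h : ∃ P, w P < i ∧ i ≤ w (P + 1)
        · obtain ⟨P, hP1, hP2⟩ := h
          refine ⟨P, fun P' hP' ⟨h1, h2⟩ => hP' ?_⟩
          have h3 : P' < P + 1 := hG.w_mono.lt_iff_lt.1 (h1.trans_le hP2)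
          have h4 : P < P' + 1 := hG.w_mono.lt_iff_lt.1 (hP1.trans_le h2)
          omega
        · push Not at h
          exact ⟨0, fun P _ ⟨h1, h2⟩ => absurd h2 (by have := h P h1; omega)⟩
      obtain ⟨P0, hP0⟩ := hP0
      refine ⟨fun _ => 0, b, P0, fun i => IsW_zero c i, hb, ?_, ?_⟩
      · intro f
        simp [act_zero_left]
      · intro P hP
        exact rest_of_isW hC hG hij hi P (hP0 P hP)
  · obtain ⟨n, ε, L, E, J, hε, hL, hE, hJ, hn, hd, rfl⟩ := hpsi
    obtain ⟨U, y, hy, hUn, hyJ⟩ := psi_struct (c := c) hε hL hE hn hd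
    have htot : ∑ i ∈ U, y i = ∑ u, ε u • piece (L u) (E u) (J u) := by
      have := hyJ univ
      simpa using this
    have hj : ∑ i ∈ U.filter (· ∈ Ici j), y i =
        ∑ u, ε u • piece (L u) (E u) (J u ∩ Ici j) := hyJ (Ici j)
    have hNB' : NB c (∑ i ∈ U.filter (· ∈ Ici j), y i) := by
      rw [hj]
      refine (NB.closedFam c).psi _ ⟨n, ε, L, E, fun u => J u ∩ Ici j, hε, hL, hE,
        fun u => (hJ u).inter ordConnected_Ici, fun u p hp hpJ => hn u p hp hpJ.1,
        fun u v huv p hp q hq h1 h2 => hd u v huv p hp q hq h1.1 h2.1, rfl⟩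
    have hP0 : ∃ P0, ∀ P, P ≠ P0 → ¬ (w P < n ∧ n ≤ w (P + 1)) := by
      by_cases h : ∃ P, w P < n ∧ n ≤ w (P + 1)
      · obtain ⟨P, hP1, hP2⟩ := h
        refine ⟨P, fun P' hP' ⟨h1, h2⟩ => hP' ?_⟩
        have h3 : P' < P + 1 := hG.w_mono.lt_iff_lt.1 (h1.trans_le hP2)
        have h4 : P < P' + 1 := hG.w_mono.lt_iff_lt.1 (hP1.trans_le h2)
        omega
      · push Not at h
        exact ⟨0, fun P _ ⟨h1, h2⟩ => absurd h2 (by have := h P h1; omega)⟩
    obtain ⟨P0, hP0⟩ := hP0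
    refine ⟨fun i => if i ∈ U then y i else 0, ∑ i ∈ U.filter (· ∈ Ici j), y i, P0, ?_, hNB',
      ?_, ?_⟩
    · intro i
      dsimp only
      split_ifs with h
      · exact hy i h
      · exact IsW_zero c i
    · intro f
      rw [← htot, act_sum_left, act_sum_left]
      rw [← Finset.sum_filter_add_sum_filter_not U (· < j)]
      congr 1
      · rw [Finset.sum_filter]
        have : ∀ i ∈ Finset.range j, act (if i ∈ U then y i else 0) f =
            if i ∈ U then act (y i) f else 0 := by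
          intro i _
          split_ifs
          · rfl
          · exact act_zero_left f
        rw [Finset.sum_congr rfl this, ← Finset.sum_filter, ← Finset.sum_filter]
        refine Finset.sum_congr ?_ fun _ _ => rfl
        ext i
        simp only [Finset.mem_filter, Finset.mem_range]
        tauto
      · refine Finset.sum_congr ?_ fun _ _ => rfl
        ext i
        simp only [Finset.mem_filter, mem_Ici, not_lt]
    · intro P hP
      have hbad := hP0 P hP
      have hhalf : (0 : ℝ) < (1 / 2 : ℝ) ^ P := by positivity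
      rw [act_sum_left]
      -- small indices
      have hS1 : ‖∑ i ∈ U.filter (fun i => j ≤ i ∧ i ≤ w P), act (y i) (G P)‖ ≤
          2 * C / mq j := by
        refine (norm_sum_le _ _).trans ?_
        have h1 : ∀ i ∈ U.filter (fun i => j ≤ i ∧ i ≤ w P), ‖act (y i) (G P)‖ ≤
            C * ((mq i : ℝ))⁻¹ := by
          intro i hi
          rw [Finset.mem_filter] at hi
          have := hG.small P i (y i) hi.2.2 (hy i hi.1)
          rwa [div_eq_mul_inv] at this
        refine (Finset.sum_le_sum h1).trans ?_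
        rw [← Finset.mul_sum]
        have h2 := sum_inv_mq_le j (U.filter (fun i => j ≤ i ∧ i ≤ w P)) (by
          intro i hi
          rw [Finset.mem_filter] at hi
          exact hi.2.1)
        have h3 : C * ∑ i ∈ U.filter (fun i => j ≤ i ∧ i ≤ w P), ((mq i : ℝ))⁻¹ ≤
            C * (2 * ((mq j : ℝ))⁻¹) := mul_le_mul_of_nonneg_left h2 (by linarith)
        refine h3.trans (le_of_eq ?_)
        rw [div_eq_mul_inv]; ring
      -- window
      have hS2 : ‖∑ i ∈ U.filter (fun i => j ≤ i ∧ i ∈ Ioc (w P) (w (P + 1))),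
          act (y i) (G P)‖ ≤ (1 / 2 : ℝ) ^ P := by
        rcases lt_or_ge (w P) n with hnw | hnw
        · have hn2 : w (P + 1) < n := by
            by_contra hcon
            exact hbad ⟨hnw, by omega⟩
          rw [Finset.sum_eq_zero, norm_zero]
          · exact hhalf.le
          · intro i hi
            rw [Finset.mem_filter] at hi
            have h1 := hUn i hi.1
            have h2 := hi.2.2.2
            omega
        · have h1 : ∑ i ∈ U.filter (fun i => j ≤ i ∧ i ∈ Ioc (w P) (w (P + 1))),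
              act (y i) (G P) = ∑ u, (ε u : 𝕜) *
                act (piece (L u) (E u) (J u ∩ (Ici j ∩ Ioc (w P) (w (P + 1))))) (G P) := by
            rw [← act_sum_left]
            have h2 := hyJ (Ici j ∩ Ioc (w P) (w (P + 1)))
            have h3 : U.filter (fun i => j ≤ i ∧ i ∈ Ioc (w P) (w (P + 1))) =
                U.filter (· ∈ Ici j ∩ Ioc (w P) (w (P + 1))) := by
              ext i
              simp only [Finset.mem_filter, mem_inter_iff, mem_Ici]
            rw [h3, h2, act_sum_left]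
            exact Finset.sum_congr rfl fun u _ => act_smul_left _ _ _
          rw [h1]
          refine (norm_sum_le _ _).trans ?_
          have h2 : ∀ v ∈ (Finset.univ : Finset (Fin n)), ‖(ε v : 𝕜) *
              act (piece (L v) (E v) (J v ∩ (Ici j ∩ Ioc (w P) (w (P + 1))))) (G P)‖ ≤
              (1 / 2 : ℝ) ^ P / (w P + 1) := by
            intro v _
            rw [norm_mul]
            have h3 : ‖(ε v : 𝕜)‖ ≤ 1 := by
              have : ((ε v : ℚ) : 𝕜) = (((ε v : ℚ) : ℝ) : 𝕜) := by norm_cast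
              rw [this, RCLike.norm_ofReal]
              exact_mod_cast hε v
            have h4 := window_weak hG P (L v) (E v) (J v ∩ (Ici j ∩ Ioc (w P) (w (P + 1)))) (hL v)
              (hE v) ((hJ v).inter (ordConnected_Ici.inter ordConnected_Ioc))
              (inter_subset_right.trans inter_subset_right)
            rw [le_div_iff₀ (by positivity)]
            calc ‖(ε v : 𝕜)‖ * ‖act (piece (L v) (E v) (J v ∩ (Ici j ∩ Ioc (w P) (w (P + 1)))))
                  (G P)‖ * (w P + 1)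
                ≤ 1 * ‖act (piece (L v) (E v) (J v ∩ (Ici j ∩ Ioc (w P) (w (P + 1)))))
                  (G P)‖ * (w P + 1) := by gcongr
              _ ≤ (1 / 2 : ℝ) ^ P := by rw [one_mul]; exact h4
          refine (Finset.sum_le_sum h2).trans ?_
          rw [Finset.sum_const, Finset.card_univ, Fintype.card_fin, nsmul_eq_mul]
          have h5 : (n : ℝ) ≤ w P + 1 := by
            have : (n : ℝ) ≤ w P := by exact_mod_cast hnw
            linarith
          have h6 : (0 : ℝ) < w P + 1 := by positivity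
          rw [mul_div_assoc', div_le_iff₀ h6]
          nlinarith
      -- large indices
      have hS3 : ‖∑ i ∈ U.filter (fun i => j ≤ i ∧ w (P + 1) + 1 ≤ i), act (y i) (G P)‖ ≤
          (1 / 2 : ℝ) ^ P := by
        refine (norm_sum_le _ _).trans ?_
        have h1 := act_large (𝕜 := 𝕜) (w (P + 1) + 1)
          (U.filter (fun i => j ≤ i ∧ w (P + 1) + 1 ≤ i)) (by
            intro i hi
            rw [Finset.mem_filter] at hi
            exact hi.2.2) y (by
            intro i hi a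
            rw [Finset.mem_filter] at hi
            exact (hy i hi.1).abs_le a) (G P)
        refine h1.trans ?_
        have h2 := large_weak hG P
        have h3 := hpos (w (P + 1) + 1)
        rw [div_mul_eq_mul_div, div_le_iff₀ h3]
        exact h2
      have hsplit : ∑ i ∈ U.filter (· ∈ Ici j), act (y i) (G P) =
          ∑ i ∈ U.filter (fun i => j ≤ i ∧ i ≤ w P), act (y i) (G P) +
          (∑ i ∈ U.filter (fun i => j ≤ i ∧ i ∈ Ioc (w P) (w (P + 1))), act (y i) (G P) +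
          ∑ i ∈ U.filter (fun i => j ≤ i ∧ w (P + 1) + 1 ≤ i), act (y i) (G P)) := by
        have hlt : w P < w (P + 1) := hG.w_mono (Nat.lt_succ_self P)
        rw [← Finset.sum_union, ← Finset.sum_union]
        · refine Finset.sum_congr ?_ fun _ _ => rfl
          ext i
          simp only [Finset.mem_filter, Finset.mem_union, mem_Ici, mem_Ioc]
          constructor
          · rintro ⟨h1, h2⟩
            by_cases h3 : i ≤ w P
            · exact Or.inl ⟨h1, h2, h3⟩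
            · by_cases h4 : i ≤ w (P + 1)
              · exact Or.inr (Or.inl ⟨h1, h2, by omega, h4⟩)
              · exact Or.inr (Or.inr ⟨h1, h2, by omega⟩)
          · rintro (⟨h1, h2, -⟩ | ⟨h1, h2, -⟩ | ⟨h1, h2, -⟩) <;> exact ⟨h1, h2⟩
        · rw [Finset.disjoint_left]
          intro i h1 h2
          simp only [Finset.mem_filter, Finset.mem_union, mem_Ioc] at h1 h2
          omega
        · rw [Finset.disjoint_left]
          intro i h1 h2
          simp only [Finset.mem_filter, mem_Ioc] at h1 h2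
          omega
      rw [hsplit]
      refine (norm_add_le _ _).trans ?_
      have := norm_add_le
        (∑ i ∈ U.filter (fun i => j ≤ i ∧ i ∈ Ioc (w P) (w (P + 1))), act (y i) (G P))
        (∑ i ∈ U.filter (fun i => j ≤ i ∧ w (P + 1) + 1 ≤ i), act (y i) (G P))
      linarith

/-- the final estimate of `MRis.ris_upper` with the constant `7 C + 1` -/
theorem ris_upper_strong {SS : Set (ℕ → 𝕜)} {C : ℝ} {δ : ℕ → ℝ} {m : ℕ → ℝ} {n : ℕ → ℕ} {j : ℕ}
    (hC : 1 ≤ C) (hδ0 : ∀ p, 0 ≤ δ p) (hδ : ∀ A : Finset ℕ, ∑ p ∈ A, δ p ≤ 1)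
    (hm : ∀ i, m i = 16 ^ (i + 1))
    (hn : m j * (2 * ((∑ i ∈ Finset.range j, n i : ℕ) + 1)) ^ (2 * j + 2) ≤ n j)
    (hbd : ∀ s ∈ SS, ∀ p, ‖s p‖ ≤ C) (hst : Struct SS C (2 * C / m j) δ m n j)
    (s : ℕ → 𝕜) (hs : s ∈ SS) (A : Finset ℕ) (hA : A.card ≤ n j) :
    ‖∑ p ∈ A, s p‖ ≤ (7 * C + 1) * (n j / m j) := by
  have hm1 : ∀ i, 1 ≤ m i := fun i => by rw [hm]; exact one_le_pow₀ (by norm_num)
  have hmj : 0 < m j := lt_of_lt_of_le one_pos (hm1 j)
  have hρ : 0 ≤ 2 * C / m j := by positivity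
  have hsum : ∑ i ∈ Finset.range j, (m i)⁻¹ ≤ 1 / 15 := by
    have : ∀ J, ∑ i ∈ Finset.range J, (m i)⁻¹ = 1 / 15 * (1 - 1 / 16 ^ J) := by
      intro J
      induction J with
      | zero => simp
      | succ J ih =>
        rw [Finset.sum_range_succ, ih, hm]
        have : (16 : ℝ) ^ J ≠ 0 := by positivity
        rw [pow_succ]
        field_simp
        ring
    rw [this]
    have : (0 : ℝ) < 1 / 16 ^ j := by positivity
    nlinarith
  have h := iterate (by linarith) hρ hδ0 hδ hm1 hsum hbd hst (2 * j + 2) s hs A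
  have h1 := al_le (C := C) hρ (2 * j + 2)
  have h2 := be_le (C := C) (by linarith) (∑ i ∈ Finset.range j, n i) (2 * j + 2)
  have h3 : C / 15 ^ (2 * j + 2) ≤ C / m j := by
    rw [hm]
    gcongr
    calc (16 : ℝ) ^ (j + 1) ≤ 225 ^ (j + 1) := by gcongr; norm_num
      _ = 15 ^ (2 * j + 2) := by
        rw [show 2 * j + 2 = 2 * (j + 1) by ring, pow_mul]; norm_num
  have hAc : (A.card : ℝ) ≤ n j := by exact_mod_cast hA
  have h4 : al C (2 * C / m j) (2 * j + 2) ≤ 5 * C / m j := by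
    have : 2 * (2 * C / m j) = 4 * C / m j := by ring
    have e : 5 * C / m j = C / m j + 4 * C / m j := by ring
    linarith
  have h5 : (2 * ((∑ i ∈ Finset.range j, n i : ℕ) + 1 : ℝ)) ^ (2 * j + 2) ≤ n j / m j := by
    rw [le_div_iff₀ hmj, mul_comm]
    exact hn
  have hnj : (0 : ℝ) ≤ n j := Nat.cast_nonneg _
  calc ‖∑ p ∈ A, s p‖
      ≤ al C (2 * C / m j) (2 * j + 2) * A.card +
        be C (∑ i ∈ Finset.range j, n i) (2 * j + 2) := h
    _ ≤ 5 * C / m j * n j + (2 * C + 1) * (n j / m j) := by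
        refine add_le_add (mul_le_mul h4 hAc (Nat.cast_nonneg _) (by positivity)) ?_
        refine h2.trans (mul_le_mul_of_nonneg_left h5 (by linarith))
    _ = (7 * C + 1) * (n j / m j) := by ring

lemma sum_delta_le (K : ℕ) (hK : 3 ≤ K) (A : Finset ℕ) :
    ∑ p ∈ A, 2 * (1 / 2 : ℝ) ^ (p + K) ≤ 1 := by
  have h1 : ∑ p ∈ A, 2 * (1 / 2 : ℝ) ^ (p + K) ≤ ∑ p ∈ A, (1 / 2) * (1 / 2 : ℝ) ^ p := by
    refine Finset.sum_le_sum fun p _ => ?_
    rw [pow_add]
    have h2 : (1 / 2 : ℝ) ^ K ≤ (1 / 2 : ℝ) ^ 3 :=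
      pow_le_pow_of_le_one (by norm_num) (by norm_num) hK
    have h3 : (0 : ℝ) < (1 / 2 : ℝ) ^ p := by positivity
    nlinarith
  refine h1.trans ?_
  rw [← Finset.mul_sum]
  have h2 : ∑ p ∈ A, (1 / 2 : ℝ) ^ p ≤ 2 := by
    have hs := summable_geometric_two
    have := hs.sum_le_tsum A (fun p _ => by positivity)
    rwa [tsum_geometric_two] at this
  linarith

end Ris

open Ris MRis in
theorem ris_norm {u G : ℕ → I →₀ 𝕜} {w : ℕ → ℕ} {C : ℝ} (hC : 2 ≤ C) (hG : GData c u C G w)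
    (j : ℕ) (A : Finset ℕ) (hA : ∀ p ∈ A, j ≤ p) (hcard : A.card ≤ nq j) :
    nrm c (∑ p ∈ A, G p) ≤ 8 * C * (nq j / mq j) := by
  classical
  have hC1 : 1 ≤ C := by linarith
  have hpos : ∀ a, (0 : ℝ) < mq a := by intro a; unfold mq; positivity
  set K := j + 3 with hK
  have hmq : ∀ i, (fun i => (mq i : ℝ)) i = 16 ^ (i + 1) := by
    intro i; simp [mq]
  have hbd : ∀ s ∈ SSc c G K, ∀ p, ‖s p‖ ≤ C := by
    rintro s ⟨b, hb, rfl⟩ p
    exact norm_le_of_NB hC1 hG hb _
  have hst : Struct (SSc c G K) C (2 * C / (fun i => (mq i : ℝ)) j)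
      (fun p => 2 * (1 / 2 : ℝ) ^ (p + K)) (fun i => (mq i : ℝ)) nq j := by
    rintro s ⟨b, hb, rfl⟩
    obtain ⟨y, b', P0, hy, hb', hsum, hrest⟩ := struct_aux hC1 hG j hb
    refine ⟨fun i p => act (y i) (G (p + K)), fun p => act b' (G (p + K)), ?_, ?_, ?_, P0 - K, ?_⟩
    · intro p
      exact hsum _
    · intro i _
      exact typeA_of_isW hC1 hG K (hy i)
    · intro p
      exact norm_le_of_NB hC1 hG hb' _
    · intro p hp
      exact hrest (p + K) (by omega)
  have hgr := nq_growth j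
  refine nrm_le fun b hb => ?_
  rw [act_sum, ← Finset.sum_filter_add_sum_filter_not A (· < K)]
  refine (norm_add_le _ _).trans ?_
  have h1 : ‖∑ p ∈ A.filter (· < K), act b (G p)‖ ≤ 3 := by
    refine (norm_sum_le _ _).trans ?_
    have h2 : ∀ p ∈ A.filter (· < K), ‖act b (G p)‖ ≤ 1 := fun p _ =>
      (norm_act_le hb _).trans (hG.nrm_eq p).le
    refine (Finset.sum_le_sum h2).trans ?_
    rw [Finset.sum_const, nsmul_eq_mul, mul_one]
    have h3 : (A.filter (· < K)).card ≤ 3 := by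
      have : A.filter (· < K) ⊆ Finset.Ico j (j + 3) := by
        intro p hp
        rw [Finset.mem_filter] at hp
        rw [Finset.mem_Ico]
        exact ⟨hA p hp.1, hp.2⟩
      refine (Finset.card_le_card this).trans ?_
      simp
    exact_mod_cast h3
  have h2 : ‖∑ p ∈ A.filter (fun p => ¬ p < K), act b (G p)‖ ≤
      (7 * C + 1) * (nq j / mq j) := by
    have himg : ∑ p ∈ A.filter (fun p => ¬ p < K), act b (G p) =
        ∑ p ∈ (A.filter (fun p => ¬ p < K)).image (· - K), act b (G (p + K)) := by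
      rw [Finset.sum_image]
      · refine Finset.sum_congr rfl fun p hp => ?_
        rw [Finset.mem_filter] at hp
        have : p - K + K = p := by omega
        rw [this]
      · intro p hp p' hp' he
        have h3 : p ∈ A.filter (fun p => ¬ p < K) := hp
        have h4 : p' ∈ A.filter (fun p => ¬ p < K) := hp'
        rw [Finset.mem_filter] at h3 h4
        dsimp only at he
        omega
    rw [himg]
    have := ris_upper_strong (SS := SSc c G K) (C := C)
      (δ := fun p => 2 * (1 / 2 : ℝ) ^ (p + K)) (m := fun i => (mq i : ℝ)) (n := nq) (j := j)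
      hC1 (fun p => by positivity) (sum_delta_le K (by omega)) hmq hgr hbd hst
      (fun p => act b (G (p + K))) ⟨b, hb, rfl⟩
      ((A.filter (fun p => ¬ p < K)).image (· - K))
      (Finset.card_image_le.trans ((Finset.card_le_card (Finset.filter_subset _ _)).trans hcard))
    exact this
  have h3 : (3 : ℝ) ≤ nq j / mq j := by
    rw [le_div_iff₀ (hpos j)]
    have h4 : 3 * mq j ≤ nq j := by
      rw [nq_eq, mul_comm]
      refine Nat.mul_le_mul_left _ ?_
      calc 3 ≤ 10 ^ 1 := by norm_num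
        _ ≤ 10 ^ (4 * j + 6) := Nat.pow_le_pow_right (by norm_num) (by omega)
        _ ≤ ((j + 2) * nprev j + 10) ^ (4 * j + 6) := Nat.pow_le_pow_left (by omega) _
    exact_mod_cast h4
  nlinarith

end Crest.Agent.R114
end

-- ▼ part R114/MainLemma
section

/-! # Row 114, S0152 (S9): the main lemma. -/

set_option autoImplicit false

open Set Filter

namespace Crest.Agent.R114

variable {I : Type} [LinearOrder I] {c : Coding I} {𝕜 : Type} [RCLike 𝕜]

/-- order-connected hull of a finite set -/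
def hullF (s : Finset I) : Set I := {a | (∃ x ∈ s, x ≤ a) ∧ ∃ y ∈ s, a ≤ y}

lemma hullF_ordConnected (s : Finset I) : (hullF s).OrdConnected := by
  refine ⟨fun a ha b hb z hz => ⟨?_, ?_⟩⟩
  · obtain ⟨x, hx, hxa⟩ := ha.1
    exact ⟨x, hx, hxa.trans hz.1⟩
  · obtain ⟨y, hy, hby⟩ := hb.2
    exact ⟨y, hy, hz.2.trans hby⟩

lemma subset_hullF (s : Finset I) : (s : Set I) ⊆ hullF s :=
  fun a ha => ⟨⟨a, ha, le_rfl⟩, ⟨a, ha, le_rfl⟩⟩

lemma hullF_lt {s t : Finset I} (h : SLt s t) {a b : I} (ha : a ∈ hullF s) (hb : b ∈ hullF t) :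
    a < b := by
  obtain ⟨y, hy, hay⟩ := ha.2
  obtain ⟨x, hx, hxb⟩ := hb.1
  exact (hay.trans_lt (h y hy x hx)).trans_le hxb

omit [LinearOrder I] in
lemma tailSpan_anti (u : ℕ → I →₀ 𝕜) {N M : ℕ} (h : N ≤ M) : tailSpan u M ≤ tailSpan u N :=
  Submodule.span_mono (image_mono (Ici_subset_Ici.2 h))

lemma IsBlockSeq.hull_disj {G : ℕ → I →₀ 𝕜} (hG : IsBlockSeq G) {p q : ℕ} (h : p ≠ q) {a : I}
    (ha : a ∈ hullF (G p).support) (hb : a ∈ hullF (G q).support) : False := by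
  rcases lt_or_gt_of_ne h with h | h
  · exact lt_irrefl a (hullF_lt (hG.slt p q h) ha hb)
  · exact lt_irrefl a (hullF_lt (hG.slt q p h) hb ha)

lemma actSeq_smul (t : ℕ → (I →₀ ℚ) × ℕ) (z : 𝕜) (f : I →₀ 𝕜) :
    actSeq t (z • f) = z * actSeq t f := by
  unfold actSeq
  rw [← smul_eq_mul, smul_finsum]
  exact finsum_congr fun l => by rw [act_smul, smul_eq_mul]

/-- one step of the construction -/
theorem ml_step {u G : ℕ → I →₀ 𝕜} {w : ℕ → ℕ} {C : ℝ} (hC : 2 ≤ C) (hG : GData c u C G w)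
    (L : SList I) (P : ℕ) :
    ∃ (b : I →₀ ℚ) (Q P' : ℕ) (φ : I →₀ 𝕜), P ≤ Q ∧ Q ≤ P' ∧ IsW (NB c) (c.τ L) b ∧
      (∀ a ∈ b.support, ∃ p, Q ≤ p ∧ p < P' ∧ a ∈ hullF (G p).support) ∧
      (∀ a ∈ φ.support, ∃ p, Q ≤ p ∧ p < P' ∧ a ∈ hullF (G p).support) ∧
      φ ∈ tailSpan u L.length ∧ nrm c φ ≤ 8 * C ∧ 1 / 4 ≤ ‖act b φ‖ := by
  classical
  set j := c.τ L with hj
  set Q : ℕ := max P (max j L.length) with hQ
  have hPQ : P ≤ Q := le_max_left _ _
  have hjQ : j ≤ Q := (le_max_left _ _).trans (le_max_right _ _)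
  have hlQ : L.length ≤ Q := (le_max_right _ _).trans (le_max_right _ _)
  set n := nq j with hn
  have hn0 : 0 < n := by
    have := one_le_nprev (j + 1)
    exact this
  have hm0 : (0 : ℝ) < mq j := by unfold mq; positivity
  -- the functionals
  have hex : ∀ p, ∃ b, NB c b ∧ (1 / 2 : ℝ) < ‖act b (G p)‖ := fun p =>
    exists_act_gt (by rw [hG.nrm_eq]; norm_num)
  choose b₀ hb₀ hb₀' using hex
  set β : ℕ → I →₀ ℚ := fun p => cut (hullF (G p).support) (b₀ p) with hβ
  have hβNB : ∀ p, NB c (β p) := fun p => (hb₀ p).cut (hullF_ordConnected _)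
  have hβact : ∀ p, act (β p) (G p) = act (b₀ p) (G p) := fun p => by
    rw [hβ]
    refine act_eq_cut _ _ _ fun a _ ha => subset_hullF _ ha
  have hβsupp : ∀ p, ∀ a ∈ (β p).support, a ∈ hullF (G p).support := fun p a ha =>
    (cut_support _ _ a ha).1
  have hβ0 : ∀ p q, p ≠ q → act (β p) (G q) = 0 := fun p q hpq =>
    act_eq_zero_of_disjoint fun a ha ha' =>
      hG.block.hull_disj hpq (hβsupp p a ha) (subset_hullF _ ha')
  obtain ⟨ε, hε, hsum⟩ := exists_signs_sum (Finset.Ico Q (Q + n)) (fun p => act (β p) (G p))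
  set S : I →₀ ℚ := ∑ p ∈ Finset.Ico Q (Q + n), ε p • β p with hS
  set V : I →₀ 𝕜 := ∑ p ∈ Finset.Ico Q (Q + n), G p with hV
  have hSV : act S V = ∑ p ∈ Finset.Ico Q (Q + n), (ε p : 𝕜) * act (β p) (G p) := by
    rw [hS, act_sum_left]
    refine Finset.sum_congr rfl fun p hp => ?_
    rw [act_smul_left, hV, act_sum, Finset.sum_eq_single_of_mem p hp]
    intro q _ hq
    exact hβ0 p q hq.symm
  have hεabs : ∀ p, |ε p| ≤ 1 := fun p => by
    rcases hε p with h | h <;> rw [h] <;> norm_num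
  have hsuppS : ∀ p, ∀ a ∈ (ε p • β p).support, a ∈ hullF (G p).support := fun p a ha =>
    hβsupp p a (Finsupp.support_smul ha)
  refine ⟨((mq j : ℚ))⁻¹ • S, Q, Q + n, ((mq j : 𝕜) / (n : 𝕜)) • V, hPQ, Nat.le_add_right _ _,
    ?_, ?_, ?_, ?_, ?_, ?_⟩
  · -- weighted
    refine ⟨(List.range n).map (fun i => ε (Q + i) • β (Q + i)), by simp [hn], ?_, ?_, ?_⟩
    · intro x hx
      obtain ⟨i, _, rfl⟩ := List.mem_map.1 hx
      exact (hβNB _).smul (hεabs _)
    · rw [List.pairwise_map]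
      refine List.pairwise_lt_range.imp fun {i i'} h => ?_
      intro a ha a' ha'
      exact hullF_lt (hG.block.slt _ _ (by omega)) (hsuppS _ a ha) (hsuppS _ a' ha')
    · congr 1
      rw [hS, Finset.sum_Ico_eq_sum_range, Nat.add_sub_cancel_left]
      rfl
  · intro a ha
    have h1 := Finsupp.support_smul ha
    rw [hS] at h1
    obtain ⟨p, hp, h2⟩ : ∃ p ∈ Finset.Ico Q (Q + n), a ∈ (ε p • β p).support := by
      have := Finsupp.support_finsetSum h1
      simpa using this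
    rw [Finset.mem_Ico] at hp
    exact ⟨p, hp.1, hp.2, hsuppS p a h2⟩
  · intro a ha
    have h1 := Finsupp.support_smul ha
    rw [hV] at h1
    obtain ⟨p, hp, h2⟩ : ∃ p ∈ Finset.Ico Q (Q + n), a ∈ (G p).support := by
      have := Finsupp.support_finsetSum h1
      simpa using this
    rw [Finset.mem_Ico] at hp
    exact ⟨p, hp.1, hp.2, subset_hullF _ h2⟩
  · refine Submodule.smul_mem _ _ (Submodule.sum_mem _ fun p hp => ?_)
    exact tailSpan_anti u (hlQ.trans (Finset.mem_Ico.1 hp).1) (hG.mem p)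
  · have h1 := ris_norm hC hG j (Finset.Ico Q (Q + n)) (fun p hp =>
      hjQ.trans (Finset.mem_Ico.1 hp).1) (by simp [hn])
    rw [nrm_smul, norm_div, RCLike.norm_natCast, RCLike.norm_natCast]
    calc (mq j : ℝ) / n * nrm c V ≤ (mq j : ℝ) / n * (8 * C * (nq j / mq j)) := by
          gcongr
      _ = 8 * C := by
          have : (n : ℝ) ≠ 0 := by exact_mod_cast hn0.ne'
          rw [← hn]; field_simp
  · rw [act_smul, act_smul_left, hSV, norm_mul, norm_mul, norm_div, RCLike.norm_natCast,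
      RCLike.norm_natCast]
    have h2 : (n : ℝ) / 4 ≤ ‖∑ p ∈ Finset.Ico Q (Q + n), (ε p : 𝕜) * act (β p) (G p)‖ := by
      refine le_trans ?_ hsum
      have h3 : (n : ℝ) * (1 / 2) ≤ ∑ p ∈ Finset.Ico Q (Q + n), ‖act (β p) (G p)‖ := by
        calc (n : ℝ) * (1 / 2) = ∑ p ∈ Finset.Ico Q (Q + n), (1 / 2 : ℝ) := by simp
          _ ≤ _ := Finset.sum_le_sum fun p _ => by rw [hβact]; exact (hb₀' p).le
      linarith
    have h4 : ‖(((mq j : ℚ)⁻¹ : ℚ) : 𝕜)‖ = (mq j : ℝ)⁻¹ := by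
      push_cast
      rw [norm_inv, RCLike.norm_natCast]
    rw [h4]
    have h5 : (0 : ℝ) < n := by exact_mod_cast hn0
    calc (1 / 4 : ℝ) = (mq j : ℝ) / n * ((mq j : ℝ)⁻¹ * (n / 4)) := by field_simp
      _ ≤ _ := by gcongr

/-- from a rapidly increasing sequence to an infinite special sequence acting on bounded
vectors -/
theorem special_of_GData {u G : ℕ → I →₀ 𝕜} {w : ℕ → ℕ} {C : ℝ} (hC : 2 ≤ C)
    (hG : GData c u C G w) :
    ∃ t, IsSpecialSeq c t ∧ ∃ C' : ℝ, ∀ N, ∃ v ∈ tailSpan u N, nrm c v ≤ C' ∧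
      1 / 4 ≤ ‖actSeq t v‖ := by
  classical
  choose b Q P' φ hPQ hQP' hW hbs hφs hφm hφn hact using ml_step hC hG
  let St : ℕ → SList I × ℕ := fun n => Nat.rec ([], 0)
    (fun _ s => (s.1 ++ [(b s.1 s.2, c.τ s.1)], P' s.1 s.2)) n
  have hSt : ∀ n, St (n + 1) =
      ((St n).1 ++ [(b (St n).1 (St n).2, c.τ (St n).1)], P' (St n).1 (St n).2) := fun n => rfl
  let t : ℕ → (I →₀ ℚ) × ℕ := fun n => (b (St n).1 (St n).2, c.τ (St n).1)
  have hpre : ∀ n, pre t n = (St n).1 := by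
    intro n
    induction n with
    | zero => simp [pre, St]
    | succ n ih =>
      rw [hSt]
      show pre t (n + 1) = (St n).1 ++ [t n]
      rw [← ih]
      apply List.ext_getElem
      · simp
      · intro i h1 h2
        rw [getElem_pre, List.getElem_append]
        split_ifs with h
        · rw [getElem_pre]
        · have : i = n := by simp at h h1; omega
          subst this; simp
  have hlen : ∀ n, (St n).1.length = n := fun n => by rw [← hpre, length_pre]
  -- positions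
  have hQs : ∀ n, P' (St n).1 (St n).2 ≤ Q (St (n + 1)).1 (St (n + 1)).2 := fun n => by
    have := hPQ (St (n + 1)).1 (St (n + 1)).2
    rwa [hSt] at this ⊢
  have hQmono : ∀ m n, m < n → P' (St m).1 (St m).2 ≤ Q (St n).1 (St n).2 := by
    intro m n hmn
    induction n, hmn using Nat.le_induction with
    | base => exact hQs m
    | succ n hn ih => exact (ih.trans (hQP' _ _)).trans (hQs n)
  have hsucc : ∀ m n, m < n → ∀ a a' p p', (Q (St m).1 (St m).2 ≤ p ∧ p < P' (St m).1 (St m).2 ∧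
      a ∈ hullF (G p).support) → (Q (St n).1 (St n).2 ≤ p' ∧ p' < P' (St n).1 (St n).2 ∧
      a' ∈ hullF (G p').support) → a < a' := by
    rintro m n hmn a a' p p' ⟨_, h2, h3⟩ ⟨h4, _, h6⟩
    have := hQmono m n hmn
    exact hullF_lt (hG.block.slt p p' (by omega)) h3 h6
  have hact0 : ∀ m n, m ≠ n → act (t m).1 (φ (St n).1 (St n).2) = 0 := by
    intro m n hmn
    refine act_eq_zero_of_disjoint fun a ha ha' => ?_
    obtain ⟨p, hp⟩ := hbs _ _ a ha
    obtain ⟨p', hp'⟩ := hφs _ _ a ha'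
    rcases lt_or_gt_of_ne hmn with h | h
    · exact lt_irrefl a (hsucc m n h a a p p' hp hp')
    · exact lt_irrefl a (hsucc n m h a a p' p hp' hp)
  have hne : ∀ n, (t n).1 ≠ 0 := by
    intro n h0
    have h1 := hact (St n).1 (St n).2
    have h2 : b (St n).1 (St n).2 = 0 := h0
    rw [h2, act_zero_left, norm_zero] at h1
    norm_num at h1
  refine ⟨t, fun n => ⟨⟨?_, ?_, ?_⟩, ?_, ?_⟩, 8 * C, fun N => ?_⟩
  · intro l h
    rw [getElem_pre]; exact hne l
  · intro l l' h h'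
    rw [getElem_pre, getElem_pre]
    intro a ha a' ha'
    obtain ⟨p, hp⟩ := hbs _ _ a ha
    obtain ⟨p', hp'⟩ := hbs _ _ a' ha'
    exact hsucc l l' h a a' p p' hp hp'
  · intro l h _
    rw [getElem_pre, take_pre t (by simp at h; omega), hpre]
  · intro h
    rw [getElem_pre]
    rfl
  · intro p hp
    obtain ⟨l, hl, rfl⟩ := List.getElem_of_mem hp
    rw [getElem_pre]
    exact hW _ _
  · refine ⟨φ (St N).1 (St N).2, ?_, hφn _ _, ?_⟩
    · have := hφm (St N).1 (St N).2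
      rwa [hlen] at this
    · have : actSeq t (φ (St N).1 (St N).2) = act (t N).1 (φ (St N).1 (St N).2) := by
        unfold actSeq
        exact finsum_eq_single _ N fun m hm => hact0 m N hm
      rw [this]
      exact hact _ _

theorem main_lemma (c : Coding I) (u : ℕ → I →₀ 𝕜) (hu : IsBlockSeq u) :
    ∃ t, IsSpecialSeq c t ∧ ∃ δ : ℝ, 0 < δ ∧ ∃ C : ℝ, ∀ N, ∃ v ∈ tailSpan u N, nrm c v ≤ C ∧
      δ ≤ ‖actSeq t v‖ := by
  by_contra hcon
  push Not at hcon
  have hNK : NK c u := by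
    intro t ht ε hε
    obtain ⟨N, hN⟩ := hcon t ht ε hε 1
    refine ⟨N, fun v hv => ?_⟩
    rcases eq_or_ne (nrm c v) 0 with h0 | h0
    · have hv0 : v = 0 := (nrm_eq_zero_iff v).1 h0
      subst hv0
      have : actSeq t (0 : I →₀ 𝕜) = 0 := by
        have := actSeq_smul t (0 : 𝕜) (0 : I →₀ 𝕜)
        simpa using this
      rw [this, norm_zero, h0, mul_zero]
    · have hpos : 0 < nrm c v := lt_of_le_of_ne (nrm_nonneg v) h0.symm
      have h1 := hN (((nrm c v : ℝ) : 𝕜)⁻¹ • v) (Submodule.smul_mem _ _ hv) (by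
        rw [nrm_smul, norm_inv, RCLike.norm_ofReal, abs_of_pos hpos, inv_mul_cancel₀ h0])
      rw [actSeq_smul, norm_mul, norm_inv, RCLike.norm_ofReal, abs_of_pos hpos,
        inv_mul_lt_iff₀ hpos] at h1
      linarith
  obtain ⟨y, w, hy⟩ := exists_YData c u hu
  obtain ⟨C, G, w', hC, hG⟩ := exists_GData hu hy hNK
  have hG' : GData c u (max C 2) G w' :=
    { hG with small := fun p i b hi hb => (hG.small p i b hi hb).trans (by
        have : C ≤ max C 2 := le_max_left _ _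
        gcongr) }
  obtain ⟨t, ht, C', hC'⟩ := special_of_GData (le_max_right _ _) hG'
  obtain ⟨N, hN⟩ := hNK t ht (1 / (8 * (|C'| + 1))) (by positivity)
  obtain ⟨v, hv, hv1, hv2⟩ := hC' N
  have h1 := hN v hv
  have h2 : 1 / (8 * (|C'| + 1)) * nrm c v ≤ 1 / 8 := by
    have h3 : nrm c v ≤ |C'| + 1 := by linarith [le_abs_self C']
    calc 1 / (8 * (|C'| + 1)) * nrm c v ≤ 1 / (8 * (|C'| + 1)) * (|C'| + 1) := by gcongr
      _ = 1 / 8 := by field_simp
  linarith

end Crest.Agent.R114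
end

-- ▼ part R114/Reg
section

/-!
R114 (S0152): the index set `Idx = ω₁`, labels, and the registration of sequences of functionals
under the continuum hypothesis. (helper475)
-/

set_option autoImplicit false

namespace Crest.Agent.R114

open Cardinal Set

/-- the index set `ω₁` -/
def Idx : Type := (Cardinal.aleph.{0} 1).ord.ToType

noncomputable instance Idx.instLinearOrder : LinearOrder Idx :=
  inferInstanceAs (LinearOrder (Cardinal.aleph.{0} 1).ord.ToType)

instance Idx.instWellFoundedLT : WellFoundedLT Idx :=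
  inferInstanceAs (WellFoundedLT (Cardinal.aleph.{0} 1).ord.ToType)

theorem Idx.mk_eq : Cardinal.mk Idx = Cardinal.aleph 1 := Cardinal.mk_ord_toType _

instance Idx.instUncountable : Uncountable Idx := by
  rw [← Cardinal.aleph0_lt_mk_iff, Idx.mk_eq]
  exact Cardinal.aleph0_lt_aleph_one

instance Idx.instInfinite : Infinite Idx := inferInstance

instance Idx.instNonempty : Nonempty Idx := inferInstance

theorem Idx.countable_Iio (a : Idx) : (Set.Iio a).Countable := by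
  rw [← Cardinal.le_aleph0_iff_set_countable, ← Cardinal.lt_aleph_one_iff, ← Idx.mk_eq]
  refine Cardinal.mk_Iio_lt a ?_
  rw [Idx.mk_eq]
  exact (Ordinal.type_toType _).symm

theorem Idx.countable_Iic (a : Idx) : (Set.Iic a).Countable := by
  rw [← Set.Iio_insert]
  exact (Idx.countable_Iio a).insert a

/-- every countable set of indices is strictly bounded -/
theorem Idx.exists_gt_of_countable (S : Set Idx) (hS : S.Countable) : ∃ a : Idx, ∀ b ∈ S, b < a := by
  by_contra hcon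
  push Not at hcon
  have h1 : (Set.univ : Set Idx) ⊆ ⋃ b ∈ S, Set.Iic b := by
    intro a _
    obtain ⟨b, hb, hab⟩ := hcon a
    exact Set.mem_biUnion hb hab
  have h2 : (⋃ b ∈ S, Set.Iic b).Countable := hS.biUnion fun b _ => Idx.countable_Iic b
  have h3 : (Set.univ : Set Idx).Countable := h2.mono h1
  exact Set.not_countable_univ h3

instance Idx.instNoMaxOrder : NoMaxOrder Idx := by
  refine ⟨fun a => ?_⟩
  obtain ⟨b, hb⟩ := Idx.exists_gt_of_countable {a} (Set.countable_singleton a)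
  exact ⟨b, hb a rfl⟩

/-- injective labels -/
theorem Idx.exists_labels : ∃ x : Idx → ℕ → Bool, Function.Injective x := by
  have h : Cardinal.mk Idx ≤ Cardinal.mk (ℕ → Bool) := by
    rw [Idx.mk_eq]
    have : Cardinal.mk (ℕ → Bool) = Cardinal.continuum := by simp
    rw [this]
    exact Cardinal.aleph_one_le_continuum
  obtain ⟨f⟩ := h
  exact ⟨f, f.injective⟩

/-- General registration: if `S` has at most `ℵ₁` elements and every element has a countable
support then there is an injective map `S → ω₁` beyond the supports. -/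
theorem Idx.exists_reg {S : Type} (hS : Cardinal.mk S ≤ Cardinal.aleph 1) (supp : S → Set Idx)
    (hsupp : ∀ t, (supp t).Countable) :
    ∃ reg : S → Idx, Function.Injective reg ∧ ∀ t, ∀ a ∈ supp t, a < reg t := by
  have h1 : Nonempty (S ↪ Idx) := by
    rw [← Idx.mk_eq] at hS
    exact hS
  obtain ⟨j⟩ := h1
  have h2 : Nonempty (Idx × Idx ≃ Idx) := by
    rw [← Cardinal.eq]
    simp only [Cardinal.mk_prod, Cardinal.lift_id]
    exact Cardinal.mul_eq_self (Cardinal.aleph0_le_mk Idx)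
  obtain ⟨p⟩ := h2
  have h3 : ∀ t : S, ∃ δ : Idx, ∀ a ∈ supp t, a < p (j t, δ) := by
    intro t
    obtain ⟨b, hb⟩ := Idx.exists_gt_of_countable (supp t) (hsupp t)
    by_contra hcon
    push Not at hcon
    have h4 : ∀ δ : Idx, p (j t, δ) ∈ Set.Iic b := by
      intro δ
      obtain ⟨a, ha, hab⟩ := hcon δ
      exact hab.trans (hb a ha).le
    have h5 : Function.Injective (fun δ : Idx => (⟨p (j t, δ), h4 δ⟩ : Set.Iic b)) := by
      intro δ δ' h
      have h6 : p (j t, δ) = p (j t, δ') := congrArg Subtype.val h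
      have h7 := p.injective h6
      exact (Prod.mk.inj h7).2
    have h8 : Countable (Set.Iic b) := (Idx.countable_Iic b).to_subtype
    have h9 : Countable Idx := h5.countable
    exact not_countable h9
  choose δ hδ using h3
  refine ⟨fun t => p (j t, δ t), ?_, hδ⟩
  intro t t' h
  have h6 := p.injective h
  exact j.injective (Prod.mk.inj h6).1

/-- the number of sequences of rational functionals with weights is `ℵ₁` under CH -/
theorem Idx.mk_seq_le (hCH : Cardinal.mk ℝ = Cardinal.aleph 1) :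
    Cardinal.mk (ℕ → (Idx →₀ ℚ) × ℕ) ≤ Cardinal.aleph 1 := by
  have hc : Cardinal.continuum.{0} = Cardinal.aleph 1 := by
    rw [← Cardinal.mk_real, hCH]
  have h1 : Cardinal.mk (Idx →₀ ℚ) ≤ Cardinal.continuum := by
    rw [Cardinal.mk_finsupp_of_infinite, Idx.mk_eq]
    refine max_le ?_ ?_
    · exact Cardinal.aleph_one_le_continuum
    · simpa using Cardinal.aleph0_le_continuum
  have h2 : Cardinal.mk ((Idx →₀ ℚ) × ℕ) ≤ Cardinal.continuum := by
    simp only [Cardinal.mk_prod, Cardinal.lift_id, Cardinal.mk_nat]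
    calc Cardinal.mk (Idx →₀ ℚ) * Cardinal.aleph0
        ≤ Cardinal.continuum * Cardinal.continuum :=
          mul_le_mul' h1 Cardinal.aleph0_le_continuum
      _ = Cardinal.continuum := Cardinal.continuum_mul_self
  calc Cardinal.mk (ℕ → (Idx →₀ ℚ) × ℕ) = Cardinal.mk ((Idx →₀ ℚ) × ℕ) ^ Cardinal.aleph0 := by
        simp
    _ ≤ Cardinal.continuum ^ Cardinal.aleph0 := Cardinal.power_le_power_right h2
    _ = Cardinal.continuum := Cardinal.continuum_power_aleph0
    _ = Cardinal.aleph 1 := hc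



end Crest.Agent.R114
end

-- ▼ part R114/Index
section

/-! # Row 114, S0152: the index set under the continuum hypothesis. -/

set_option autoImplicit false

open Set Filter

namespace Crest.Agent.R114

/-- properties of the index set `ω₁` under CH -/
structure GoodIndex (I : Type) [LinearOrder I] : Prop where
  wf : WellFoundedLT I
  ne : Nonempty I
  ctbl : ∀ a : I, (Iic a).Countable
  bdd : ∀ S : Set I, S.Countable → ∃ a, ∀ s ∈ S, s < a
  lab : ∃ x : I → ℕ → Bool, Function.Injective x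
  reg : ∀ (T : Set (ℕ → (I →₀ ℚ) × ℕ)) (bd : T → I),
    ∃ r : T → I, Function.Injective r ∧ ∀ t, bd t < r t

theorem Idx.goodIndex (hCH : Cardinal.mk ℝ = Cardinal.aleph 1) : GoodIndex Idx where
  wf := inferInstance
  ne := inferInstance
  ctbl := Idx.countable_Iic
  bdd := Idx.exists_gt_of_countable
  lab := Idx.exists_labels
  reg := by
    intro T bd
    obtain ⟨r, hr, hr2⟩ := Idx.exists_reg (S := T)
      ((Cardinal.mk_set_le T).trans (Idx.mk_seq_le hCH)) (fun t => Iic (bd t))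
      (fun t => Idx.countable_Iic _)
    exact ⟨r, hr, fun t => hr2 t _ (mem_Iic.mpr le_rfl)⟩

theorem exists_goodIndex (hCH : Cardinal.mk ℝ = Cardinal.aleph 1) :
    ∃ (I : Type) (_ : LinearOrder I), GoodIndex I :=
  ⟨Idx, inferInstance, Idx.goodIndex hCH⟩

/-- registration of the infinite special sequences -/
structure Reg {I : Type} [LinearOrder I] (c : Coding I) where
  reg : {t : ℕ → (I →₀ ℚ) × ℕ // IsSpecialSeq c t} → I
  inj : Function.Injective reg
  lt : ∀ t l, ∀ a ∈ (t.1 l).1.support, a < reg t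

theorem exists_reg {I : Type} [LinearOrder I] (hI : GoodIndex I) (c : Coding I) :
    Nonempty (Reg c) := by
  classical
  have h1 : ∀ t : {t : ℕ → (I →₀ ℚ) × ℕ // IsSpecialSeq c t}, ∃ a : I,
      ∀ s ∈ ⋃ l, ((t.1 l).1.support : Set I), s < a := fun t =>
    hI.bdd _ (Set.countable_iUnion fun l => ((t.1 l).1.support.finite_toSet).countable)
  choose bd hbd using h1
  obtain ⟨r, hr1, hr2⟩ := hI.reg {t | IsSpecialSeq c t} bd
  exact ⟨⟨r, hr1, fun t l a ha => (hbd t a (Set.mem_iUnion.2 ⟨l, ha⟩)).trans (hr2 t)⟩⟩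

end Crest.Agent.R114
end

-- ▼ part R114/FrameInst
section

set_option autoImplicit false

/-!
# Row 114, S0152: the frame on `VV c 𝕜`, the main property (helper606)
-/

open Set Filter Topology

namespace Crest.Agent.R114

variable {I : Type} [LinearOrder I] {c : Coding I} {𝕜 : Type} [RCLike 𝕜]

lemma cut_single_mem (E : Set I) (ξ : I) (z : 𝕜) (h : ξ ∈ E) :
    cut E (Finsupp.single ξ z) = Finsupp.single ξ z := by
  classical
  ext a
  rw [cut_apply]
  by_cases ha : a ∈ E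
  · rw [if_pos ha]
  · rw [if_neg ha, Finsupp.single_apply, if_neg]
    rintro rfl; exact ha h

lemma cut_single_notMem (E : Set I) (ξ : I) (z : 𝕜) (h : ξ ∉ E) :
    cut E (Finsupp.single ξ z) = 0 := by
  classical
  ext a
  rw [cut_apply]
  by_cases ha : a ∈ E
  · rw [if_pos ha, Finsupp.single_apply, if_neg]
    · rfl
    · rintro rfl; exact h ha
  · rw [if_neg ha]; rfl

lemma vec_eq_sum (f : I →₀ 𝕜) :
    vec c f = ∑ ξ ∈ f.support, f ξ • vec c (Finsupp.single ξ (1 : 𝕜)) := by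
  conv_lhs => rw [← Finsupp.sum_single f, Finsupp.sum, vec_sum]
  refine Finset.sum_congr rfl fun ξ _ => ?_
  rw [← vec_smul, Finsupp.smul_single, smul_eq_mul, mul_one]

/-- the frame on `VV c 𝕜` -/
noncomputable def frameV (c : Coding I) (𝕜 : Type) [RCLike 𝕜] : Frame 𝕜 (VV c 𝕜) I where
  δ := fun ξ => vec c (Finsupp.single ξ (1 : 𝕜))
  R := fun γ => RV c 𝕜 (E := Iio γ) ordConnected_Iio
  e := fun ξ => actV c 𝕜 (Finsupp.single ξ 1)
  dense := by
    intro v
    rw [Metric.mem_closure_iff]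
    intro ε hε
    obtain ⟨f, hf⟩ := exists_vec_near v hε
    refine ⟨vec c f, ?_, by rwa [dist_eq_norm]⟩
    rw [vec_eq_sum]
    exact Submodule.sum_mem _ fun ξ _ => Submodule.smul_mem _ _ (Submodule.subset_span ⟨ξ, rfl⟩)
  R_norm := fun γ v => norm_RV_le _ v
  R_lt := fun γ ξ h => by rw [RV_vec, cut_single_mem (Iio γ) ξ (1 : 𝕜) h]
  R_ge := fun γ ξ h => by
    rw [RV_vec, cut_single_notMem (Iio γ) ξ (1 : 𝕜) (not_lt.mpr h)]
    exact map_zero (emb c 𝕜)
  e_self := fun ξ => by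
    rw [actV_vec, act_single_left, Finsupp.single_eq_same]; simp
  e_ne := fun ξ η h => by
    rw [actV_vec, act_single_left, Finsupp.single_apply, if_neg h.symm, mul_zero]

lemma frameV_R (γ : I) (v : VV c 𝕜) :
    (frameV c 𝕜).R γ v = RV c 𝕜 (E := Iio γ) ordConnected_Iio v := rfl

/-- a vector in the span of the basis over `E` comes from a function supported in `E` -/
lemma exists_vec_of_mem_span {E : Set I} {v : VV c 𝕜}
    (hv : v ∈ Submodule.span 𝕜 ((frameV c 𝕜).δ '' E)) :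
    ∃ f : I →₀ 𝕜, ↑f.support ⊆ E ∧ vec c f = v := by
  classical
  obtain ⟨l, hl, rfl⟩ := (Finsupp.mem_span_image_iff_linearCombination 𝕜).mp hv
  refine ⟨l, (Finsupp.mem_supported 𝕜 l).mp hl, ?_⟩
  rw [Finsupp.linearCombination_apply, vec_eq_sum]
  rfl

/-- the linear map `vec` -/
noncomputable def vecL (c : Coding I) (𝕜 : Type) [RCLike 𝕜] : (I →₀ 𝕜) →ₗ[𝕜] VV c 𝕜 where
  toFun := vec c
  map_add' := vec_add
  map_smul' := fun z f => vec_smul z f

/-- interface of the instantiation of the recursion data -/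
structure TInst (r : Reg c) (d : TData 𝕜 (VV c 𝕜) I) : Prop where
  est : ∀ ξ, d.est ξ = actV c 𝕜 (Finsupp.single ξ 1)
  b : ∀ t (ht : IsSpecialSeq c t) l, d.b (r.reg ⟨t, ht⟩) l = (t l).1
  S : ∀ t (ht : IsSpecialSeq c t) K, d.S (r.reg ⟨t, ht⟩) K = tailV c 𝕜 t K
  S_zero : ∀ ξ, (∀ t, r.reg t ≠ ξ) → ∀ K, d.S ξ K = 0

theorem TInst.compat {r : Reg c} {d : TData 𝕜 (VV c 𝕜) I} (h : TInst r d) :
    Frame.Compat (frameV c 𝕜) d where
  est := h.est
  S_R := by
    intro ξ K v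
    by_cases hξ : ∃ t, r.reg t = ξ
    · obtain ⟨⟨t, ht⟩, rfl⟩ := hξ
      rw [h.S t ht K]
      refine tailV_RV ht K _ (fun l a ha => ?_) v
      exact r.lt ⟨t, ht⟩ l a ha
    · push Not at hξ
      rw [h.S_zero ξ hξ K]; rfl

theorem mainProp {r : Reg c} [WellFoundedLT I] {d : TData 𝕜 (VV c 𝕜) I} (h : TInst r d) :
    (frameV c 𝕜).MainProp d.gen := by
  classical
  intro γ u a ha haγ hacof hune hu
  -- finitely supported representatives
  choose f hfsupp hf using fun k => exists_vec_of_mem_span (hu k)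
  have hfne : ∀ k, f k ≠ 0 := by
    intro k h0
    apply hune k
    rw [← hf k, h0]
    exact map_zero (vecL c 𝕜)
  have hblock : IsBlockSeq f := by
    refine ⟨hfne, fun k k' hkk' => ?_⟩
    intro x hx y hy
    have h1 := hfsupp k hx
    have h2 := hfsupp k' hy
    exact h1.2.trans_le ((ha (show k + 1 ≤ k' from hkk')).trans h2.1)
  obtain ⟨t, ht, δ, hδ, C, hC⟩ := main_lemma c f hblock
  -- vectors in the tail span are supported in `[a N, γ)`
  have htail : ∀ N, ∀ v ∈ tailSpan f N, ↑v.support ⊆ Ico (a N) γ := by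
    intro N v hv
    induction hv using Submodule.span_induction with
    | mem x hx =>
      obtain ⟨k, hk, rfl⟩ := hx
      intro y hy
      have h1 := hfsupp k hy
      exact ⟨(ha hk).trans h1.1, h1.2.trans (haγ _)⟩
    | zero => intro y hy; simp at hy
    | add x y _ _ hx hy =>
      intro z hz
      rcases Finset.mem_union.mp (Finsupp.support_add hz) with h1 | h1
      · exact hx h1
      · exact hy h1
    | smul b x _ hx => intro z hz; exact hx (Finsupp.support_smul hz)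
  -- supports of `t` are below `γ`
  have htsupp : ∀ l, ∀ ξ ∈ (t l).1.support, ξ < γ := by
    intro l ξ hξ
    by_contra hcon
    push Not at hcon
    let F : Finset I := ((Finset.range (l + 1)).biUnion fun l' => (t l').1.support).filter (· < γ)
    have hF : ∃ N, ∀ η ∈ F, η < a N := by
      have h1 : ∀ η ∈ F, ∃ k, η < a k := fun η hη => hacof η (Finset.mem_filter.mp hη).2
      choose! k hk using h1
      exact ⟨F.sup k, fun η hη => (hk η hη).trans_le (ha (Finset.le_sup hη))⟩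
    obtain ⟨N, hN⟩ := hF
    obtain ⟨v, hv, -, hvδ⟩ := hC N
    have hvs := htail N v hv
    have h0 : actSeq t v = 0 := by
      unfold actSeq
      refine finsum_eq_zero_of_forall_eq_zero fun l' => ?_
      refine act_eq_zero_of_disjoint fun η hη hηv => ?_
      have h2 := hvs hηv
      rcases Nat.lt_or_ge l l' with hl | hl
      · have h3 := (ht (l' + 1)).coded.succ l l' hl (by simp)
        rw [getElem_pre, getElem_pre] at h3
        exact absurd h2.2 (not_lt.mpr (hcon.trans (h3 ξ hξ η hη).le))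
      · have h3 : η ∈ F := by
          refine Finset.mem_filter.mpr ⟨Finset.mem_biUnion.mpr ⟨l', ?_, hη⟩, h2.2⟩
          exact Finset.mem_range.mpr (Nat.lt_succ_of_le hl)
        exact absurd h2.1 (not_le.mpr (hN η h3))
    rw [h0, norm_zero] at hvδ
    exact absurd hδ (not_lt.mpr hvδ)
  refine ⟨r.reg ⟨t, ht⟩, tailV c 𝕜 t 0, δ, C, hδ, ?_, ?_, ?_⟩
  · intro v
    rw [frameV_R]
    exact tailV_RV ht 0 _ (fun l x hx => htsupp l x hx) v
  · intro N
    obtain ⟨v, hv, hvC, hvδ⟩ := hC N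
    refine ⟨vec c v, ?_, by rwa [norm_vec], by rwa [tailV_zero_vec ht]⟩
    have h1 : vecL c 𝕜 v ∈ Submodule.map (vecL c 𝕜) (tailSpan f N) := Submodule.mem_map_of_mem hv
    rw [tailSpan, Submodule.map_span] at h1
    refine Submodule.span_mono ?_ h1
    rintro _ ⟨_, ⟨k, hk, rfl⟩, rfl⟩
    exact ⟨k, hk, (hf k).symm⟩
  · intro ψ hB hψ
    have h1 := h.compat.small_part (r.reg ⟨t, ht⟩) γ (fun l η hη => by
      rw [h.b t ht l] at hη; exact htsupp l η hη) ψ hB hψ
    rw [h.S t ht 0] at h1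
    exact h1

end Crest.Agent.R114
end

-- ▼ part R114/FinalInst
section

set_option autoImplicit false

/-!
# Row 114, S0152: final assembly (helper606)
-/

open Set Filter Topology

namespace Crest.Agent.R114

theorem exists_space_of_inst {𝕜 : Type} [RCLike 𝕜] {I : Type} [LinearOrder I] (hI : GoodIndex I)
    {c : Coding I} {r : Reg c} [WellFoundedLT I] {d : TData 𝕜 (VV c 𝕜) I} (h : TInst r d)
    (hdual : ∀ F : Frame.Predual d.gen →L[𝕜] 𝕜, ∃ v : VV c 𝕜, ∀ β,
      F ⟨d.gen β, Frame.mem_predual _ β⟩ = d.gen β v) :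
    ∃ (X : Type) (_ : NormedAddCommGroup X) (_ : NormedSpace 𝕜 X),
      CompleteSpace X ∧ ¬ FiniteDimensional 𝕜 X ∧
      ∀ M : Submodule 𝕜 X, IsClosed (M : Set X) →
        TopologicalSpace.SeparableSpace (X ⧸ M) → FiniteDimensional 𝕜 (X ⧸ M) := by
  have hne : Nonempty I := hI.ne
  have hcof : ∀ s : ℕ → I, ∃ γ, ∀ n, s n < γ := by
    intro s
    obtain ⟨γ, hγ⟩ := hI.bdd (range s) (countable_range s)
    exact ⟨γ, fun n => hγ _ ⟨n, rfl⟩⟩
  have hcount : ∀ γ : I, (Iio γ).Countable := fun γ => (hI.ctbl γ).mono Iio_subset_Iic_self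
  have hnomax : NoMaxOrder I := ⟨fun a => by
    obtain ⟨γ, hγ⟩ := hcof (fun _ => a)
    exact ⟨γ, hγ 0⟩⟩
  have hinf : Infinite I := inferInstance
  exact (frameV c 𝕜).exists_space hcount hcof d.gen (mainProp h) hdual
    (fun v hv => h.compat.gen_inj hcof v hv)

end Crest.Agent.R114
end

-- ▼ part R114/TInst
section

/-! # Row 114, S0152 (g2): instantiation of the recursion `TData` on `VV c 𝕜`. (helper430) -/

set_option autoImplicit false

open Set Filter Topology

namespace Crest.Agent.R114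

/-! ### local versions of the span statements of `TData` -/

namespace TData

section
variable {𝕜 : Type*} [RCLike 𝕜] {V : Type*} [NormedAddCommGroup V] [NormedSpace 𝕜 V]
  {I : Type*} [LinearOrder I] (d : TData 𝕜 V I) [WellFoundedLT I]




end

end TData

/-! ### special sequences -/

section special
variable {I : Type} [LinearOrder I] {c : Coding I}

lemma IsSpecialSeq.coded {t : ℕ → (I →₀ ℚ) × ℕ} (ht : IsSpecialSeq c t) : IsCodedSeq c t :=
  fun n => (ht n).coded

lemma IsSpecialSeq.isW {t : ℕ → (I →₀ ℚ) × ℕ} (ht : IsSpecialSeq c t) (l : ℕ) :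
    IsW (NB c) (t l).2 (t l).1 := by
  refine (ht (l + 1)).wt (t l) ?_
  unfold pre
  rw [List.mem_ofFn]
  exact ⟨⟨l, Nat.lt_succ_self l⟩, rfl⟩

lemma IsSpecialSeq.abs_le {t : ℕ → (I →₀ ℚ) × ℕ} (ht : IsSpecialSeq c t) (l : ℕ) (η : I) :
    |(((t l).1 η : ℚ) : ℝ)| ≤ ((mq (t l).2 : ℝ))⁻¹ := by
  have h := (ht.isW l).abs_le η
  have h2 : ((|(t l).1 η| : ℚ) : ℝ) ≤ (((mq (t l).2 : ℚ)⁻¹ : ℚ) : ℝ) := by exact_mod_cast h
  push_cast at h2
  exact h2

lemma IsSpecialSeq.le_idx {t : ℕ → (I →₀ ℚ) × ℕ} (ht : IsSpecialSeq c t) (l : ℕ) :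
    l ≤ (t l).2 := ht.coded.idx_strictMono.le_apply

lemma inv_mq_le (j l : ℕ) (h : l ≤ j) : ((mq j : ℝ))⁻¹ ≤ (1 / 2 : ℝ) ^ l := by
  unfold mq
  push_cast
  rw [one_div, inv_pow]
  apply inv_anti₀ (by positivity)
  calc (2 : ℝ) ^ l ≤ 2 ^ (j + 1) := pow_le_pow_right₀ (by norm_num) (by omega)
    _ ≤ 16 ^ (j + 1) := pow_le_pow_left₀ (by norm_num) (by norm_num) _

lemma IsSpecialSeq.summable {t : ℕ → (I →₀ ℚ) × ℕ} (ht : IsSpecialSeq c t) :
    Summable fun l => ((mq (t l).2 : ℝ))⁻¹ := by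
  refine Summable.of_nonneg_of_le (fun l => by positivity) (fun l => inv_mq_le _ l (ht.le_idx l))
    (summable_geometric_of_lt_one (by norm_num) (by norm_num))

end special

/-! ### the instance -/

section inst
variable {I : Type} [LinearOrder I] {c : Coding I}

open Classical in
/-- the registered sequence at `ξ`, if any -/
noncomputable def seqAt (r : Reg c) (ξ : I) : Option {t : ℕ → (I →₀ ℚ) × ℕ // IsSpecialSeq c t} :=
  if h : ∃ t, r.reg t = ξ then some h.choose else none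

lemma seqAt_reg (r : Reg c) (t : {t : ℕ → (I →₀ ℚ) × ℕ // IsSpecialSeq c t}) :
    seqAt r (r.reg t) = some t := by
  classical
  have h : ∃ t', r.reg t' = r.reg t := ⟨t, rfl⟩
  unfold seqAt
  rw [dif_pos h]
  congr 1
  exact r.inj h.choose_spec

lemma reg_of_seqAt {r : Reg c} {ξ : I} {t : {t : ℕ → (I →₀ ℚ) × ℕ // IsSpecialSeq c t}}
    (h : seqAt r ξ = some t) : r.reg t = ξ := by
  classical
  unfold seqAt at h
  split_ifs at h with h'
  rw [Option.some.injEq] at h
  rw [← h]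
  exact h'.choose_spec

/-- the functionals of the sequence registered at `ξ` -/
noncomputable def bAt (r : Reg c) (ξ : I) (l : ℕ) : I →₀ ℚ :=
  (seqAt r ξ).elim 0 fun t => (t.1 l).1

/-- the weights of the sequence registered at `ξ` -/
noncomputable def wAt (r : Reg c) (ξ : I) (l : ℕ) : ℝ :=
  (seqAt r ξ).elim 0 fun t => ((mq (t.1 l).2 : ℝ))⁻¹

/-- the tails of the sequence registered at `ξ` -/
noncomputable def SAt (r : Reg c) (𝕜 : Type) [RCLike 𝕜] (ξ : I) (K : ℕ) :
    StrongDual 𝕜 (VV c 𝕜) :=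
  (seqAt r ξ).elim 0 fun t => tailV c 𝕜 t.1 K

variable {𝕜 : Type} [RCLike 𝕜]

@[simp] lemma bAt_reg (r : Reg c) (t : {t : ℕ → (I →₀ ℚ) × ℕ // IsSpecialSeq c t}) (l : ℕ) :
    bAt r (r.reg t) l = (t.1 l).1 := by
  unfold bAt; rw [seqAt_reg]; rfl

@[simp] lemma wAt_reg (r : Reg c) (t : {t : ℕ → (I →₀ ℚ) × ℕ // IsSpecialSeq c t}) (l : ℕ) :
    wAt r (r.reg t) l = ((mq (t.1 l).2 : ℝ))⁻¹ := by
  unfold wAt; rw [seqAt_reg]; rfl

@[simp] lemma SAt_reg (r : Reg c) (t : {t : ℕ → (I →₀ ℚ) × ℕ // IsSpecialSeq c t}) (K : ℕ) :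
    SAt r 𝕜 (r.reg t) K = tailV c 𝕜 t.1 K := by
  unfold SAt; rw [seqAt_reg]; rfl

lemma bAt_none {r : Reg c} {ξ : I} (h : seqAt r ξ = none) (l : ℕ) : bAt r ξ l = 0 := by
  unfold bAt; rw [h]; rfl

lemma wAt_none {r : Reg c} {ξ : I} (h : seqAt r ξ = none) (l : ℕ) : wAt r ξ l = 0 := by
  unfold wAt; rw [h]; rfl

lemma SAt_none {r : Reg c} {ξ : I} (h : seqAt r ξ = none) (K : ℕ) : SAt r 𝕜 ξ K = 0 := by
  unfold SAt; rw [h]; rfl

/-- tails tend to zero pointwise -/
lemma tailV_tendsto {t : ℕ → (I →₀ ℚ) × ℕ} (ht : IsSpecialSeq c t) (v : VV c 𝕜) :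
    Tendsto (fun K => tailV c 𝕜 t K v) atTop (𝓝 0) := by
  rw [Metric.tendsto_atTop]
  intro ε hε
  obtain ⟨f, hf⟩ := exists_vec_near v hε
  obtain ⟨N, hN⟩ := eventually_atTop.1 (tailV_vec_eventually (𝕜 := 𝕜) ht f)
  refine ⟨N, fun K hK => ?_⟩
  rw [dist_zero_right]
  have h1 : tailV c 𝕜 t K v = tailV c 𝕜 t K (v - vec c f) := by
    rw [map_sub, hN K hK, sub_zero]
  rw [h1]
  calc ‖tailV c 𝕜 t K (v - vec c f)‖ ≤ ‖tailV c 𝕜 t K‖ * ‖v - vec c f‖ :=
        ContinuousLinearMap.le_opNorm _ _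
    _ ≤ 1 * ‖v - vec c f‖ := mul_le_mul_of_nonneg_right (norm_tailV_le t K) (norm_nonneg _)
    _ < ε := by rw [one_mul]; exact hf

lemma exists_rat_near_unit {x δ : ℝ} (hx : |x| ≤ 1) (hδ : 0 < δ) :
    ∃ q : ℚ, |q| ≤ 1 ∧ |(q : ℝ) - x| ≤ δ := by
  have hδ' : 0 < min δ 1 := lt_min hδ one_pos
  obtain ⟨h1, h2⟩ := abs_le.1 hx
  rcases le_or_gt 0 x with h0 | h0
  · obtain ⟨q, hq1, hq2⟩ := exists_rat_btwn (show x - min δ 1 < x by linarith)
    have h3 : min δ 1 ≤ δ := min_le_left _ _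
    have h4 : min δ 1 ≤ 1 := min_le_right _ _
    refine ⟨q, ?_, ?_⟩
    · rw [abs_le]
      constructor
      · have : (-1 : ℝ) ≤ q := by linarith
        exact_mod_cast this
      · have : (q : ℝ) ≤ 1 := by linarith
        exact_mod_cast this
    · rw [abs_le]; constructor <;> linarith
  · obtain ⟨q, hq1, hq2⟩ := exists_rat_btwn (show x < x + min δ 1 by linarith)
    have h3 : min δ 1 ≤ δ := min_le_left _ _
    have h4 : min δ 1 ≤ 1 := min_le_right _ _
    refine ⟨q, ?_, ?_⟩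
    · rw [abs_le]
      constructor
      · have : (-1 : ℝ) ≤ q := by linarith
        exact_mod_cast this
      · have : (q : ℝ) ≤ 1 := by linarith
        exact_mod_cast this
    · rw [abs_le]; constructor <;> linarith

/-- from rational coefficients to scalars of modulus at most one (abstract) -/
lemma norm_sum_smul_le_of_rat {E : Type*} [NormedAddCommGroup E] [NormedSpace 𝕜 E] {ι : Type*}
    (s : Finset ι) (φ : ι → E)
    (h : ∀ ε : ι → ℚ, (∀ u, |ε u| ≤ 1) → ‖∑ u ∈ s, ((ε u : ℚ) : 𝕜) • φ u‖ ≤ 1)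
    (lam : ι → 𝕜) (hlam : ∀ u ∈ s, ‖lam u‖ ≤ 1) : ‖∑ u ∈ s, lam u • φ u‖ ≤ 2 := by
  classical
  -- real coefficients
  have hreal : ∀ x : ι → ℝ, (∀ u, |x u| ≤ 1) → ‖∑ u ∈ s, ((x u : ℝ) : 𝕜) • φ u‖ ≤ 1 := by
    intro x hx
    refine le_of_forall_pos_le_add fun δ hδ => ?_
    set B : ℝ := ∑ u ∈ s, ‖φ u‖ with hB
    have hB0 : 0 ≤ B := Finset.sum_nonneg fun _ _ => norm_nonneg _
    choose q hq1 hq2 using fun u => exists_rat_near_unit (hx u)
      (show 0 < δ / (B + 1) by positivity)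
    have e1 : ∑ u ∈ s, ((x u : ℝ) : 𝕜) • φ u = ∑ u ∈ s, ((q u : ℚ) : 𝕜) • φ u +
        ∑ u ∈ s, (((x u - (q u : ℝ) : ℝ)) : 𝕜) • φ u := by
      rw [← Finset.sum_add_distrib]
      refine Finset.sum_congr rfl fun u _ => ?_
      rw [← add_smul]
      congr 1
      push_cast
      ring
    rw [e1]
    refine (norm_add_le _ _).trans (add_le_add (h q hq1) ?_)
    refine (norm_sum_le _ _).trans ?_
    calc ∑ u ∈ s, ‖(((x u - (q u : ℝ) : ℝ)) : 𝕜) • φ u‖
        ≤ ∑ u ∈ s, δ / (B + 1) * ‖φ u‖ := by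
          refine Finset.sum_le_sum fun u _ => ?_
          rw [norm_smul, RCLike.norm_ofReal]
          refine mul_le_mul_of_nonneg_right ?_ (norm_nonneg _)
          rw [abs_sub_comm]; exact hq2 u
      _ = δ / (B + 1) * B := by rw [← Finset.mul_sum]
      _ ≤ δ := by
          rw [div_mul_eq_mul_div, div_le_iff₀ (by positivity)]
          nlinarith
  -- truncated coefficients, real and imaginary parts
  let lam' : ι → 𝕜 := fun u => if u ∈ s then lam u else 0
  have hlam' : ∀ u, ‖lam' u‖ ≤ 1 := by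
    intro u
    by_cases hu : u ∈ s
    · simp only [lam', hu, if_true]; exact hlam u hu
    · simp only [lam', hu, if_false, norm_zero]; exact zero_le_one
  have e2 : ∑ u ∈ s, lam u • φ u = ∑ u ∈ s, ((RCLike.re (lam' u) : ℝ) : 𝕜) • φ u +
      (RCLike.I : 𝕜) • ∑ u ∈ s, ((RCLike.im (lam' u) : ℝ) : 𝕜) • φ u := by
    rw [Finset.smul_sum, ← Finset.sum_add_distrib]
    refine Finset.sum_congr rfl fun u hu => ?_
    rw [smul_smul, ← add_smul]
    congr 1
    simp only [lam', hu, if_true]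
    rw [mul_comm]
    exact (RCLike.re_add_im (lam u)).symm
  have h1 := hreal (fun u => RCLike.re (lam' u))
    (fun u => (RCLike.abs_re_le_norm _).trans (hlam' u))
  have h2 := hreal (fun u => RCLike.im (lam' u))
    (fun u => (RCLike.abs_im_le_norm _).trans (hlam' u))
  have hI : ‖(RCLike.I : 𝕜)‖ ≤ 1 := by
    rw [RCLike.norm_I]; split_ifs <;> norm_num
  rw [e2]
  refine (norm_add_le _ _).trans ?_
  rw [norm_smul]
  have h3 : ‖(RCLike.I : 𝕜)‖ * ‖∑ u ∈ s, ((RCLike.im (lam' u) : ℝ) : 𝕜) • φ u‖ ≤ 1 * 1 :=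
    mul_le_mul hI h2 (norm_nonneg _) zero_le_one
  linarith

/-- the uniform bound for combinations of far tails -/
lemma SAt_bound (r : Reg c) (F : Finset I) : ∀ᶠ K in atTop, ∀ lam : I → 𝕜,
    (∀ ξ ∈ F, ‖lam ξ‖ ≤ 1) → ‖∑ ξ ∈ F, lam ξ • SAt r 𝕜 ξ K‖ ≤ 2 := by
  classical
  -- the registered points of `F`
  let A : Finset I := F.filter fun ξ => ∃ t, r.reg t = ξ
  have hA : ∀ ξ ∈ A, ∃ t, r.reg t = ξ := fun ξ hξ => (Finset.mem_filter.1 hξ).2
  let n := A.card
  let e : Fin n ≃ A := A.equivFin.symm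
  choose s hs using fun u : Fin n => hA (e u).1 (e u).2
  have hsinj : Function.Injective s := by
    intro u v huv
    have : (e u).1 = (e v).1 := by rw [← hs u, ← hs v, huv]
    exact e.injective (Subtype.ext this)
  -- a bound for the common indices
  have hfin : ∀ u v : Fin n, u ≠ v → ∃ M : ℕ, ∀ l l', ((s u).1 l).2 = ((s v).1 l').2 →
      ((s u).1 l).2 ≤ M := by
    intro u v huv
    have hne : (s u).1 ≠ (s v).1 := fun h => huv (hsinj (Subtype.ext h))
    have hf := IsCodedSeq.almost_disjoint (s u).2.coded (s v).2.coded hne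
    obtain ⟨M, hM⟩ := hf.bddAbove
    exact ⟨M, fun l l' h => hM ⟨l, l', rfl, h.symm⟩⟩
  choose! M hM using hfin
  let M0 : ℕ := ∑ u : Fin n, ∑ v : Fin n, M u v
  have hM0 : ∀ u v, M u v ≤ M0 := by
    intro u v
    calc M u v ≤ ∑ v : Fin n, M u v :=
          Finset.single_le_sum (f := fun v => M u v) (fun _ _ => Nat.zero_le _) (Finset.mem_univ v)
      _ ≤ M0 := Finset.single_le_sum (f := fun u => ∑ v : Fin n, M u v)
          (fun _ _ => Nat.zero_le _) (Finset.mem_univ u)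
  filter_upwards [eventually_ge_atTop (n + M0 + 1)] with K hK lam hlam
  have hn : ∀ u, n ≤ ((s u).1 K).2 := fun u => by
    have := (s u).2.le_idx K
    omega
  have hd : ∀ u v, u ≠ v → ∀ l ≥ K, ∀ l' ≥ K, ((s u).1 l).2 ≠ ((s v).1 l').2 := by
    intro u v huv l hl l' _ h
    have h1 := hM u v huv l l' h
    have h2 := (s u).2.le_idx l
    have h3 := hM0 u v
    omega
  have hrat : ∀ ε : Fin n → ℚ, (∀ u, |ε u| ≤ 1) →
      ‖∑ u, ((ε u : ℚ) : 𝕜) • tailV c 𝕜 (s u).1 K‖ ≤ 1 := fun ε hε =>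
    norm_sum_tailV_le (fun u => (s u).1) (fun u => (s u).2) ε hε K hn hd
  have h1 := norm_sum_smul_le_of_rat (𝕜 := 𝕜) Finset.univ (fun u => tailV c 𝕜 (s u).1 K) hrat
    (fun u => lam (e u).1) (fun u _ => hlam _ (Finset.mem_filter.1 (e u).2).1)
  have h2 : ∑ ξ ∈ F, lam ξ • SAt r 𝕜 ξ K = ∑ u, lam (e u).1 • tailV c 𝕜 (s u).1 K := by
    have h3 : ∑ ξ ∈ F, lam ξ • SAt r 𝕜 ξ K = ∑ ξ ∈ A, lam ξ • SAt r 𝕜 ξ K := by
      refine (Finset.sum_subset (Finset.filter_subset _ _) fun ξ hξ hξA => ?_).symm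
      have h4 : ¬ ∃ t, r.reg t = ξ := fun h => hξA (Finset.mem_filter.2 ⟨hξ, h⟩)
      have h5 : seqAt r ξ = none := by unfold seqAt; rw [dif_neg h4]
      rw [SAt_none h5]
      exact smul_zero (A := StrongDual 𝕜 (VV c 𝕜)) (lam ξ)
    rw [h3, ← Finset.sum_coe_sort A (fun ξ => lam ξ • SAt r 𝕜 ξ K)]
    rw [← Equiv.sum_comp e]
    refine Finset.sum_congr rfl fun u _ => ?_
    congr 1
    conv_lhs => rw [← hs u]
    exact SAt_reg r (s u) K
  rw [h2]
  exact h1

/-- **The data of the recursion on `VV c 𝕜`.** -/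
noncomputable def tdata (r : Reg c) (𝕜 : Type) [RCLike 𝕜] : TData 𝕜 (VV c 𝕜) I where
  est ξ := actV c 𝕜 (Finsupp.single ξ 1)
  b := bAt r
  w := wAt r
  S := SAt r 𝕜
  lt_of_mem ξ l η hη := by
    rcases h : seqAt r ξ with _ | t
    · rw [bAt_none h] at hη; simp at hη
    · have h' := reg_of_seqAt h
      subst h'
      rw [bAt_reg] at hη
      exact r.lt t l η hη
  w_summable ξ := by
    rcases h : seqAt r ξ with _ | t
    · have : wAt r ξ = fun _ => 0 := by ext l; exact wAt_none h l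
      rw [this]; exact summable_zero
    · have h' := reg_of_seqAt h
      subst h'
      have : wAt r (r.reg t) = fun l => ((mq (t.1 l).2 : ℝ))⁻¹ := by ext l; exact wAt_reg r t l
      rw [this]
      exact t.2.summable
  abs_le_w ξ l η := by
    rcases h : seqAt r ξ with _ | t
    · rw [bAt_none h, wAt_none h]; simp
    · have h' := reg_of_seqAt h
      subst h'
      rw [bAt_reg, wAt_reg]
      exact t.2.abs_le l η
  S_succ ξ K := by
    rcases h : seqAt r ξ with _ | t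
    · rw [bAt_none h, SAt_none h, SAt_none h]; simp
    · have h' := reg_of_seqAt h
      subst h'
      rw [bAt_reg, SAt_reg, SAt_reg, tailV_eq_add t.2 K, actV_eq_sum]
      rfl
  S_tendsto ξ v := by
    rcases h : seqAt r ξ with _ | t
    · have : (fun K => SAt r 𝕜 ξ K v) = fun _ => 0 := by
        ext K; rw [SAt_none h]; rfl
      rw [this]; exact tendsto_const_nhds
    · have h' := reg_of_seqAt h
      subst h'
      have : (fun K => SAt r 𝕜 (r.reg t) K v) = fun K => tailV c 𝕜 t.1 K v := by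
        ext K; rw [SAt_reg]
      rw [this]
      exact tailV_tendsto t.2 v
  S_bound := SAt_bound r

variable (r : Reg c)


lemma tdata_b_reg (t : {t : ℕ → (I →₀ ℚ) × ℕ // IsSpecialSeq c t}) (l : ℕ) :
    (tdata r 𝕜).b (r.reg t) l = (t.1 l).1 := bAt_reg r t l


lemma tdata_S_reg (t : {t : ℕ → (I →₀ ℚ) × ℕ // IsSpecialSeq c t}) (K : ℕ) :
    (tdata r 𝕜).S (r.reg t) K = tailV c 𝕜 t.1 K := SAt_reg r t K



variable [WellFoundedLT I]









end inst

end Crest.Agent.R114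
end

-- ▼ part R114/TInstF
section

/-! # Row 114, S0152: the recursion data satisfy the interface of `FrameInst` (helper430) -/

set_option autoImplicit false

open Set Filter Topology

namespace Crest.Agent.R114

variable {I : Type} [LinearOrder I] {c : Coding I} {𝕜 : Type} [RCLike 𝕜]

theorem tdata_inst (r : Reg c) : TInst r (tdata r 𝕜) where
  est _ := rfl
  b t ht l := tdata_b_reg r ⟨t, ht⟩ l
  S t ht K := tdata_S_reg r ⟨t, ht⟩ K
  S_zero ξ h K := by
    have : seqAt r ξ = none := by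
      unfold seqAt; rw [dif_neg]; rintro ⟨t, ht⟩; exact h t ht
    show SAt r 𝕜 ξ K = 0
    exact SAt_none this K

theorem exists_tinst (𝕜 : Type) [RCLike 𝕜] (r : Reg c) :
    ∃ d : TData 𝕜 (VV c 𝕜) I, TInst r d := ⟨tdata r 𝕜, tdata_inst r⟩

end Crest.Agent.R114
end

-- ▼ part R114/XDualAbs
section

/-! # Row 114, S0152: `X* = V`, abstract form over a frame with recursion data (helper898) -/

set_option autoImplicit false

namespace Crest.Agent.R114

open Filter Topology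

section
variable {𝕜 : Type*} [RCLike 𝕜] {V : Type*} [NormedAddCommGroup V] [NormedSpace 𝕜 V]
  {I : Type*} [LinearOrder I] [WellFoundedLT I]

namespace TData

variable (d : TData 𝕜 V I)

/-- local version of `est_add_T_mem` -/
theorem est_add_T_mem_Iic (ξ : I) :
    ∀ K, d.est ξ + d.T ξ K ∈ Submodule.span 𝕜 (d.gen '' Set.Iic ξ) := by
  induction ξ using WellFoundedLT.induction with
  | ind ξ ih =>
    intro K
    induction K with
    | zero => exact Submodule.subset_span ⟨ξ, le_rfl, rfl⟩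
    | succ K ihK =>
      have h1 : d.ev (d.b ξ K) + d.D (d.b ξ K) ∈ Submodule.span 𝕜 (d.gen '' Set.Iic ξ) := by
        unfold D
        rw [ev_add_eq]
        refine Submodule.sum_mem _ fun η hη => Submodule.smul_mem _ _ ?_
        refine Submodule.span_mono (Set.image_mono (Set.Iic_subset_Iic.2
          (d.lt_of_mem ξ K η hη).le)) (ih η (d.lt_of_mem ξ K η hη) _)
      have h2 : d.est ξ + d.T ξ (K + 1) =
          (d.est ξ + d.T ξ K) - (d.ev (d.b ξ K) + d.D (d.b ξ K)) := by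
        rw [d.T_succ ξ K]; abel
      rw [h2]
      exact Submodule.sub_mem _ ihK h1

theorem lift_mem_Iio (c : I →₀ ℚ) (K : ℕ) (γ : I) (hc : ∀ η ∈ c.support, η < γ) :
    d.lift c K ∈ Submodule.span 𝕜 (d.gen '' Set.Iio γ) := by
  unfold lift
  rw [ev_add_eq]
  refine Submodule.sum_mem _ fun η hη => Submodule.smul_mem _ _ ?_
  refine Submodule.span_mono (Set.image_mono ?_) (d.est_add_T_mem_Iic η _)
  intro x hx
  exact lt_of_le_of_lt hx (hc η hη)

end TData

/-- bound of a functional on a submodule -/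
theorem exists_bound_submodule {𝕜 E : Type*} [RCLike 𝕜] [NormedAddCommGroup E] [NormedSpace 𝕜 E]
    (P : Submodule 𝕜 E) (F : P →L[𝕜] 𝕜) : ∃ M : ℝ, 0 ≤ M ∧ ∀ y : P, ‖F y‖ ≤ M * ‖(y : E)‖ :=
  ⟨‖F‖, norm_nonneg _, fun y => F.le_opNorm y⟩

namespace Frame

/-- lower estimates for a frame: successive increments of a vector along long finite sequences are
small in the mean -/
def LowerEst (Fr : Frame 𝕜 V I) : Prop :=
  ∀ ε > (0 : ℝ), ∃ N : ℕ, 0 < N ∧ ∀ (v : V) (a : ℕ → I), Monotone a →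
    ∑ i ∈ Finset.range N, ‖Fr.R (a (i + 1)) v - Fr.R (a i) v‖ ≤ ε * N * ‖v‖

/-- a norming set of rational functionals -/
structure NormingSet (Fr : Frame 𝕜 V I) (d : TData 𝕜 V I) (B : (I →₀ ℚ) → Prop) : Prop where
  norm_le : ∀ b, B b → ‖d.ev b‖ ≤ 1
  abs_le : ∀ b, B b → ∀ η, |((b η : ℚ) : ℝ)| ≤ 1
  cut : ∀ b, B b → ∀ γ, ∃ b', B b' ∧ (∀ η ∈ b'.support, η < γ) ∧
    ∀ v, d.ev b' v = d.ev b (Fr.R γ v)
  norming : ∀ (v : V) (C : ℝ), (∀ b, B b → ‖d.ev b v‖ ≤ C) → ‖v‖ ≤ C

variable {Fr : Frame 𝕜 V I} {d : TData 𝕜 V I}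

theorem Compat.gen_R (h : Compat Fr d) {β γ : I} (hβ : β < γ) (v : V) :
    d.gen β (Fr.R γ v) = d.gen β v := by
  have h3 : ∀ v, d.gen β v = d.est β v + d.T β 0 v := fun v => rfl
  rw [h3, h3, h.est, Fr.e_R_lt β γ hβ, ← h.T_R β 0 (Fr.R γ v), Fr.R_R β γ hβ.le, h.T_R]

theorem Compat.eq_zero [Nonempty I] (h : Compat Fr d) (hcof : ∀ s : ℕ → I, ∃ γ, ∀ n, s n < γ)
    {γ : I} {v : V} (hR : Fr.R γ v = v) (hv : ∀ β < γ, d.gen β v = 0) : v = 0 := by
  apply Fr.eq_zero_of_e hcof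
  intro ξ
  induction ξ using WellFoundedLT.induction with
  | ind ξ ih =>
    rcases lt_or_ge ξ γ with hξ | hξ
    · have h1 : Fr.R ξ v = 0 := Fr.R_eq_zero_of_e ξ ih
      have h2 := hv ξ hξ
      have h3 : d.gen ξ v = d.est ξ v + d.T ξ 0 v := rfl
      rw [h3, ← h.T_R ξ 0 v, h1, map_zero, add_zero, h.est] at h2
      exact h2
    · rw [← hR, Fr.e_R_ge ξ γ hξ]

variable {F : Predual d.gen →ₗ[𝕜] 𝕜}

/-- `v` represents `F` below `γ` -/
structure Rep (Fr : Frame 𝕜 V I) (d : TData 𝕜 V I) (F : Predual d.gen →ₗ[𝕜] 𝕜) (γ : I) (v : V) :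
    Prop where
  R_eq : Fr.R γ v = v
  gen_eq : ∀ β < γ, d.gen β v = F ⟨d.gen β, mem_predual d.gen β⟩

theorem Rep.unique [Nonempty I] (h : Compat Fr d) (hcof : ∀ s : ℕ → I, ∃ γ, ∀ n, s n < γ)
    {γ : I} {v w : V} (hv : Rep Fr d F γ v) (hw : Rep Fr d F γ w) : v = w := by
  have : v - w = 0 := h.eq_zero hcof (γ := γ) (by rw [map_sub, hv.R_eq, hw.R_eq]) fun β hβ => by
    rw [map_sub, hv.gen_eq β hβ, hw.gen_eq β hβ, sub_self]
  exact sub_eq_zero.1 this

theorem Rep.restrict (h : Compat Fr d) {γ γ' : I} (hγ : γ ≤ γ') {v : V}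
    (hv : Rep Fr d F γ' v) : Rep Fr d F γ (Fr.R γ v) := by
  refine ⟨Fr.R_R γ γ le_rfl v, fun β hβ => ?_⟩
  rw [h.gen_R hβ]
  exact hv.gen_eq β (hβ.trans_le hγ)

theorem Rep.span_eq {γ : I} {v : V} (hv : Rep Fr d F γ v) (z : V →L[𝕜] 𝕜)
    (hz : z ∈ Submodule.span 𝕜 (d.gen '' Set.Iio γ)) :
    ∃ hz' : z ∈ Predual d.gen, z v = F ⟨z, hz'⟩ := by
  induction hz using Submodule.span_induction with
  | mem z hz =>
    obtain ⟨β, hβ, rfl⟩ := hz
    exact ⟨mem_predual d.gen β, hv.gen_eq β hβ⟩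
  | zero => exact ⟨Submodule.zero_mem _, (map_zero F).symm⟩
  | add z w _ _ ihz ihw =>
    obtain ⟨hz', hz⟩ := ihz
    obtain ⟨hw', hw⟩ := ihw
    refine ⟨Submodule.add_mem _ hz' hw', ?_⟩
    have := map_add F ⟨z, hz'⟩ ⟨w, hw'⟩
    rw [← hz, ← hw] at this
    exact this.symm
  | smul c z _ ihz =>
    obtain ⟨hz', hz⟩ := ihz
    refine ⟨Submodule.smul_mem _ c hz', ?_⟩
    have := map_smul F c ⟨z, hz'⟩
    rw [← hz] at this
    exact this.symm

theorem Rep.norm_le {B : (I →₀ ℚ) → Prop} (hB : NormingSet Fr d B) {M : ℝ} (hM : 0 ≤ M)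
    (hF : ∀ y : Predual d.gen, ‖F y‖ ≤ M * ‖(y : V →L[𝕜] 𝕜)‖) {γ : I} {v : V}
    (hv : Rep Fr d F γ v) : ‖v‖ ≤ 4 * M := by
  refine hB.norming v _ fun b hb => ?_
  obtain ⟨b', hb', hsupp, hev⟩ := hB.cut b hb γ
  have h1 : d.ev b v = d.ev b' v := by rw [hev, hv.R_eq]
  rw [h1]
  refine le_of_tendsto (d.lift_tendsto b' v).norm ?_
  filter_upwards [eventually_ge_atTop (d.kappa b'.support)] with K hK
  obtain ⟨hz', hz⟩ := hv.span_eq (d.lift b' K) (d.lift_mem_Iio b' K γ hsupp)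
  rw [hz]
  refine (hF _).trans ?_
  rw [mul_comm]
  refine mul_le_mul_of_nonneg_right ?_ hM
  have h2 := d.lift_norm_le b' hK zero_le_one (hB.abs_le b' hb')
  have h3 := hB.norm_le b' hb'
  show ‖d.lift b' K‖ ≤ 4
  linarith

omit [WellFoundedLT I] in
/-- The limit step: bounded coherent families converge. -/
theorem exists_limit [CompleteSpace V] (hL : LowerEst Fr) (S : Set I) (hne : S.Nonempty)
    (v : I → V) (C : ℝ) (hC : ∀ γ ∈ S, ‖v γ‖ ≤ C)
    (hR : ∀ γ ∈ S, ∀ γ' ∈ S, γ ≤ γ' → Fr.R γ (v γ') = v γ) :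
    ∃ w : V, ∀ ε > 0, ∃ γ₀ ∈ S, ∀ γ ∈ S, γ₀ ≤ γ → ‖v γ - w‖ ≤ ε := by
  have hcl : ∀ ε > 0, ∃ γ₀ ∈ S, ∀ γ ∈ S, γ₀ ≤ γ → ‖v γ - v γ₀‖ ≤ ε := by
    intro ε hε
    by_contra hcon
    push Not at hcon
    choose! nx hnx1 hnx2 hnx3 using hcon
    obtain ⟨γ₀, hγ₀⟩ := hne
    have hC0 : 0 ≤ C := (norm_nonneg _).trans (hC γ₀ hγ₀)
    let a : ℕ → I := fun n => nx^[n] γ₀
    have ha : ∀ n, a n ∈ S := by
      intro n
      induction n with
      | zero => exact hγ₀
      | succ n ih =>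
        show nx^[n + 1] γ₀ ∈ S
        rw [Function.iterate_succ_apply']
        exact hnx1 _ ih
    have hsucc : ∀ n, a (n + 1) = nx (a n) := fun n => Function.iterate_succ_apply' _ _ _
    have hmono : Monotone a := monotone_nat_of_le_succ fun n => by
      rw [hsucc]; exact hnx2 _ (ha n)
    obtain ⟨N, hN0, hN⟩ := hL (ε / (2 * (C + 1))) (by positivity)
    have h1 := hN (v (a N)) a hmono
    have h2 : ∑ i ∈ Finset.range N, ε ≤
        ∑ i ∈ Finset.range N, ‖Fr.R (a (i + 1)) (v (a N)) - Fr.R (a i) (v (a N))‖ := by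
      refine Finset.sum_le_sum fun i hi => ?_
      have hi' : i < N := Finset.mem_range.1 hi
      rw [hR _ (ha _) _ (ha _) (hmono (show i + 1 ≤ N from hi')),
        hR _ (ha _) _ (ha _) (hmono hi'.le), hsucc]
      exact (hnx3 _ (ha i)).le
    rw [Finset.sum_const, Finset.card_range, nsmul_eq_mul] at h2
    have h3 : ε / (2 * (C + 1)) * N * ‖v (a N)‖ ≤ ε / (2 * (C + 1)) * N * C :=
      mul_le_mul_of_nonneg_left (hC _ (ha N)) (by positivity)
    have h4 := (h2.trans h1).trans h3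
    have hN' : (0 : ℝ) < N := by exact_mod_cast hN0
    have h5 : ε / (2 * (C + 1)) * N * C = (N * ε) * (C / (2 * (C + 1))) := by
      field_simp
    rw [h5] at h4
    have h6 : C / (2 * (C + 1)) < 1 := by
      rw [div_lt_one (by positivity)]; linarith
    have h7 : (N * ε) * (C / (2 * (C + 1))) < (N * ε) * 1 :=
      mul_lt_mul_of_pos_left h6 (by positivity)
    linarith
  have hpos : ∀ n : ℕ, (0 : ℝ) < 1 / ((n : ℝ) + 1) := fun n => by positivity
  choose s hs1 hs2 using fun n : ℕ => hcl (1 / ((n : ℝ) + 1)) (hpos n)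
  have hs3 : ∀ n m, ‖v (s n) - v (s m)‖ ≤ 1 / ((n : ℝ) + 1) + 1 / ((m : ℝ) + 1) := by
    intro n m
    have hmax : max (s n) (s m) ∈ S := by
      rcases max_choice (s n) (s m) with h | h <;> rw [h]
      exacts [hs1 n, hs1 m]
    have e1 := hs2 n _ hmax (le_max_left _ _)
    have e2 := hs2 m _ hmax (le_max_right _ _)
    calc ‖v (s n) - v (s m)‖ = ‖(v (max (s n) (s m)) - v (s m)) - (v (max (s n) (s m)) - v (s n))‖ := by
          congr 1; abel
      _ ≤ ‖v (max (s n) (s m)) - v (s m)‖ + ‖v (max (s n) (s m)) - v (s n)‖ := norm_sub_le _ _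
      _ ≤ _ := by linarith
  have hcau : CauchySeq fun n => v (s n) := by
    rw [Metric.cauchySeq_iff']
    intro ε hε
    obtain ⟨N, hN⟩ := exists_nat_one_div_lt (half_pos hε)
    refine ⟨N, fun n hn => ?_⟩
    rw [dist_eq_norm]
    have h1 := hs3 n N
    have h2 : 1 / ((n : ℝ) + 1) ≤ 1 / ((N : ℝ) + 1) := by
      apply one_div_le_one_div_of_le (by positivity)
      have : (N : ℝ) ≤ n := by exact_mod_cast hn
      linarith
    linarith
  obtain ⟨w, hw⟩ := cauchySeq_tendsto_of_complete hcau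
  have hw2 : ∀ n, ‖v (s n) - w‖ ≤ 1 / ((n : ℝ) + 1) := by
    intro n
    have h1 : Tendsto (fun m => ‖v (s n) - v (s m)‖) atTop (𝓝 ‖v (s n) - w‖) :=
      (hw.const_sub _).norm
    have h2 : Tendsto (fun m : ℕ => 1 / ((n : ℝ) + 1) + 1 / ((m : ℝ) + 1)) atTop
        (𝓝 (1 / ((n : ℝ) + 1) + 0)) :=
      tendsto_const_nhds.add tendsto_one_div_add_atTop_nhds_zero_nat
    rw [add_zero] at h2
    exact le_of_tendsto_of_tendsto' h1 h2 fun m => hs3 n m
  refine ⟨w, fun ε hε => ?_⟩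
  obtain ⟨N, hN⟩ := exists_nat_one_div_lt (half_pos hε)
  refine ⟨s N, hs1 N, fun γ hγ hle => ?_⟩
  have h1 := hs2 N γ hγ hle
  have h2 := hw2 N
  calc ‖v γ - w‖ = ‖(v γ - v (s N)) + (v (s N) - w)‖ := by congr 1; abel
    _ ≤ ‖v γ - v (s N)‖ + ‖v (s N) - w‖ := norm_add_le _ _
    _ ≤ ε := by linarith

theorem exists_rep [CompleteSpace V] [Nonempty I] (h : Compat Fr d)
    (hcof : ∀ s : ℕ → I, ∃ γ, ∀ n, s n < γ) (hL : LowerEst Fr) {B : (I →₀ ℚ) → Prop}
    (hB : NormingSet Fr d B) {M : ℝ} (hM : 0 ≤ M)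
    (hF : ∀ y : Predual d.gen, ‖F y‖ ≤ M * ‖(y : V →L[𝕜] 𝕜)‖) (γ : I) :
    ∃ v, Rep Fr d F γ v := by
  induction γ using WellFoundedLT.induction with
  | ind γ ih =>
    choose! v hv using ih
    by_cases hne : ∃ ξ, ξ < γ
    · by_cases hlim : ∀ ξ, ξ < γ → ∃ η, ξ < η ∧ η < γ
      · -- limit case
        obtain ⟨w, hw⟩ := exists_limit hL (Set.Iio γ) hne v (4 * M)
          (fun γ' hγ' => (hv γ' hγ').norm_le hB hM hF) (fun β hβ β' hβ' hle =>
            ((hv β' hβ').restrict h hle).unique h hcof (hv β hβ))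
        refine ⟨w, ?_, ?_⟩
        · have h1 : ∀ ε > 0, ‖Fr.R γ w - w‖ ≤ 0 + ε := by
            intro ε hε
            obtain ⟨γ₀, hγ₀, hγ₀'⟩ := hw (ε / 2) (half_pos hε)
            have h2 := hγ₀' γ₀ hγ₀ le_rfl
            have h3 : Fr.R γ w - w = (v γ₀ - w) - Fr.R γ (v γ₀ - w) := by
              rw [map_sub]
              have h4 : Fr.R γ (v γ₀) = v γ₀ := by
                rw [← (hv γ₀ hγ₀).R_eq]
                exact Fr.R_R' γ γ₀ (le_of_lt hγ₀) _
              rw [h4]; abel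
            rw [h3]
            calc _ ≤ ‖v γ₀ - w‖ + ‖Fr.R γ (v γ₀ - w)‖ := norm_sub_le _ _
              _ ≤ ‖v γ₀ - w‖ + ‖v γ₀ - w‖ := by gcongr; exact Fr.R_norm _ _
              _ ≤ 0 + ε := by linarith
          have h2 := le_of_forall_pos_le_add h1
          exact sub_eq_zero.1 (norm_le_zero_iff.1 h2)
        · intro β hβ
          have h1 : ∀ ε > 0, ‖d.gen β w - F ⟨d.gen β, mem_predual d.gen β⟩‖ ≤ 0 + ε := by
            intro ε hε
            obtain ⟨γ₀, hγ₀, hγ₀'⟩ := hw (ε / (‖d.gen β‖ + 1)) (by positivity)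
            obtain ⟨η, hη, hη'⟩ := hlim (max γ₀ β) (max_lt hγ₀ hβ)
            have h2 := hγ₀' η hη' ((le_max_left _ _).trans hη.le)
            rw [← (hv η hη').gen_eq β ((le_max_right _ _).trans_lt hη), ← map_sub]
            rw [norm_sub_rev] at h2
            calc ‖d.gen β (w - v η)‖ ≤ ‖d.gen β‖ * ‖w - v η‖ := ContinuousLinearMap.le_opNorm _ _
              _ ≤ ‖d.gen β‖ * (ε / (‖d.gen β‖ + 1)) := by gcongr
              _ ≤ 0 + ε := by
                rw [zero_add, mul_div_assoc', div_le_iff₀ (by positivity)]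
                nlinarith [norm_nonneg (d.gen β)]
          have h2 := le_of_forall_pos_le_add h1
          exact sub_eq_zero.1 (norm_le_zero_iff.1 h2)
      · -- successor case
        push Not at hlim
        obtain ⟨ξ, hξ, hsucc⟩ := hlim
        have hmax : ∀ η, η < γ → η ≤ ξ := fun η hη => by
          by_contra hcon
          exact absurd hη (not_lt.2 (hsucc η (not_le.1 hcon)))
        have hvξ := hv ξ hξ
        have hgen : ∀ β ≤ ξ, β < ξ → d.gen β (Fr.δ ξ) = 0 := by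
          intro β _ hβ
          rw [← h.gen_R hβ, Fr.R_ge ξ ξ le_rfl, map_zero]
        have hself : d.gen ξ (Fr.δ ξ) = 1 := by
          have h3 : d.gen ξ (Fr.δ ξ) = d.est ξ (Fr.δ ξ) + d.T ξ 0 (Fr.δ ξ) := rfl
          rw [h3, h.est, Fr.e_self, ← h.T_R, Fr.R_ge ξ ξ le_rfl, map_zero, add_zero]
        refine ⟨v ξ + (F ⟨d.gen ξ, mem_predual d.gen ξ⟩ - d.gen ξ (v ξ)) • Fr.δ ξ, ?_, ?_⟩
        · rw [map_add, map_smul, Fr.R_lt γ ξ hξ]
          congr 1
          rw [← hvξ.R_eq]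
          exact Fr.R_R' γ ξ hξ.le _
        · intro β hβ
          rw [map_add, map_smul]
          rcases (hmax β hβ).lt_or_eq with h1 | h1
          · rw [hgen β h1.le h1, smul_zero, add_zero]
            exact hvξ.gen_eq β h1
          · subst h1
            rw [hself, smul_eq_mul, mul_one]
            abel
    · push Not at hne
      refine ⟨0, map_zero _, fun β hβ => absurd hβ (not_lt.2 (hne β))⟩

/-- **`X* = V`**: every continuous functional on the predual is the evaluation at a vector. -/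
theorem exists_vec [CompleteSpace V] [Nonempty I] (h : Compat Fr d)
    (hcof : ∀ s : ℕ → I, ∃ γ, ∀ n, s n < γ) (hL : LowerEst Fr) {B : (I →₀ ℚ) → Prop}
    (hB : NormingSet Fr d B) (F : Predual d.gen →L[𝕜] 𝕜) :
    ∃ v : V, ∀ β, F ⟨d.gen β, mem_predual d.gen β⟩ = d.gen β v := by
  obtain ⟨M, hM, hF⟩ := exists_bound_submodule (Predual d.gen) F
  choose v hv using fun γ => exists_rep (F := (F : Predual d.gen →ₗ[𝕜] 𝕜)) h hcof hL hB hM hF γ
  obtain ⟨w, hw⟩ := exists_limit hL Set.univ Set.univ_nonempty v (4 * M)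
    (fun γ _ => (hv γ).norm_le hB hM hF) (fun β _ β' _ hle =>
      ((hv β').restrict h hle).unique h hcof (hv β))
  refine ⟨w, fun β => ?_⟩
  have h1 : ∀ ε > 0, ‖d.gen β w - (F : Predual d.gen →ₗ[𝕜] 𝕜) ⟨d.gen β, mem_predual d.gen β⟩‖ ≤
      0 + ε := by
    intro ε hε
    obtain ⟨γ₀, -, hγ₀'⟩ := hw (ε / (‖d.gen β‖ + 1)) (by positivity)
    obtain ⟨η, hη⟩ := hcof fun _ => max γ₀ β
    have h2 := hγ₀' η (Set.mem_univ _) ((le_max_left _ _).trans (hη 0).le)
    rw [← (hv η).gen_eq β ((le_max_right _ _).trans_lt (hη 0)), ← map_sub]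
    rw [norm_sub_rev] at h2
    calc ‖d.gen β (w - v η)‖ ≤ ‖d.gen β‖ * ‖w - v η‖ := ContinuousLinearMap.le_opNorm _ _
      _ ≤ ‖d.gen β‖ * (ε / (‖d.gen β‖ + 1)) := by gcongr
      _ ≤ 0 + ε := by
        rw [zero_add, mul_div_assoc', div_le_iff₀ (by positivity)]
        nlinarith [norm_nonneg (d.gen β)]
  have h2 := le_of_forall_pos_le_add h1
  exact (sub_eq_zero.1 (norm_le_zero_iff.1 h2)).symm

end Frame

end

end Crest.Agent.R114
end

-- ▼ part R114/XDual

/-! # Row 114, S0152: `X* = V` for the space `VV c 𝕜` (helper898) -/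

set_option autoImplicit false

open Set Filter Topology

namespace Crest.Agent.R114

variable {I : Type} [LinearOrder I] {c : Coding I} {𝕜 : Type} [RCLike 𝕜]

lemma RV_Ico (a b : I) (hab : a ≤ b) (v : VV c 𝕜) :
    RV c 𝕜 (E := Ico a b) ordConnected_Ico v =
      RV c 𝕜 (E := Iio b) ordConnected_Iio v - RV c 𝕜 (E := Iio a) ordConnected_Iio v := by
  have h : RV c 𝕜 (E := Ico a b) ordConnected_Ico =
      RV c 𝕜 (E := Iio b) ordConnected_Iio - RV c 𝕜 (E := Iio a) ordConnected_Iio := by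
    refine ext_vec fun f => ?_
    show _ = RV c 𝕜 (E := Iio b) ordConnected_Iio (vec c f) -
      RV c 𝕜 (E := Iio a) ordConnected_Iio (vec c f)
    rw [RV_vec, RV_vec, RV_vec, eq_sub_iff_add_eq, ← vec_add]
    congr 1
    classical
    ext x
    rw [Finsupp.add_apply, cut_apply, cut_apply, cut_apply]
    by_cases h1 : x < a
    · have h2 : x < b := h1.trans_le hab
      simp [h1, h2, not_le.2 h1]
    · by_cases h2 : x < b
      · simp [h1, h2, not_lt.1 h1]
      · simp [h1, h2]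
  rw [h]; rfl

lemma exists_ratio_small {ε : ℝ} (hε : 0 < ε) : ∃ j : ℕ, 2 * (mq j : ℝ) ≤ ε * nq j := by
  obtain ⟨j0, hj0⟩ := exists_nat_gt (2 / ε)
  let j := max j0 2
  have hj2 : 2 ≤ j := le_max_right _ _
  have hj : 2 / ε < j := hj0.trans_le (by exact_mod_cast le_max_left _ _)
  refine ⟨j, ?_⟩
  have h1 := two_mq_lt j
  have h2 : ((j ^ (4 * j + 6) : ℕ) : ℝ) ≤ nq j := by exact_mod_cast pow_le_nq (le_refl j)
  have hjpos : (0 : ℝ) < j := by
    have : (2 : ℝ) ≤ j := by exact_mod_cast hj2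
    linarith
  have h3 : (2 : ℝ) ^ (4 * j + 6) ≤ ε * (j : ℝ) ^ (4 * j + 6) := by
    have e1 : (2 : ℝ) ^ (4 * j + 6) = 2 ^ (4 * j + 5) * 2 := by rw [← pow_succ]
    have e2 : (j : ℝ) ^ (4 * j + 6) = (j : ℝ) ^ (4 * j + 5) * j := by rw [← pow_succ]
    rw [e1, e2]
    have h4 : (2 : ℝ) ^ (4 * j + 5) ≤ (j : ℝ) ^ (4 * j + 5) := by
      apply pow_le_pow_left₀ (by norm_num)
      exact_mod_cast hj2
    have h5 : (2 : ℝ) ≤ ε * j := by
      rw [div_lt_iff₀ hε] at hj
      linarith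
    calc (2 : ℝ) ^ (4 * j + 5) * 2 ≤ (j : ℝ) ^ (4 * j + 5) * (ε * j) :=
          mul_le_mul h4 h5 (by norm_num) (by positivity)
      _ = ε * ((j : ℝ) ^ (4 * j + 5) * j) := by ring
  push_cast at h2
  calc 2 * (mq j : ℝ) ≤ (2 : ℝ) ^ (4 * j + 6) := h1.le
    _ ≤ ε * (j : ℝ) ^ (4 * j + 6) := h3
    _ ≤ ε * nq j := mul_le_mul_of_nonneg_left h2 hε.le

theorem frameV_lowerEst (c : Coding I) (𝕜 : Type) [RCLike 𝕜] :
    Frame.LowerEst (frameV c 𝕜) := by
  intro ε hε
  obtain ⟨j, hj⟩ := exists_ratio_small hε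
  refine ⟨nq j, ?_, ?_⟩
  · by_contra h0
    have h1 : nq j = 0 := by omega
    rw [h1] at hj
    have h2 : (0 : ℝ) < mq j := by
      unfold mq; positivity
    simp only [Nat.cast_zero, mul_zero] at hj
    linarith
  · intro v a ha
    have h1 := lower_estimate_V (c := c) (𝕜 := 𝕜) j (nq j) le_rfl v
      (fun i => Ico (a i) (a (i + 1))) (fun i => ordConnected_Ico) (by
        intro i i' hii' _ x hx y hy
        exact hx.2.trans_le ((ha (show i + 1 ≤ i' from hii')).trans hy.1))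
    calc ∑ i ∈ Finset.range (nq j), ‖(frameV c 𝕜).R (a (i + 1)) v - (frameV c 𝕜).R (a i) v‖ =
        ∑ i ∈ Finset.range (nq j),
          ‖RV c 𝕜 (E := Ico (a i) (a (i + 1))) ordConnected_Ico v‖ := by
          refine Finset.sum_congr rfl fun i _ => ?_
          rw [RV_Ico _ _ (ha (Nat.le_succ i))]
          rfl
      _ ≤ 2 * mq j * ‖v‖ := h1
      _ ≤ ε * nq j * ‖v‖ := mul_le_mul_of_nonneg_right hj (norm_nonneg v)

lemma ev_eq_actV {d : TData 𝕜 (VV c 𝕜) I} (hest : ∀ ξ, d.est ξ = actV c 𝕜 (Finsupp.single ξ 1))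
    (b : I →₀ ℚ) : d.ev b = actV c 𝕜 b := by
  rw [actV_eq_sum]
  unfold TData.ev
  rw [Finsupp.sum]
  exact Finset.sum_congr rfl fun ξ _ => by rw [hest]

lemma actV_cut {E : Set I} (hE : E.OrdConnected) (b : I →₀ ℚ) (v : VV c 𝕜) :
    actV c 𝕜 (cut E b) v = actV c 𝕜 b (RV c 𝕜 hE v) := by
  have h : actV c 𝕜 (cut E b) = (actV c 𝕜 b).comp (RV c 𝕜 hE) := by
    refine ext_vec fun f => ?_
    show _ = actV c 𝕜 b (RV c 𝕜 hE (vec c f))
    rw [RV_vec, actV_vec, actV_vec, act_cut]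
  rw [h]; rfl

theorem normingSet [WellFoundedLT I] {r : Reg c} {d : TData 𝕜 (VV c 𝕜) I} (h : TInst r d) :
    Frame.NormingSet (frameV c 𝕜) d (NB c) where
  norm_le := fun b hb => by
    rw [ev_eq_actV h.est]
    exact norm_actV_le hb
  abs_le := fun b hb η => by
    have := hb.abs_le_one η
    exact_mod_cast this
  cut := fun b hb γ => by
    refine ⟨cut (Iio γ) b, hb.cut ordConnected_Iio, ?_, fun v => ?_⟩
    · intro η hη
      have h1 := cut_support (Iio γ) b
      classical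
      rw [Finsupp.mem_support_iff, cut_apply] at hη
      by_contra hcon
      exact hη (if_neg hcon)
    · rw [ev_eq_actV h.est, ev_eq_actV h.est, actV_cut ordConnected_Iio]
      rfl
  norming := fun v C hC => norm_le_of_actV fun b hb => by
    rw [← ev_eq_actV h.est]
    exact hC b hb

/-- **`X* = V`** -/
theorem hdual [WellFoundedLT I] [Nonempty I] (hcof : ∀ s : ℕ → I, ∃ γ, ∀ n, s n < γ)
    {r : Reg c} {d : TData 𝕜 (VV c 𝕜) I} (h : TInst r d) :
    ∀ F : Frame.Predual d.gen →L[𝕜] 𝕜, ∃ v : VV c 𝕜, ∀ β,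
      F ⟨d.gen β, Frame.mem_predual _ β⟩ = d.gen β v :=
  fun F => Frame.exists_vec h.compat hcof (frameV_lowerEst c 𝕜) (normingSet h) F

theorem hdual' (hI : GoodIndex I) [WellFoundedLT I] {r : Reg c} {d : TData 𝕜 (VV c 𝕜) I}
    (h : TInst r d) : ∀ F : Frame.Predual d.gen →L[𝕜] 𝕜, ∃ v : VV c 𝕜, ∀ β,
      F ⟨d.gen β, Frame.mem_predual _ β⟩ = d.gen β v := by
  have hne : Nonempty I := hI.ne
  refine hdual (fun s => ?_) h
  obtain ⟨γ, hγ⟩ := hI.bdd (range s) (countable_range s)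
  exact ⟨γ, fun n => hγ _ ⟨n, rfl⟩⟩

end Crest.Agent.R114
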